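import Crest.Agent.X212.Lw78.MovB
import Crest.Agent.X212.Gb50.Base

/-!
# Row 212, GLL-MOV (helper78): moving limits
-/

set_option autoImplicit false
set_option linter.unusedSectionVars false
set_option maxSynthPendingDepth 3
noncomputable section
open scoped Manifold ContDiff Topology ENNReal NNReal
open MeasureTheory Set Function Filter Real

namespace Crest.Agent.X212.Lw78.Mv
open An An.Job M Nd18 Sob92 Prm93 Gl67 Gla92 Gj67
open Ell97 (UB)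
open Cay24 (At ev_at mix_lit mix_hi mix_φ lit_ψ pY pY_ψ st deep src_of)
open Gb50 (Lg h0 agr_refl agr_symm)
open Cht98 (Agr)

variable {Wi : Type} {X : Mf 4} {A κ lam : Type} [Fintype A] [Fintype κ] [Fintype lam]
  [DecidableEq lam] {M : Mark X A κ} {W : World M} {L : ML M lam} {Λ : Lns W L}
  {A' h : Type} [Fintype A'] [DecidableEq A'] [Fintype h] {r n : ℕ}
  {J : Job Wi Λ A' h r n} {σ : Cel A'} {a : A'}
  {U Up R : Type} [NormedAddCommGroup U] [NormedSpace ℝ U] [NormedAddCommGroup Up]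
  [NormedSpace ℝ Up] [NormedAddCommGroup R] [NormedSpace ℝ R] {d : Dat J σ a U Up R}
  {q₀ : Wi →₀ ℝ} {δ e : ℝ} {V : Type} [NormedAddCommGroup V] [NormedSpace ℝ V]

theorem l0_Z : L0 d.FZ univ :=
  ⟨agr_refl _ isOpen_univ, fun _ _ _ _ => rfl, fun _ _ => rfl, fun _ _ => rfl⟩

variable (d e) in
/-- decay on the ends of the face -/
abbrev DS (O : Set (W.Z (J.cf a)).M) (f : (W.Z (J.cf a)).M → V) : Prop :=
  Dk (P0 fun _ : Unit => d.FS) (fun _ => O) (fun _ x => exp (-e * d.hS x)) fun _ => f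

variable (H : d.OK q₀ δ)
include H

theorem pP_Z (hN : Ink3.Nil (J.xs d.x).N) : ∀ᶠ u in 𝓝 (0 : U), ∀ τ z, pP (d.Z τ) u z = 0 := by
  have k : ∀ u, (J.xs d.x).N.Crit d.D (d.β u) → ∀ τ z, bC (d.Z τ) u z =
      (d.Z 0).md.mu d.D.B z (d.ΦZ z.1) (d.ΦZ z.1) := fun u hu τ z => by
    have := hu.sol.C z
    rw [hN.q1] at this
    exact (bC_lit (H.okZ τ) u l0_Z z).trans (sub_eq_zero.1 ((sub_zero _).symm.trans this))
  exact H.crit.mono fun u hu τ z => by rw [pP, k u hu, k 0 H.crit.self_of_nhds, sub_self]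

theorem l0_S : L0 d.FS univ :=
  l0_fam H.okS.fam.G0 (show Agr (J.G (J.cf a) d.y.s) (J.G (J.cf a) (d.s 1 0)) univ by
    rw [Gb50.s_one H]; exact agr_refl _ isOpen_univ)

theorem hy_S : Hy fun _ : Unit => d.S :=
  have u : ∀ {V : Type} [NormedAddCommGroup V] [NormedSpace ℝ V] {f : (W.Z (J.cf a)).M → V},
      d.FS.F0.Cb f → UB (P0 fun _ : Unit => d.FS) fun _ => f := fun k => k.imp fun _ k _ => k
  let ⟨r, r0, C, k, _⟩ := (Gb50.geo H).fam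
  ⟨fun _ => H.okS, ⟨r, r0.le, C, fun _ => k⟩, u H.okS.cp, fun i => u (H.okS.cρ i), u H.okS.cj,
    fun i => u (H.okS.cA i), u H.okS.cb⟩

theorem cg_KS (b : Bool) : Cg (d.Z 0) d.S (d.KS b).ψ {z | d.R0 < -pm b * z.2} :=
  ⟨⟨(d.KS b).rel.mono (isOpen_lt continuous_const (by fun_prop)) fun _ => src_of H,
    fun i j _ hw => ((d.KS b).P i j _ (src_of H hw)).symm,
    fun i j k l _ hw => ((d.KS b).o i j k l _ (src_of H hw)).symm,
    fun _ hw => ((d.KS b).l _ (src_of H hw)).symm, (d.KS b).il.symm,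
    fun i _ hw => ((d.KS b).a i _ (src_of H hw)).symm⟩,
    fun _ => lit_ψ H.lp, fun i _ => lit_ψ (H.lρ i), fun _ => lit_ψ H.lj, fun _ => lit_ψ H.lb⟩

theorem hS_le {b : Bool} {z : d.Y × ℝ} (k : d.R0 < -pm b * z.2) : d.hS ((d.KS b).ψ z) ≤ |z.2| := by
  have k1 := src_of H k
  have h1 := Dw82.ka_le (-pm b * z.2 - d.R0)
  have h2 : -pm b * z.2 ≤ |z.2| := by cases b <;> simp [pm, le_abs_self, neg_le_abs]
  rw [Gb50.hS_side H b ((Gb50.S_tgt H b).1 ((d.KS b).ψ.map_source k1)).2.le, (d.KS b).tm_ψ z k1,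
    Gb50.gh_one (by linarith [H.R1])]
  rw [abs_of_pos (sub_pos.2 k)] at h1
  linarith [ka_nonneg (-(-pm b * z.2 - d.R0)), H.R1]

theorem ds_dec (e0 : 0 ≤ e) {f : (W.Z (J.cf a)).M → V} {g : d.Y → V} (k : d.Dec e f g)
    (hf : Sm (W.Z (J.cf a)).I f) (hg : Sm (Cyf70.IC (J.xs d.x).Y.I) fun z : d.Y × ℝ => g z.1) :
    DS d e {x | 0 < d.hS x} fun x => f x - g (pY d x) := by
  refine ⟨fun _ => isOpen_lt continuous_const d.sm_hS.continuous, fun _ _ => (exp_pos _).le,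
    fun _ x hx => ?_, fun w => ?_⟩
  · obtain ⟨b, z, k, rfl⟩ := deep H.ok H.R1 hx
    have k1 := (d.KS b).ψ.map_source (src_of H k)
    refine (hf _).sub (((d.KS b).rel'.sm k1 (hg _)).congr_of_eventuallyEq
      (((d.KS b).ψ.open_target.eventually_mem k1).mono fun y hy => ?_))
    exact congrArg g ((congrArg (pY d) ((d.KS b).ψ.right_inv hy).symm).trans
      (pY_ψ H.ok ((d.KS b).ψ.map_target hy)))
  · obtain ⟨C, hC⟩ := k w
    refine ⟨|C|, fun _ x hx => ?_⟩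
    obtain ⟨b, z, k, rfl⟩ := deep H.ok H.R1 hx
    refine (congrArg norm ((d.KS b).rel.Dw (src_of H k) w
      (u := fun z => f ((d.KS b).ψ z) - g z.1) (((d.KS b).ψ.open_source.eventually_mem
        (src_of H k)).mono fun y hy => by rw [pY_ψ H.ok hy])).symm).trans_le ?_
    exact (hC b z k).trans (mul_le_mul (le_abs_self C) (exp_le_exp.2 (by
      nlinarith [hS_le H k])) (exp_pos _).le (abs_nonneg C))

theorem ds_glue {f : (W.Z (J.cf a)).M → V} (k : DS d e {x | 0 < d.hS x} f)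
    (hu : UB (P0 fun _ : Unit => d.FS) fun _ => f) : DS d e univ f :=
  k.glue hu fun _ x hx => by
    rw [show d.hS x = 0 from le_antisymm (not_lt.1 hx) (H.okS.h0 x)]; simp

theorem pP_S {u : U} (hu : ∀ τ z, pP (d.Z τ) u z = 0) {x} (hx : 0 < d.hS x) :
    pP d.S u x = Ln d.S (fun i => d.y.x.W i x - d.AZ i (pY d x)) u x := by
  obtain ⟨b, z, k, rfl⟩ := deep H.ok H.R1 hx
  have e := Pl_sub d.S (fun i => d.y.x.W i ((d.KS b).ψ z))
    (fun i => d.y.x.W i ((d.KS b).ψ z) - d.AZ i (pY d ((d.KS b).ψ z))) 1 u ((d.KS b).ψ z)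
  simp only [one_smul, sub_sub_cancel] at e
  rw [(cg_KS H b).Pl k, pY_ψ H.ok (src_of H k)] at e
  rw [pP_lit H.okS (l0_S H) u trivial, pY_ψ H.ok (src_of H k)]
  exact sub_eq_zero.1 (e.symm.trans ((pP_lit (H.okZ 0) l0_Z u trivial).symm.trans (hu 0 z)))

theorem ds_P (e0 : 0 ≤ e) (k : ∀ i, d.Dec e (d.y.x.W i) (d.AZ i)) {u : U}
    (hu : ∀ τ z, pP (d.Z τ) u z = 0) : DS d e {x | 0 < d.hS x} (pP d.S u) :=
  ((hy_S H).Ln (fun _ => isOpen_lt continuous_const d.sm_hS.continuous)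
    (fun _ _ => (exp_pos _).le) (fun i => ds_dec H e0 (k i) (Cb.sm (H.okS.cA i))
      (Cb.sm ((H.okZ 0).cA i))) u).congr fun _ _ => pP_S H hu

theorem ds_Φ (e0 : 0 ≤ e) (k : d.Dec e d.y.x.Φ d.ΦZ) (hΦ : d.ΦZ = 0) :
    DS d e {x | 0 < d.hS x} d.y.x.Φ :=
  (ds_dec H e0 k (Cb.sm H.okS.cΦ) (Cb.sm (H.okZ 0).cΦ)).congr fun _ _ _ => by simp [hΦ]

/-- from the face to the long neck -/
theorem push {ι : Type} {τ : ι → d.Ta} (G : ∀ i, At d (τ i)) {f : (W.Z (J.cf a)).M → V}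
    {fX : ι → (W.Z M.c0).M → V} (hf : DS d e {x | 0 < d.hS x} f)
    (hu : UB (P0 fun i => d.FX (τ i)) fX)
    (e1 : ∀ i, ∀ w ∈ (d.φ (τ i)).source, 0 < d.hS w →
      fX i (d.φ (τ i) w) = (1 - st d (τ i) w) • f w)
    (e2 : ∀ i, ∀ z ∈ (d.ψ (τ i)).source, d.la (τ i) - 1 < d.hX (τ i) (d.ψ (τ i) z) →
      fX i (d.ψ (τ i) z) = 0) :
    Dk (P0 fun i => d.FX (τ i)) (fun _ => univ) (fun i x => exp (-e * d.hX (τ i) x)) fX := by
  obtain ⟨C0, k0⟩ := Gb50.UC.comp (l := ⊤) (F := fun _ => d.FS.F0.toPre) (h := fun _ => d.hS)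
    (Gb50.ub_st (d := d)) (fun _ => d.sm_hS) fun i => .of_cb (H.okS.ch i)
  have k : Dk (fun _ : ι => d.FS.F0.toPre) (fun _ => {x | 0 < d.hS x})
      (fun _ x => exp (-e * d.hS x)) fun i w => (1 - st d (τ i) w) • f w :=
    Dk.smul ((UB.const 1).sub ⟨C0, fun i => eventually_top.1 k0 (τ i)⟩)
      ⟨fun _ => hf.op (), fun _ => hf.g0 (), fun _ => hf.sm (), fun w =>
        (hf.bd w).imp fun _ k _ => k ()⟩
  refine Dk.glue (O := fun i => {x | 0 < d.hX (τ i) x}) ⟨fun i => isOpen_lt continuous_const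
    (d.sm_hX _).continuous, fun _ _ => (exp_pos _).le, fun i => smO (hu.sm i), fun w => ?_⟩ hu
    fun i x hx => by
      rw [show d.hX (τ i) x = 0 from le_antisymm (not_lt.1 hx) (ka_nonneg _)]; simp
  obtain ⟨C, hC⟩ := k.bd w
  refine ⟨|C|, fun i z hz => ?_⟩
  by_cases h1 : z ∈ (d.φ (τ i)).target
  · obtain ⟨x, hx, rfl⟩ : ∃ x ∈ (d.φ (τ i)).source, d.φ (τ i) x = z :=
      ⟨_, (d.φ (τ i)).map_target h1, (d.φ (τ i)).right_inv h1⟩
    have h2 := ((G i).φ.2.2.2 x hx).1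
    have h3 : 0 < d.hS x := h2 ▸ hz
    rw [h2]
    refine (congrArg norm ((Pj41.fRel_of_iso (G i).φ.1).Dw hx w
      (u := fun w => (1 - st d (τ i) w) • f w) ((((d.φ (τ i)).open_source.eventually_mem hx).and
        ((k.op i).eventually_mem h3)).mono fun y hy => (e1 i y hy.1 hy.2).symm)).symm).trans_le ?_
    exact (hC i x h3).trans (mul_le_mul_of_nonneg_right (le_abs_self C) (exp_pos _).le)
  · rw [(G i).φ.2.2.1] at h1
    have h2 : d.la (τ i) ≤ d.hX (τ i) z := not_lt.1 h1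
    rw [Dw_congr w (v := fun _ => 0) (((d.sm_hX (τ i)).continuous.continuousAt.eventually_const_lt
      (show d.la (τ i) - 1 < d.hX (τ i) z by linarith)).mono fun y hy => by
        have h3 : y ∈ (d.ψ (τ i)).target := by
          rw [(G i).ψ.2.2.1]; show 0 < d.hX (τ i) y; linarith [(G i).la]
        rw [← (d.ψ (τ i)).right_inv h3] at hy ⊢
        exact e2 i _ ((d.ψ (τ i)).map_target h3) hy)]
    exact (CB_const w.length (0 : V) w le_rfl z).trans (by rw [norm_zero]; positivity)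

section X
variable {τ : d.Ta} (G : At d τ) (T : Lg d τ) (o : (d.Xs τ).OK) {u : U}
include G T o

theorem pP_X {z} (hz : 0 < d.hX τ z) :
    pP (d.Xs τ) u z = Pl (d.Xs τ) (fun i => (d.Xs τ).A0 i z) u z :=
  pP_lit o (l0_fam (Gb50.Gh_ok H τ) (agr_symm (Gb50.agr_X H τ))) u
    ((Gb50.X_tgt H T).1 (Gb50.hX_pos H T hz).1)

variable (hu : ∀ τ z, pP (d.Z τ) u z = 0)
include hu

theorem pP_φ {w} (hw : w ∈ (d.φ τ).source) (k : 0 < d.hS w) :
    pP (d.Xs τ) u (d.φ τ w) = (1 - st d τ w) • pP d.S u w := by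
  have c := Gb50.ch_φ G H
  rw [pP_X H G T o ((G.φ.2.2.2 w hw).1 ▸ k),
    (⟨c.g, c.p, c.ρ, c.j, fun _ => mix_lit H G H.lb⟩ : Cg d.S (d.Xs τ) (d.φ τ) _).Pl hw,
    show (fun i => (d.Xs τ).A0 i (d.φ τ w)) = fun i => d.y.x.W i w - st d τ w •
      (d.y.x.W i w - d.AZ i (pY d w)) from funext fun i => mix_φ H G _ (d.AZ i) hw, Pl_sub,
    ← pP_S H hu k, sub_smul, one_smul]
  exact congrArg (· - _) (pP_lit H.okS (l0_S H) u trivial).symm

theorem pP_ψ {z} (hz : z ∈ (d.ψ τ).source) (k : d.la τ - 1 < d.hX τ (d.ψ τ z)) :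
    pP (d.Xs τ) u (d.ψ τ z) = 0 := by
  have c := Gb50.ch_ψ G H
  rw [pP_X H G T o (by linarith [G.la]),
    (⟨c.g, c.p, c.ρ, c.j, fun _ => Gb50.mix_ψ G H H.lb⟩ : Cg (d.Z τ) (d.Xs τ) (d.ψ τ) _).Pl hz,
    show (fun i => (d.Xs τ).A0 i (d.ψ τ z)) = fun i => (d.Z τ).A0 i z from
      funext fun i => mix_hi _ _ hz k.le]
  exact (pP_lit (H.okZ τ) l0_Z u trivial).symm.trans (hu τ z)

end X

/-- **LEAF MOV** -/
theorem mov [FiniteDimensional ℝ U] (hN : Ink3.Nil (J.xs d.x).N) (hΦ : d.ΦZ = 0) (k : ℕ) :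
    Mov d δ k := by
  obtain ⟨e, he, dA, dΦ⟩ := H.dec
  have e0 : 0 ≤ e := by linarith [H.δ0]
  have c0 : 0 < 2 * e - 4 * δ := by linarith
  have hZ := pP_Z H hN
  have vS : ∃ K : ℝ≥0, ∀ _ : Unit,
      ∫⁻ x, ENNReal.ofReal (exp (-(2 * e - 4 * δ) * d.hS x)) ∂d.FS.F0.μ ≤ K :=
    ⟨_, fun _ => (ENNReal.coe_toNNReal (Dw82.int_S H c0).lintegral_lt_top.ne).ge⟩
  have wS : ∀ k {V : Type} [NormedAddCommGroup V] [NormedSpace ℝ V] {f : Unit → _ → V}, _ →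
      Wb (fun _ : Unit => d.S) δ k f := fun k _ _ _ _ =>
    wb_of k (fun _ => H.okS.h0) H.δ0.le e0 vS
  have w0 : ∀ k {V : Type} [NormedAddCommGroup V] [NormedSpace ℝ V],
      Wb (𝔉 := fun _ : ℝ => d.FZ) d.Z δ k (0 : ℝ → d.Y × ℝ → V) := @fun _ _ _ _ =>
    ⟨UB.const 0, 0, fun _ => N_zero.le⟩
  refine ⟨⟨wS _ (ds_glue H (ds_Φ H e0 dΦ hΦ) (H.okS.cΦ.imp fun _ k _ => k)),
    mo_C (fun _ => H.okS) (dkS _ _ (fun _ _ => (exp_pos _).le) _) (fun _ => wS _)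
      (hZ.mono fun u hu => ds_glue H (ds_P H e0 dA hu) ((hy_S H).pP u))⟩,
    ⟨(show (fun τ => (d.Z τ).Φ0) = 0 from funext₂ fun _ z => congrFun hΦ z.1) ▸ w0 _,
      mo_C H.okZ ⊥ (fun f hf => (Submodule.mem_bot ℝ).1 hf ▸ w0 _)
        (hZ.mono fun u hu => funext₂ hu)⟩, ?_⟩
  obtain ⟨r, r0, C, -, kF⟩ := (Gb50.geo H).fam
  obtain ⟨C', kB⟩ := Gb50.base H
  obtain ⟨K, kV⟩ := Dw82.vol H (Gb50.geo H) _ c0
  refine ⟨_, ((ev_at (Gb50.geo H)).and (Gb50.ev_lg H)).and (kF.and (kB.and kV)), 1, one_pos,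
    fun ι τ hτ _ _ => ?_⟩
  have G := fun i => (hτ i).1.1
  have T := fun i => (hτ i).1.2
  have o := fun i => (hτ i).2.2.1.1
  have s := fun i => (hτ i).2.2.1.2.1
  have hy : Hy fun i => d.Xs (τ i) := ⟨o, ⟨r, r0.le, C, fun i => (hτ i).2.1.2.1⟩,
    ⟨C', fun i => (s i).p⟩, fun j => ⟨C', fun i => (s i).ρ j⟩, ⟨C', fun i => (s i).j⟩,
    fun j => ⟨C', fun i => (s i).A j⟩, ⟨C', fun i => (s i).b⟩⟩
  have wX : ∀ k {V : Type} [NormedAddCommGroup V] [NormedSpace ℝ V] {f : ι → _ → V}, _ →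
      Wb (fun i => d.Xs (τ i)) δ k f := fun k _ _ _ _ =>
    wb_of k (fun i => (o i).h0) H.δ0.le e0 ⟨K, fun i => (hτ i).2.2.2⟩
  refine ⟨wX _ (push H G (ds_Φ H e0 dΦ hΦ) ⟨C', fun i => (s i).Φ⟩ (fun i w hw _ => ?_)
    fun i z hz k => (mix_hi _ _ hz k.le).trans (congrFun hΦ z.1)),
    mo_C o (dkS _ _ (fun _ _ => (exp_pos _).le) _) (fun _ => wX _) (hZ.mono fun u hu =>
      push H G (ds_P H e0 dA hu) (hy.pP u) (fun i _ => pP_φ H (G i) (T i) (o i) hu)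
        fun i _ => pP_ψ H (G i) (T i) (o i) hu)⟩
  refine (mix_φ H (G i) _ d.ΦZ hw).trans ?_
  rw [hΦ, Pi.zero_apply, sub_zero, sub_smul, one_smul]
  rfl

end Crest.Agent.X212.Lw78.Mv
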