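import Crest.Agent.X212.Lw78.EnJ
import Crest.Agent.X212.Nd18.Fk
import Crest.Agent.X212.Wk40.Main
import Crest.Agent.X212.Kit16.Sl
import Crest.Agent.X212.Nck90.Et
import Crest.Agent.X212.Dgr80.Uk2
import Crest.Agent.X212.Pat85.Fj
import Crest.Agent.X212.M.Wu
import Crest.Agent.X212.Fin37.Apr

/-!
# Row 212, EN18 (helper78): **LEAF EN18**
-/

set_option autoImplicit false
set_option linter.unusedSectionVars false
noncomputable section
open scoped Topology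
open MeasureTheory Set Function Filter

namespace Crest.Agent.X212.Lw78.En
open An M G75 Jb7 Ins26 Nd18 Fk18 Dgr80

variable {κ lam : Type} [Fintype κ] [Fintype lam] [DecidableEq lam]

section job
variable {Wi : Type} {X : Mf 4} {A : Type} [Fintype A] {M : Mark X A κ} {W : World M}
  {N : ML M lam} {Λ : Lns W N} {A' h : Type} [Fintype A'] [DecidableEq A'] [Fintype h] {r n : ℕ}
  {J : Job Wi Λ A' h r n}

theorem ambJ (hJ : J.OK) (c : M.Cl) (s : A' → ℝ) (p : Fin37.Pm J c s) :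
    ∃ ϖ, Amb (J.G c s).F ϖ := by
  obtain ⟨S, h0, hS⟩ := Pat85.l4U hJ
  obtain ⟨v, hw⟩ := Job.wu hJ (Pat85.volJ hJ) h0 hS
  obtain ⟨_, t⟩ := (p.ok hJ).2
  rcases isEmpty_or_nonempty (W.Z c).M with _ | ⟨⟨x⟩⟩
  exacts [⟨_, amb_of_tame t wg_one .of_isEmpty⟩,
    ⟨_, Fin37.amb_wts (hw.wts c s p) (hw.int c s p) (p.cut hJ) x⟩]

theorem nkD_of {Y Y' : Xs Wi κ lam} (e : Y = Y') {K₀ L : ℝ} (h : NkD Y'.D Y'.N K₀ L) :
    NkD Y.D Y.N K₀ L := e ▸ h

end job

theorem tpp_ge {T u : ℝ} (hT : T < 1) (hu : u ≤ 1) : T ≤ tpp T u ∧ tpp T u ≤ 1 := by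
  have a := Real.smoothTransition.nonneg ((u - T) / ((1 - T) / 2))
  have b := Real.smoothTransition.le_one ((u - T) / ((1 - T) / 2))
  unfold tpp swp
  rcases le_total u T with k | k
  · rw [Real.smoothTransition.zero_of_nonpos (div_nonpos_of_nonpos_of_nonneg (by linarith)
      (by linarith))]
    exact ⟨by simp, by simpa using hT.le⟩
  · exact ⟨by nlinarith, by nlinarith⟩

/-- **LEAF EN18** -/
theorem en18 (Lm : LM κ lam) : EnStmt Lm := fun y hy => by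
  obtain ⟨c₀, c0, h⟩ := hy.red
  obtain ⟨R, hR⟩ := nkD (core (Nck90.et _ _ κ _))
    (Wk40.wk fun D hD _ _ _ _ h => (Dgr80.uk hD h).exists) Kit16.Sl.sl (y.N.cy_ok y.a).yd c0 h
  refine ⟨R, fun P hs K₀ S z R' hz => ?_⟩
  obtain ⟨L, hL⟩ := hR P.N hz.p.N hs K₀
  obtain ⟨T₀, T1, hT⟩ := mem_nhdsLT_iff_exists_Ioo_subset.1
    (tendsto_nl.eventually (eventually_ge_atTop L))
  filter_upwards [Ioo_mem_nhdsLT T1] with T h1 F hF i hi
  obtain ⟨hJ, hP⟩ := hF.J i hi z.m z.k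
  refine nk_job (a := z.t.a) hJ hP.bas (Pat85.l4U hJ) (ambJ hJ) (fun x hx => ?_)
    (hz.cn.ok.fz _ hz.t.fz.1).1 (hF.mem (by simp [hz.t.fz.1])) (fun s => ?_)
    (fun c s ⟨σ, _, k, _⟩ => ?_) (nkD_of (F.xs_a i) hL)
  · unfold Nl
    rw [show (F.J z.c z.d i z.m z.k).xs x = _ from F.xs_ne i hx]
    exact ⟨Ink3.nd0_nil, rfl⟩
  · exact (congrArg abs (if_pos rfl)).trans_le ((abs_of_nonneg (Real.smoothTransition.nonneg
      _)).trans_le (Real.smoothTransition.le_one _))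
  · have e : ((F.J z.c z.d i z.m z.k).Θ s).2 z.t.a = tpp F.T (s (.inr ())) := update_self ..
    have b := tpp_ge hF.T.2.2 (k.2 (.inr ())).2
    rw [e]
    exact ⟨by linarith [hF.T.2.1], fun n => hT ⟨by linarith [hF.T.1, h1.1], b.2.lt_of_ne n⟩⟩

end Crest.Agent.X212.Lw78.En
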