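import Crest.Agent.X212.Lw78.Hb
import Crest.Agent.X212.Dl23.Ten
import Mathlib.Analysis.Calculus.ContDiff.Convolution

/-!
# Row 212, SW-LOCW (helper78): windows on a cylinder, functions of the time
-/

set_option autoImplicit false
set_option linter.unusedSectionVars false
noncomputable section
open scoped Manifold ContDiff Topology InnerProductSpace Convolution
open MeasureTheory Set Function Filter

namespace Crest.Agent.X212.Lw78
open An An.Pre Sob92 Ell97 Cyf70 Dl23
open Real (smoothTransition)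

theorem hcs_deriv {h : ℝ → ℝ} {p q A B : ℝ} (h1 : ∀ t ≤ p, h t = A) (h2 : ∀ t, q ≤ t → h t = B) :
    HasCompactSupport (deriv h) := .intro (isCompact_Icc (a := p) (b := q)) fun t ht => by
  rcases not_and_or.1 ht with k | k
  · rw [EventuallyEq.deriv_eq (f := fun _ => A) (mem_of_superset (Iio_mem_nhds (not_le.1 k))
      fun z hz => h1 z (le_of_lt hz)), deriv_const]
  · rw [EventuallyEq.deriv_eq (f := fun _ => B) (mem_of_superset (Ioi_mem_nhds (not_le.1 k))
      fun z hz => h2 z (le_of_lt hz)), deriv_const]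

/-- a cut-off supported in `[a, b]`, equal to one on `[a + δ, b - δ]` -/
def ct (δ a b t : ℝ) : ℝ := smoothTransition ((t + -a) / δ) * smoothTransition (-(t + -b) / δ)

section ct
variable {δ a b t : ℝ}

theorem cd_ct : ContDiff ℝ ∞ (ct δ a b) := by unfold ct; fun_prop

theorem ct_abs : |ct δ a b t| ≤ 1 := by
  rw [ct, abs_of_nonneg (mul_nonneg (smoothTransition.nonneg _) (smoothTransition.nonneg _))]
  exact mul_le_one₀ (smoothTransition.le_one _) (smoothTransition.nonneg _) (smoothTransition.le_one _)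

theorem ct_one (h : 0 < δ) (ht : t ∈ Icc (a + δ) (b - δ)) : ct δ a b t = 1 := by
  rw [ct, smoothTransition.one_of_one_le ((one_le_div h).2 (by linarith [ht.1])),
    smoothTransition.one_of_one_le ((one_le_div h).2 (by linarith [ht.2])), one_mul]

theorem ct_supp (h : 0 < δ) : tsupport (ct δ a b) ⊆ Icc a b :=
  closure_minimal (fun t ht => by
    have k : ∀ x, smoothTransition (x / δ) ≠ 0 → 0 ≤ x := fun x y => le_of_not_gt fun k =>
      y (smoothTransition.zero_of_nonpos (div_nonpos_of_nonpos_of_nonneg k.le h.le))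
    exact ⟨by linarith [k _ (left_ne_zero_of_mul ht)], by linarith [k _ (right_ne_zero_of_mul ht)]⟩)
    isClosed_Icc

end ct

/-- derivatives of a convolution -/
theorem cv_bd (i : ℕ) : ∀ {φ : ℝ → ℝ}, ContDiff ℝ ∞ φ → HasCompactSupport φ → ∃ K ≥ 0, ∀ (g : ℝ → ℝ) B,
    Continuous g → (∀ t, |g t| ≤ B) → ∀ t,
      |iteratedDeriv i (φ ⋆[ContinuousLinearMap.mul ℝ ℝ] g) t| ≤ K * B := by
  induction i with
  | zero =>
    refine fun {φ} h1 h2 => ⟨∫ s, |φ s|, by positivity, fun g B _ hB t => ?_⟩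
    rw [iteratedDeriv_zero, convolution_def, ← integral_mul_const, ← Real.norm_eq_abs]
    exact norm_integral_le_of_norm_le
      ((h1.continuous.integrable_of_hasCompactSupport h2).abs.mul_const B) (.of_forall fun s => by
        simpa using mul_le_mul_of_nonneg_left (hB (t - s)) (abs_nonneg (φ s)))
  | succ i ih =>
    intro φ h1 h2
    obtain ⟨K, K0, h⟩ := ih (contDiff_infty_iff_deriv.1 h1).2 h2.deriv
    refine ⟨K, K0, fun g B hg hB t => ?_⟩
    rw [iteratedDeriv_succ', show deriv (φ ⋆[ContinuousLinearMap.mul ℝ ℝ] g) =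
      deriv φ ⋆[ContinuousLinearMap.mul ℝ ℝ] g from funext fun s =>
      (h2.hasDerivAt_convolution_left _ (h1.of_le (by simp)) hg.locallyIntegrable s).deriv]
    exact h g B hg hB t

variable {E : Type} [NormedAddCommGroup E] [NormedSpace ℝ E] [FiniteDimensional ℝ E]
  [MeasurableSpace E] [BorelSpace E]
  {HM : Type} [TopologicalSpace HM] {I : ModelWithCorners ℝ E HM} [I.Boundaryless]
  {Y : Type} [TopologicalSpace Y] [ChartedSpace HM Y] [IsManifold I ∞ Y] [T2Space Y]
  [MeasurableSpace Y] [BorelSpace Y] [SecondCountableTopology Y] [CompactSpace Y]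
  {ι : Type} [Fintype ι] {N : Type} [NormedAddCommGroup N] [NormedSpace ℝ N] {X : Type}
  (F : Pre I Y ι)

theorem ct_tsupp {δ a b : ℝ} (h : 0 < δ) :
    tsupport (fun x : Y × ℝ => ct δ a b x.2) ⊆ univ ×ˢ Icc a b :=
  closure_minimal (fun _ hx => ⟨trivial, ct_supp h (subset_tsupport _ hx)⟩)
    (isClosed_univ.prod isClosed_Icc)

theorem CBs_ct {δ : ℝ} (h : 0 < δ) : ∃ C, ∀ a b, (cylP F).CBs (fun x => ct δ a b x.2) C := by
  have b : ∀ t, ‖smoothTransition t‖ ≤ 1 := fun t =>
    (abs_of_nonneg (smoothTransition.nonneg t)).trans_le (smoothTransition.le_one t)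
  obtain ⟨C, h1⟩ := Cht98.CBs_shift F (h := fun t => smoothTransition (t / δ)) (by fun_prop)
    (hcs_deriv (p := 0) (q := δ) (fun t k => smoothTransition.zero_of_nonpos (div_nonpos_of_nonpos_of_nonneg k h.le))
      fun t k => smoothTransition.one_of_one_le ((one_le_div h).2 k)) fun _ => b _
  obtain ⟨D, h2⟩ := Cht98.CBs_shift F (h := fun t => smoothTransition (-t / δ)) (by fun_prop)
    (hcs_deriv (p := -δ) (q := 0) (fun t k => smoothTransition.one_of_one_le ((one_le_div h).2 (by linarith)))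
      fun t k => smoothTransition.zero_of_nonpos (div_nonpos_of_nonpos_of_nonneg (by linarith) h.le))
    fun _ => b _
  obtain ⟨A, k⟩ := UB.smul (F := fun _ : ℝ × ℝ => cylP F) ⟨C, fun j => h1 (-j.1)⟩ ⟨D, fun j => h2 (-j.2)⟩
  exact ⟨A, fun a b => k (a, b)⟩

/-- the windows `Y × [a + r, b - r]` -/
def cw (a b : X → ℝ) {l : ℝ} (h : ∀ d, b d - a d ≤ l) : Wn (cylP F) X where
  S d r := univ ×ˢ Icc (a d + r) (b d - r)
  cpt _ _ := isCompact_univ.prod isCompact_Icc
  cut r r' hr := by
    have h0 : 0 < (r' - r) / 2 := by linarith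
    obtain ⟨C, h⟩ := CBs_ct F h0
    refine ⟨C, fun d => ⟨_, h (a d + r) (b d - r), ct_tsupp h0, fun x hx => ?_⟩⟩
    filter_upwards [continuous_snd.continuousAt.preimage_mem_nhds (Icc_mem_nhds
      (show a d + r + (r' - r) / 2 < x.2 by linarith [hx.2.1])
      (show x.2 < b d - r - (r' - r) / 2 by linarith [hx.2.2]))] with y hy using ct_one h0 hy
  vol r hr := ⟨F.μ.real univ * |l|, fun d => by
    rw [cylP_μ, measureReal_prod_prod, Real.volume_real_Icc]
    exact mul_le_mul_of_nonneg_left (max_le (by linarith [h d, le_abs_self l]) (abs_nonneg _))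
      measureReal_nonneg⟩

theorem intY {f : Y → N} (hf : Continuous f) : Integrable f F.μ :=
  hf.integrable_of_hasCompactSupport (.of_compactSpace _)

theorem int_S {g : Y × ℝ → ℝ} (hg : Continuous g) (p q : ℝ) :
    ∫ x in univ ×ˢ Icc p q, g x ∂(cylP F).μ = ∫ t in Icc p q, ∫ y, g (y, t) ∂F.μ := by
  have := hg.continuousOn.integrableOn_compact (μ := (cylP F).μ)
    (isCompact_univ.prod (isCompact_Icc (a := p) (b := q)))
  rw [IntegrableOn, cylP_μ, ← Measure.prod_restrict, Measure.restrict_univ] at *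
  exact integral_prod_symm _ this

theorem sq_int {g : Y → ℝ} (hg : Continuous g) :
    (∫ y, g y ∂F.μ) ^ 2 ≤ (F.μ.real univ + 1) * ∫ y, g y ^ 2 ∂F.μ := by
  set A := ∫ y, g y ∂F.μ
  have m0 : 0 ≤ F.μ.real univ := measureReal_nonneg
  set t := A / (F.μ.real univ + 1)
  have e : A = t * (F.μ.real univ + 1) := (div_mul_cancel₀ _ (by positivity)).symm
  have h := integral_mono ((intY F hg).const_mul (2 * t))
    ((integrable_const (t ^ 2)).add (intY F (hg.fun_pow 2))) fun y => by
      have := sq_nonneg (t - g y); simp only [Pi.add_apply]; linarith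
  rw [integral_const_mul, integral_add' (integrable_const _) (intY F (hg.fun_pow 2)), integral_const,
    smul_eq_mul] at h
  change 2 * t * A ≤ _ at h
  rw [e] at h ⊢
  nlinarith [mul_le_mul_of_nonneg_left h (by positivity : 0 ≤ F.μ.real univ + 1), sq_nonneg t]

/-- the integral over the slices -/
def sI (g : Y × ℝ → ℝ) (x : Y × ℝ) : ℝ := ∫ y, g (y, x.2) ∂F.μ

variable {F} {g : Y × ℝ → ℝ}

theorem sm_sI (hg : Sm (IC I) g) : Sm (IC I) (sI F g) := sm_snd (contDiff_int F hg)

theorem D_sI (hg : Sm (IC I) g) (a : Option ι) (x : Y × ℝ) :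
    (cylP F).D a (sI F g) x = sI F (a.elim ((cylP F).D none g) fun _ => 0) x := by
  cases a with
  | none => exact (congrFun (D_none_snd F (contDiff_int F hg)) x).trans (hasDerivAt_int F hg _).deriv
  | some a => exact (congrFun (D_some_snd F (contDiff_int F hg) a) x).trans (by simp [sI])

theorem tr1 (hg : Sm (IC I) g) (hc : HasCompactSupport g) (x : Y × ℝ) :
    sI F g x ^ 2 ≤ (F.μ.real univ + 1) * N2 (cylP F) 1 g := by
  have hD := (cylP F).sm_D hg none
  have cD := (cylP F).hcs_D hc none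
  have c0 : ∀ {u : Y × ℝ → ℝ}, HasCompactSupport u → HasCompactSupport fun t => ∫ y, u (y, t) ∂F.μ :=
    fun {u} h => .intro (h.isCompact.image continuous_snd) fun t ht => by
      simp [fun y => image_eq_zero_of_notMem_tsupport (f := u) (x := (y, t)) fun k => ht ⟨_, k, rfl⟩]
  have c1 : ∀ {u : Y × ℝ → ℝ}, HasCompactSupport u → HasCompactSupport fun x => u x ^ 2 := fun h =>
    h.mono fun x hx k => hx (by simp [k])
  have k0 : ∀ {u : Y × ℝ → ℝ}, Sm (IC I) u → HasCompactSupport u →
      Integrable (fun t => (∫ y, u (y, t) ∂F.μ) ^ 2) ∧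
      ∫ t, (∫ y, u (y, t) ∂F.μ) ^ 2 ≤ (F.μ.real univ + 1) * N2 (cylP F) 0 u := fun {u} h h' => by
    have i := ((contDiff_int F h).continuous.fun_pow 2).integrable_of_hasCompactSupport (μ := volume)
      ((c0 h').mono fun x hx k => hx (by simp [k]))
    refine ⟨i, ?_⟩
    simp only [N2, n2, Real.norm_eq_abs, sq_abs]
    rw [integral_cyl F (h.continuous.fun_pow 2) (c1 h'), ← integral_const_mul]
    exact integral_mono i (((contDiff_int F (h.pow 2)).continuous.integrable_of_hasCompactSupport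
      (c0 (c1 h'))).const_mul _) fun t => sq_int F (sm_slice_fst h t).continuous
  obtain ⟨i1, k1⟩ := k0 hg hc
  obtain ⟨i2, k2⟩ := k0 hD cD
  have e := HasCompactSupport.integral_Iic_deriv_eq (((contDiff_int F hg).pow 2).of_le (by simp))
    ((c0 hc).mono fun x hx k => hx (by simp [k])) x.2
  have k3 : N2 (cylP F) 0 g + N2 (cylP F) 0 ((cylP F).D none g) ≤ N2 (cylP F) 1 g :=
    add_le_add le_rfl (Finset.single_le_sum (f := fun a => N2 (cylP F) 0 ((cylP F).D a g))
      (fun _ _ => n2_nonneg _ _) (Finset.mem_univ none))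
  have m0 : 0 ≤ F.μ.real univ := measureReal_nonneg
  refine e.ge.trans ((setIntegral_mono_on ?_ (i1.add i2).integrableOn measurableSet_Iic
    fun t _ => ?_).trans ((setIntegral_le_integral (i1.add i2) (.of_forall fun t => ?_)).trans ?_))
  · exact ((((contDiff_int F hg).pow 2).continuous_deriv (by simp)).integrable_of_hasCompactSupport
      (((c0 hc).mono fun x hx k => hx (by simp [k])).deriv)).integrableOn
  · rw [((hasDerivAt_int F hg t).fun_pow 2).deriv]
    simp only [Pi.add_apply, Nat.cast_ofNat, Nat.add_one_sub_one, pow_one]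
    nlinarith [sq_nonneg (∫ y, g (y, t) ∂F.μ - ∫ y, (cylP F).D none g (y, t) ∂F.μ)]
  · simp only [Pi.add_apply, Pi.zero_apply]; positivity
  · rw [integral_add' i1 i2]; nlinarith

variable {a b : X → ℝ} {l : ℝ} {h : ∀ d, b d - a d ≤ l} {φ : X → Y × ℝ → ℝ}

theorem jt_sI : ∀ {j : ℕ} {φ : X → Y × ℝ → ℝ}, (cw F a b h).Jt 2 j φ →
    (cw F a b h).Jt 2 j fun d => sI F (φ d)
  | 0, _, k => fun d => sm_sI (k d)
  | j + 1, φ, k => by
    have s2 : ∀ d, Sm (IC I) fun x => φ d x ^ 2 := fun d => (k.sm d).pow 2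
    refine ⟨fun d => sm_sI (k.1 d), ⟨fun k => absurd k two_ne_zero, Wn.Ib.le
      (ψ := fun d => sI F fun x => φ d x ^ 2) (fun r hr => ?_)
      (fun d => (sm_sI (k.1 d)).continuous.norm.fun_pow 2) (fun d => (sm_sI (s2 d)).continuous)
      fun r _ => ⟨F.μ.real univ + 1, by positivity, fun d x _ => (sq_abs _).trans_le
        (sq_int F (sm_slice_fst (k.1 d) _).continuous)⟩⟩, fun o => (jt_sI (φ := fun d =>
        o.elim ((cylP F).D none (φ d)) fun _ => 0) ?_).eq fun d => D_sI (k.1 d) o⟩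
    · obtain ⟨K, hK⟩ := k.lp.2 r hr
      refine ⟨F.μ.real univ * K, fun d => ?_⟩
      replace hK := hK d
      simp only [Real.norm_eq_abs, sq_abs] at hK
      rw [cw, int_S F (s2 d).continuous] at hK
      rw [cw, int_S F (sm_sI (s2 d)).continuous]
      simp only [sI, integral_const, smul_eq_mul, integral_const_mul]
      exact mul_le_mul_of_nonneg_left hK measureReal_nonneg
    · cases o
      exacts [k.D none, .cb (Cb_const 0)]

theorem jt_sI0 : ∀ {j : ℕ} {φ : X → Y × ℝ → ℝ}, (cw F a b h).Jt 2 (j + 1) φ →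
    (cw F a b h).Jt 0 j fun d => sI F (φ d)
  | 0, _, k => fun d => sm_sI (k.sm d)
  | j + 1, φ, k => by
    refine ⟨fun d => sm_sI (k.1 d), Wn.lp0 fun r hr => ?_, fun o => (jt_sI0 (φ := fun d =>
        o.elim ((cylP F).D none (φ d)) fun _ => 0) ?_).eq fun d => D_sI (k.1 d) o⟩
    · obtain ⟨K, u, H⟩ := (k.of_le (by omega : 1 + 1 ≤ _)).cut hr
      refine ⟨√((F.μ.real univ + 1) * K), fun d x hx => Real.le_sqrt_of_sq_le ?_⟩
      obtain ⟨h1, h2, h3, h4⟩ := H d
      rw [Real.norm_eq_abs, sq_abs, show sI F (φ d) x = sI F (u d) x by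
        simp only [sI, fun y => h4 (y, x.2) ⟨trivial, hx.2⟩]]
      exact (tr1 h1 h2 x).trans (by gcongr)
    · cases o
      exacts [k.D none, .cb (Cb_const 0)]

/-- a function of a slice integral -/
theorem jt_fn {j : ℕ} {f : ℝ → ℝ} (hf : ContDiff ℝ ∞ f) (k : (cw F a b h).Jt 2 (j + 1) φ)
    (k0 : (cw F a b h).Lp 0 fun d x => f (sI F (φ d) x)) :
    (cw F a b h).Jt 0 j (fun d x => f (sI F (φ d) x)) ∧
      (cw F a b h).Jt 2 (j + 1) fun d x => f (sI F (φ d) x) :=
  ⟨(jt_sI0 k).comp hf, (jt_sI0 k).comp2 hf k0 (jt_sI k)⟩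

/-- terms `b (g t) • f y` -/
theorem cb_sep (G : ℕ → ℝ) (n : ℕ) : ∃ K ≥ 0, ∀ (g b : ℝ → ℝ) (f : Y → N) (s : ℝ), ContDiff ℝ ∞ g →
    (∀ i t, |iteratedDeriv (i + 1) g t| ≤ G i) → ContDiff ℝ ∞ b → Sm I f →
    (∀ j ≤ n, ∀ r, F.CB n (fun y => iteratedDeriv j b r • f y) s) →
    (cylP F).CB n (fun x => b (g x.2) • f x.1) (K * |s|) := by
  induction n with
  | zero => exact ⟨1, zero_le_one, fun g b f s _ _ _ _ h => CB_zero.2 fun x =>
      (CB_bound (h 0 le_rfl (g x.2)) x.1).trans ((le_abs_self s).trans_eq (one_mul _).symm)⟩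
  | succ n ih =>
    obtain ⟨K, K0, ih⟩ := ih
    set A := ∑ i ∈ Finset.range (n + 1), |G i|
    have A0 : 0 ≤ A := Finset.sum_nonneg fun _ _ => abs_nonneg _
    set L := 2 ^ (n + 1) * ‖(ContinuousLinearMap.lsmul ℝ ℝ : ℝ →L[ℝ] N →L[ℝ] N)‖ * |A| * K
    have L0 : 0 ≤ L := by positivity
    have s0 := fun s : ℝ => abs_nonneg s
    refine ⟨1 + K + L, by positivity, fun g b f s hg hG hb hf h => CB_succ.2 ⟨fun x =>
      (CB_bound (h 0 (Nat.zero_le _) (g x.2)) x.1).trans ((le_abs_self s).trans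
        (le_mul_of_one_le_left (s0 s) (by linarith))), fun a => ?_⟩⟩
    have g1 := (contDiff_infty_iff_deriv.1 hg).2
    have b1 := (contDiff_infty_iff_deriv.1 hb).2
    have d : ∀ x, (cylP F).D a (fun x => b (g x.2) • f x.1) x =
        (cylP F).D a (fun x => (b ∘ g) x.2) x • f x.1 + b (g x.2) • (cylP F).D a (fun x => f x.1) x :=
      fun x => dv_smul ((sm_snd (hb.comp hg)).mdifferentiableAt (by simp))
        ((sm_fst hf).mdifferentiableAt (by simp))
    rw [funext d]
    cases a with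
    | none =>
      have := CB_bil (ContinuousLinearMap.lsmul ℝ ℝ) (sm_snd g1) ((sm_snd (b1.comp hg)).smul (sm_fst hf))
        (Cht98.CB_snd F n g1 fun i hi t => ((show |iteratedDeriv i (deriv g) t| ≤ G i by
          rw [← iteratedDeriv_succ']; exact hG i t).trans (le_abs_self _)).trans
          (Finset.single_le_sum (fun j _ => s0 (G j)) (Finset.mem_range.2 (Nat.lt_succ_of_le hi))))
        (ih g _ f s hg hG b1 hf fun j hj r => CB_of_le
          (by rw [← iteratedDeriv_succ']; exact h (j + 1) (by omega) r) n.le_succ)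
      rw [D_none_snd F (hb.comp hg), D_none_fst F hf]
      refine CB_mono (by
        convert this using 2 with x
        beta_reduce
        rw [deriv_comp _ (hb.differentiable (by simp) _) (hg.differentiable (by simp) _)]
        simp [smul_smul, mul_comm]) ?_
      rw [abs_mul, abs_of_nonneg K0, abs_abs, ← mul_assoc]
      exact mul_le_mul_of_nonneg_right (by linarith) (s0 s)
    | some a =>
      have := ih g b _ s hg hG hb (F.sm_D hf a) fun j hj r => by
        have := CB_D (h j (by omega) r) a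
        rwa [show (fun y => iteratedDeriv j b r • f y) = iteratedDeriv j b r • f from rfl,
          F.D_smul hf] at this
      rw [D_some_snd F (hb.comp hg), D_some_fst F hf]
      refine CB_mono (by simpa using this) ?_
      exact mul_le_mul_of_nonneg_right (by linarith) (s0 s)

end Crest.Agent.X212.Lw78
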