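import Crest.Agent.X212.Dg64.Lf
import Crest.Agent.X212.Gb50.Geo

/-!
# Row 212, DG-FRM (helper78): the family of backgrounds tends to the reference
-/

set_option autoImplicit false
set_option linter.unusedSectionVars false
noncomputable section
open scoped Manifold ContDiff Topology
open Set Function Filter Metric

namespace Crest.Agent.X212.Lw78.Fr
open An An.Job M Prm93 Cht98 Nd18 Gj67 Sob92 Gb50
open Met55 (fam_ok famIn_cpt trS cfS laS)

section gen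
variable {E : Type} [NormedAddCommGroup E] [NormedSpace ℝ E] [FiniteDimensional ℝ E]
  [MeasurableSpace E] [BorelSpace E]
  {HM : Type} [TopologicalSpace HM] {I : ModelWithCorners ℝ E HM} [I.Boundaryless]
  {M : Type} [TopologicalSpace M] [ChartedSpace HM M] [IsManifold I ∞ M]
  [MeasurableSpace M] [T2Space M] [BorelSpace M] [SecondCountableTopology M]
  {ι lam : Type} [Fintype ι] [Fintype lam] {N : Type} [NormedAddCommGroup N] [NormedSpace ℝ N]
  {T : Type} [NormedAddCommGroup T] [NormedSpace ℝ T]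

theorem sb_ev {F : Pre I M ι} {Q : Set T} {f : T → M → N} (h : SB F Q f) (hQ : IsOpen Q) {t : T}
    (ht : t ∈ Q) {c : M → N} (e : ∀ x, f t x = c x) (j : ℕ) {η : ℝ} (η0 : 0 < η) :
    ∀ᶠ s in 𝓝 t, F.CB j (fun x => f s x - c x) η := by
  filter_upwards [hQ.mem_nhds ht, Metric.tendsto_nhds.1
    ((h.sm j).continuousOn.continuousAt (hQ.mem_nhds ht)) η η0] with s hs k
  have := (B.norm_le η0.le).1 ((dist_eq_norm _ _).symm.trans_le k.le)
  rwa [map_sub, fn_toB (h.cb s hs), fn_toB (h.cb t ht), show f t = c from funext e] at this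

theorem cb_pat {φ : Geo I M ι lam → Geo I M ι lam → M → N} (hφ : Loc φ) {c : M → N}
    {A0 A' G0 G : Geo I M ι lam} {U1 U2 : Set M} (cov : ∀ x, x ∈ U1 ∨ x ∈ U2) (a0 : Agr A0 G0 U1)
    (a1 : Agr A' G U1) (vA : A'.F.IsVol) (vG : G.F.IsVol) (o : IsOpen U2)
    (e : ∀ x ∈ U2, φ G0 G x = c x) {j : ℕ} {η : ℝ} (η0 : 0 ≤ η)
    (k : A0.F.CB j (fun x => φ A0 A' x - c x) η) : G0.F.CB j (fun x => φ G0 G x - c x) η :=
  fun w hw x => by
  rcases cov x with hx | hx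
  · rw [agr_Dw a0 hx w (g := fun x => φ A0 A' x - c x) fun y hy =>
      congrArg (· - c y) (hφ vA vG a0 a1 hy)]
    exact k w hw x
  · rw [Dw_congr w (v := fun _ => 0)
      ((o.eventually_mem hx).mono fun y hy => sub_eq_zero.2 (e y hy))]
    exact (CB_const j (0 : N) w hw x).trans (by simpa using η0)

end gen

variable {Wi : Type} {X : Mf 4} {A κ lam : Type} [Fintype A] [Fintype κ] [Fintype lam]
  [DecidableEq lam] {M : Mark X A κ} {W : World M} {L : ML M lam} {Λ : Lns W L}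
  {A' h : Type} [Fintype A'] [DecidableEq A'] [Fintype h] {r n : ℕ}
  {J : Job Wi Λ A' h r n} {σ : Cel A'} {a : A'}
  {U Up R : Type} [NormedAddCommGroup U] [NormedSpace ℝ U] [NormedAddCommGroup Up]
  [NormedSpace ℝ Up] [NormedAddCommGroup R] [NormedSpace ℝ R] {d : Dat J σ a U Up R}
  {q₀ : Wi →₀ ℝ} {δ : ℝ}

/-- **DG-FRM** -/
theorem frm (H : d.OK q₀ δ) : d.Frm := fun j η η0 => by
  obtain ⟨τ₁, h1⟩ := (act H).exists
  have n1 := nk_τ ⟨τ₁, h1⟩
  have cj : ContDiff ℝ ∞ fun q : ℝ × Tc σ a => (1 - q.1 ^ 2, q.2) := by fun_prop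
  have ch := (cd_th H).comp cj
  have cc : ContDiff ℝ ∞ fun _ : ℝ × Tc σ a => th d (τ₁, 0) := contDiff_const
  have m0 : (0 : ℝ × Tc σ a) ∈ gd (M := M) J.m d.x (fun _ => th d (τ₁, 0))
      (th d ∘ fun q : ℝ × Tc σ a => (1 - q.1 ^ 2, q.2)) :=
    (cj.continuous.tendsto' 0 (1, 0) (by simp)).eventually (ev_gp H) |>.mono fun q k =>
      ⟨n1, (k (sub_le_self _ (sq_nonneg _))).1⟩
  have o0 := PG_ok Λ n1 (gp0 H)
  have hA : (Met55.fam (Λ.B J.m M.c0) (PG Λ J.m d.x (th d (τ₁, 0)) (J.Θ d.y.s)).F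
      (PG Λ J.m d.x (th d (τ₁, 0)) (J.Θ d.y.s)) (fun q => PG Λ J.m d.x (th d (τ₁, 0))
        ((th d ∘ fun q : ℝ × Tc σ a => (1 - q.1 ^ 2, q.2)) q)) (gd (M := M) J.m d.x
          (fun _ => th d (τ₁, 0)) (th d ∘ fun q : ℝ × Tc σ a => (1 - q.1 ^ 2, q.2))) univ univ).OK :=
    fam_ok (famIn_cpt (W.Z M.c0).dim.le (Λ.B_ok _ _) o0 (fun _ k =>
      PG_ok Λ n1 (Eventually.self_of_nhds k).2) isOpen_gd (jf_PG Λ cc ch) (js_PG Λ cc ch))
      isClopen_univ isClopen_univ subset_rfl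
  have ag : Agr (PG Λ J.m d.x (th d (τ₁, 0)) (J.Θ d.y.s)) (PG Λ J.m d.x (th d (τ₁, 0))
      ((th d ∘ fun q : ℝ × Tc σ a => (1 - q.1 ^ 2, q.2)) 0)) univ := by
    rw [show (th d ∘ fun q : ℝ × Tc σ a => (1 - q.1 ^ 2, q.2)) 0 = J.Θ d.y.s from by
      rw [← s_one H]; simp]
    exact agr_refl _ isOpen_univ
  have tc : Tendsto (fun p : d.Ta × Tc σ a => ((p.1 : ℝ), p.2)) (d.lg ×ˢ 𝓝 0) (𝓝 (1, 0)) :=
    (tendsto_comap.comp tendsto_fst).prodMk_nhds tendsto_snd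
  have tu : Tendsto (fun p : d.Ta × Tc σ a => (√(1 - p.1), p.2)) (d.lg ×ˢ 𝓝 0) (𝓝 0) :=
    ((show Continuous fun q : ℝ × Tc σ a => (√(1 - q.1), q.2) by fun_prop).tendsto' (1, 0) 0
      (by simp)).comp tc
  filter_upwards [tendsto_fst.eventually (ev_lg H), tc.eventually (ev_gp H),
    tu.eventually (eventually_all.2 fun i => eventually_all.2 fun b => sb_ev (hA.sS i b) isOpen_gd m0
      (c := (J.B M.c0).P i b) (fun x => (ag.S trivial i b).1.trans (by rw [o0.P])) j η0),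
    tu.eventually (eventually_all.2 fun i => eventually_all.2 fun b => eventually_all.2 fun c =>
      sb_ev (hA.scf i b c) isOpen_gd m0 (c := fun _ => 0)
        (fun x => congrFun (congrFun (congrFun (ag.cf trivial) i) b) c) j η0),
    tu.eventually (eventually_all.2 fun i => sb_ev (hA.sla i) isOpen_gd m0 (c := fun _ => 0)
      (fun x => congrFun (ag.la o0 trivial) i) j η0)] with ⟨τ, t⟩ T k1 k2 k3 k4
  have k6 : NkOK M J.m M.c0 (th d (τ, t)) d.x := (k1 T.lt.le).1.nk ((T.x t).trans_lt T.lt)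
  have a2 : Agr (d.Gh τ) (J.G M.c0 (d.s τ t)) {z | |h0 W d.x z| < 1} :=
    agr_trans (agr_symm (agr_X H τ)) ((nk_τ τ).agr Λ k6 (by
      rw [Mark.tv_fr (fr0 _), Mark.tv_fr (fr0 _), T.x, T.x]))
  have a1 := agr_out Λ n1 (gp_of k6) k6
  rw [PG_self] at a1
  have e1 : (th d ∘ fun q : ℝ × Tc σ a => (1 - q.1 ^ 2, q.2)) (√(1 - τ), t) = th d (τ, t) := by
    simp only [comp_apply, Real.sq_sqrt (sub_nonneg.2 T.lt.le), sub_sub_cancel]
  have cov : ∀ z, z ∈ {z | 1 / 4 < |h0 W d.x z|} ∨ z ∈ {z | |h0 W d.x z| < 1} := fun z =>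
    (lt_or_ge (1 / 4 : ℝ) |h0 W d.x z|).imp_right fun k => lt_of_le_of_lt k (by norm_num)
  have a0 := agr_out Λ n1 (gp0 H) (nk_τ τ)
  have v1 := (PG_ok Λ n1 (gp_of k6)).vol
  have v2 := (Λ.G_ok J.m k6.O).vol
  have eS : ∀ x ∈ {z | |h0 W d.x z| < 1}, ∀ i b, (d.FX τ).S t x i b = (J.B M.c0).P i b x :=
    fun x hx i b => (a2.S hx i b).1.trans (by rw [(Gh_ok H τ).P])
  have ec : ∀ x ∈ {z | |h0 W d.x z| < 1}, ∀ i b c, (d.FX τ).cf t x i b c = 0 :=
    fun x hx i b c => congrFun (congrFun (congrFun (a2.cf hx) i) b) c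
  have el : ∀ x ∈ {z | |h0 W d.x z| < 1}, ∀ i, (d.FX τ).la t x i = 0 :=
    fun x hx i => congrFun (a2.la (Gh_ok H τ) hx) i
  simp only [Met55.fam, e1] at k2 k3 k4
  refine ⟨fun i b => cb_pat (loc_S i b) cov a0 a1 v1 v2 a2.op (fun x hx => eS x hx i b) η0.le (k2 i b),
    fun i b c => ?_, fun i => ?_, fun x hx i => ?_⟩
  · have := cb_pat (loc_cf i b c) (c := fun _ => 0) cov a0 a1 v1 v2 a2.op
      (fun x hx => ec x hx i b c) η0.le (k3 i b c)
    simp only [sub_zero] at this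
    exact this
  · have := cb_pat (loc_la i) (c := fun _ => 0) cov a0 a1 v1 v2 a2.op
      (fun x hx => el x hx i) η0.le (k4 i)
    simp only [sub_zero] at this
    exact this
  · have hx := (X_tgt H T).1 (hX_pos H T hx).1
    exact ⟨eS x hx i, ec x hx i, el x hx i⟩

end Crest.Agent.X212.Lw78.Fr
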