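import Crest.Agent.X212.Lw78.Hb
import Crest.Agent.X212.Hm83.Llw
import Crest.Agent.X212.Map77.Mono
import Crest.Agent.X212.Wz78.Kos

/-!
# Row 212, SW-LOCW (helper78): the operator `(d*, d⁺)` on real one-forms, Coulomb gauge
-/

set_option autoImplicit false
set_option linter.unusedSectionVars false
noncomputable section
open scoped Manifold ContDiff Topology InnerProductSpace
open MeasureTheory Set Function Filter

namespace Crest.Agent.X212.Lw78
open An An.Pre Sob92 Ell97 Map77 Dec35 Hm83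
open Wz78 (Pr frm c_anti c_proj2)

variable {E : Type} [NormedAddCommGroup E] [NormedSpace ℝ E] [FiniteDimensional ℝ E]
  [MeasurableSpace E] [BorelSpace E]
  {HM : Type} [TopologicalSpace HM] {I : ModelWithCorners ℝ E HM} [I.Boundaryless]
  {M : Type} [TopologicalSpace M] [ChartedSpace HM M] [IsManifold I ∞ M]
  [MeasurableSpace M] [T2Space M] [BorelSpace M] [SecondCountableTopology M]
  {ι : Type} [Fintype ι]
  {V W : Type} [NormedAddCommGroup V] [InnerProductSpace ℝ V] [FiniteDimensional ℝ V]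
  [NormedAddCommGroup W] [InnerProductSpace ℝ W] [FiniteDimensional ℝ W]
  (F : Fr I M ι) (o : ι → ι → ι → ι → M → ℝ) {C C' : ℕ → ℝ} {a : ι → M → ℝ} {x : M}

/-- a one-form as one function -/
def fm (a : ι → M → ℝ) (x : M) : Fm ι ℝ := WithLp.toLp 2 fun i => a i x

/-- the divergence -/
def dv1 (a : ι → M → ℝ) (x : M) : ℝ := ∑ i, (F.D i (a i) x + F.dv i x * a i x)

/-- the exterior derivative -/
def da (a : ι → M → ℝ) (x : M) : Fm (ι × ι) ℝ := WithLp.toLp 2 fun s =>
  F.D s.1 (a s.2) x - F.D s.2 (a s.1) x - ∑ k, F.c s.1 s.2 k x * a k x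

/-- one-forms -/
def q1 (x : M) : CL (Fm ι ℝ) (Fm ι ℝ) := idx (fun a b => F.P a b x) (.id ℝ ℝ)

/-- self-dual two-forms -/
def q2 (x : M) : CL (Fm (ι × ι) ℝ) (Fm (ι × ι) ℝ) :=
  idx (sdm (fun a b => F.P a b x) fun a b c d => o a b c d x) (.id ℝ ℝ)

/-- the operator `(div, d⁺)` -/
def dOp : Op M ι (Fm ι ℝ) (P2 ℝ (Fm (ι × ι) ℝ)) :=
  Map77.cut F.toPre (q1 F) (ps (triv M ℝ) (q2 F o))
  (fun a x => pr2 (Map77.pj ℝ a ∘L q1 F x) (wd2 ℝ (fun a b => F.P a b x) a))
  fun x => pr2 (∑ a, F.dv a x • Map77.pj ℝ a) (tp fun s => -∑ k, F.c s.1 s.2 k x • Map77.pj ℝ k)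

/-- the operator `ξ ↦ dξ + m ξ e^k` -/
def cOp (k : ι) (m : M → ℝ) : Op M ι ℝ (Fm ι ℝ) :=
  ⟨triv M ℝ, q1 F, fun a x => ea ℝ (fun a b => F.P a b x) a,
    fun x => m x • ea ℝ (fun a b => F.P a b x) k⟩

variable {F o}

theorem q1_apply (v : Fm ι ℝ) (i : ι) : q1 F x v i = ∑ j, F.P i j x * v j := idx_apply _ _ _ _

theorem PP (a b : ι) (x : M) : ∑ k, F.P a k x * F.P k b x = F.P a b x := ((frm F).pr x).idem a b

theorem PP' (a b : ι) (x : M) : ∑ k, F.P a k x * F.P b k x = F.P b a x := by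
  simp only [F.P_symm b, PP]

theorem P_q1 (v : Fm ι ℝ) (i : ι) : ∑ k, F.P i k x • q1 F x v k = q1 F x v i := by
  simp only [q1_apply, smul_eq_mul, Finset.mul_sum, ← mul_assoc]
  rw [Finset.sum_comm]
  simp only [← Finset.sum_mul, PP]

theorem prj1 : Prj (q1 F) := ⟨fun x => idx_idem (fun a c => PP a c x) fun _ => rfl,
  fun x v w => idx_symm (fun a b => F.P_symm a b x) (fun _ _ => rfl) v w⟩

theorem sm_fm (h : ∀ i, Sm I (a i)) : Sm I (fm a) :=
  (PiLp.continuousLinearEquiv 2 ℝ fun _ : ι => ℝ).symm.toContinuousLinearMap.contMDiff.comp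
    (contMDiff_pi_space.2 h)

theorem D_ev {α : Type} [Fintype α] {u : M → Fm α V} (h : Sm I u) (i : ι) (j : α) :
    F.D i u x j = F.D i (fun y => u y j) x :=
  (dv_clm (Map77.pj V j) (h.mdifferentiableAt (by simp))).symm

theorem projD (u : M → ℝ) (i : ι) : ∑ j, F.P i j x * F.D j u x = F.D i u x := (frm F).projD i u x

theorem da_anti (i j : ι) : da F a x (i, j) = -da F a x (j, i) := by
  simp only [da, c_anti F i j, neg_mul, Finset.sum_neg_distrib]; ring

theorem da_P (h : ∀ i, Sm I (a i)) (hp : ∀ i x, ∑ j, F.P i j x * a j x = a i x) (i j : ι) :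
    ∑ l, F.P j l x * da F a x (i, l) = da F a x (i, j) := by
  have h1 : F.D i (a j) x = ∑ l, (F.D i (F.P j l) x * a l x + F.P j l x * F.D i (a l) x) := by
    rw [← funext (hp j), D_def, Wz78.dv_sum' _ fun l => Wz78.SA.mul (F.P_sm j l x) (h l x)]
    exact Finset.sum_congr rfl fun l _ => Wz78.dv_mul (F.P_sm j l x) (h l x)
  have h2 : ∑ l, F.P j l x * ∑ k, F.c i l k x * a k x =
      ∑ k, F.c i j k x * a k x - ∑ l, F.D i (F.P j l) x * a l x := by
    have h3 : ∀ k, ∑ l, F.P j l x * F.c i l k x = _ := fun k =>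
      (Finset.sum_congr rfl fun l _ => by rw [F.P_symm j, mul_comm]).trans (c_proj2 F i j k x)
    simp only [Finset.mul_sum, ← mul_assoc]
    rw [Finset.sum_comm]
    simp only [← Finset.sum_mul, h3]
    simp only [sub_mul, Finset.sum_sub_distrib, Finset.sum_mul]
    congr 1
    rw [Finset.sum_comm]
    refine Finset.sum_congr rfl fun l _ => ?_
    rw [← hp l x, Finset.mul_sum, show F.P j l = F.P l j from funext (F.P_symm j l)]
    exact Finset.sum_congr rfl fun k _ => by rw [F.P_symm k l]; ring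
  simp only [da, mul_sub, Finset.sum_sub_distrib, projD, h2]
  rw [h1, Finset.sum_add_distrib]; ring

section
variable (hF : F.Tame C)
include hF

theorem cb_q1 : F.Cb (q1 F) := Cls.idx (K := Map77.cb (fun _ : Unit => F.toPre) univ)
  (fun a b _ _ => ⟨_, hF.P a b⟩) (fun _ _ => Cb_const _) () trivial

theorem good_c (k : ι) {m : M → ℝ} (hm : F.Cb m) : ∃ C', (cOp F k m).Good F C' := by
  have h1 : ∀ a, F.Cb fun x => ea ℝ (fun a b => F.P a b x) a := fun a =>
    Cls.tp (K := Map77.cb (fun _ : Unit => F.toPre) univ)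
      (fun b _ _ => Cb_smul ⟨_, hF.P b a⟩ (Cb_const _)) () trivial
  have h2 : ∀ a x v, q1 F x (ea ℝ (fun a b => F.P a b x) a v) = ea ℝ (fun a b => F.P a b x) a v :=
    fun a x v => fm_ext fun i => by
      simp only [q1_apply, ea_apply, smul_eq_mul, ← mul_assoc, ← Finset.sum_mul, PP]
  obtain ⟨C', -, h⟩ := good_of (A := cOp F k m) hF (Cb_const _) (cb_q1 hF) h1 (Cb_smul hm (h1 k))
    ⟨⟨fun _ _ => rfl, fun _ _ _ => rfl⟩, prj1, fun _ _ _ => rfl, h2,
      fun x v => by simp only [cOp, smul_apply, map_smul, h2], fun a x => by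
        ext b
        simp [cOp, ea_apply, PP']⟩
  exact ⟨C', h⟩

variable (ho : ∀ x, Vol (fun a b => F.P a b x) fun a b c d => o a b c d x)
  (hc : ∀ a b c d, F.Cb (o a b c d))
include ho

omit hF in
theorem prj2 : Prj (q2 F o) := ⟨fun x => idx_idem (ho x).sdm_idem fun _ => rfl,
  fun x v w => idx_symm (ho x).sdm_symm (fun _ _ => rfl) v w⟩

omit hF in
theorem cliff_d : (dOp F o).CliffL F := by
  have k : ∀ a b x v w, ⟪(dOp F o).σ a x v, (dOp F o).σ b x w⟫_ℝ = q1 F x v a * q1 F x w b +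
      (F.P a b x * ⟪q1 F x v, q1 F x w⟫_ℝ - q1 F x v b * q1 F x w a +
        ∑ c, ∑ e, o a c b e x * (q1 F x v c * q1 F x w e)) := fun a b x v w => by
    simp only [inner2, dOp, Map77.cut, ContinuousLinearMap.comp_apply, f2_ps, s2_ps, f2_pr2, s2_pr2,
      prj1.idem, Map77.pj_apply, ContinuousLinearMap.id_apply]
    rw [(prj2 ho).symm, (prj2 ho).idem, q2, inner_wd2 (ho x).pr ((ho x).sd_idx _ _), Finset.mul_sum]
    simp only [← real_inner_smul_right, (ho x).sd_wd2 (T := .id ℝ ℝ) (fun _ => rfl) (P_q1 w)]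
    simp only [inner_add_right, inner_sub_right, inner_sum, real_inner_smul_right,
      Finset.sum_add_distrib, Finset.sum_sub_distrib]
    rw [inner_fm (X := ℝ), Finset.mul_sum, ← P_q1 v b]
    simp only [F.P_symm b, Real.inner_apply, smul_eq_mul,
      Finset.sum_mul, mul_assoc]
  intro a b x v w
  have e1 : ∑ c, ∑ e, o b c a e x * (q1 F x v c * q1 F x w e) =
      -∑ c, ∑ e, o a c b e x * (q1 F x v c * q1 F x w e) := by
    simp only [← Finset.sum_neg_distrib]
    refine Finset.sum_congr rfl fun c _ => Finset.sum_congr rfl fun e _ => ?_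
    have := (ho x).a1 b c a e
    have := (ho x).a2 c b a e
    have := (ho x).a1 c a b e
    rw [show o b c a e x = -o a c b e x by linarith, neg_mul]
  rw [k, k, e1, F.P_symm b a, ← prj1.symm, prj1.idem]
  change _ = 2 * F.P a b x * ⟪q1 F x v, w⟫_ℝ
  ring

include hc

omit ho in
theorem cb_q2 : F.Cb (q2 F o) :=
  have h : ∀ a b c d, F.Cb fun x => F.P a b x • F.P c d x := fun a b c d =>
    Cb_smul ⟨_, hF.P a b⟩ ⟨_, hF.P c d⟩
  Cls.idx (K := Map77.cb (fun _ : Unit => F.toPre) univ) (fun _ _ _ _ =>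
    Cb_smul (Cb_add (Cb_smul (Cb_sub (h _ _ _ _) (h _ _ _ _)) (Cb_const (2 : ℝ)⁻¹))
      (Cb_smul (hc _ _ _ _) (Cb_const (2 : ℝ)⁻¹))) (Cb_const (2 : ℝ)⁻¹))
    (fun _ _ => Cb_const _) () trivial

theorem good_d : ∃ C', (dOp F o).Good F C' := by
  let K := Map77.cb (fun _ : Unit => F.toPre) univ
  have hP : ∀ a b, K.mem fun _ => F.P a b := fun a b _ _ => ⟨_, hF.P a b⟩
  have h : K.op fun _ => dOp F o := .cut (fun _ _ => cb_q1 hF)
    (Cls.ps (K.const _) fun _ _ => cb_q2 hF hc)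
    (fun a => Cls.pr2 (Cls.comp (K.const _) fun _ _ => cb_q1 hF)
      (Cls.tp fun s => Cls.sub (Cls.smul (hP _ _) (K.const _)) (Cls.smul (hP _ _) (K.const _))))
    (Cls.pr2 (Cls.sum fun a => Cls.smul (fun _ _ => ⟨_, hF.dv a⟩) (K.const _))
      (Cls.tp fun s => Cls.neg (Cls.sum fun k => Cls.smul (fun _ _ => ⟨_, hF.c _ _ k⟩) (K.const _))))
  obtain ⟨C', -, h⟩ := good_of hF (h.p () trivial) (h.q () trivial) (fun a => h.σ a () trivial)
    (h.B () trivial) (.cut _ prj1 (.ps ⟨fun _ _ => rfl, fun _ _ _ => rfl⟩ (prj2 ho)) fun a x => by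
      refine ContinuousLinearMap.ext fun v => ext2 ?_ (fm_ext fun s => ?_)
      · simpa using P_q1 v a
      · simp [wd2_apply, mul_sub, ← mul_assoc, ← Finset.sum_mul, PP'])
  exact ⟨C', h⟩

end

theorem q1_fm (hp : ∀ i, ∑ j, F.P i j x * a j x = a i x) : q1 F x (fm a x) = fm a x :=
  fm_ext fun i => (q1_apply _ _).trans (hp i)

theorem app_d (hF : F.Tame C) (h : ∀ i, Sm I (a i)) (hp : ∀ i x, ∑ j, F.P i j x * a j x = a i x)
    (x : M) : (dOp F o).app F (fm a) x = i1 _ _ (dv1 F a x) + i2 _ _ (q2 F o x (da F a x)) := by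
  refine (op_cut _ (cb_q1 hF).choose_spec.1 (sm_fm h) (fun x => q1_fm (hp · x)) x).trans
    (ext2 ?_ ?_)
  · simp only [f2_ps, Pre.op, map_add, map_sum, f2_pr2, f2_i1, f2_i2, add_zero, dv1,
      Finset.sum_add_distrib, ContinuousLinearMap.comp_apply, Map77.pj_apply, q1_apply,
      D_ev (sm_fm h), ContinuousLinearMap.id_apply, _root_.sum_apply, smul_apply, smul_eq_mul]
    rw [Finset.sum_comm]
    exact congrArg₂ (· + ·) (Finset.sum_congr rfl fun j _ =>
      (Finset.sum_congr rfl fun l _ => by rw [F.P_symm l]; rfl).trans (projD _ j)) rfl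
  · simp only [s2_ps, map_add, s2_i1, s2_i2, zero_add]
    refine congrArg _ (fm_ext fun s => ?_)
    simp [Pre.op, wd2_apply, D_ev (sm_fm h), projD, da, fm, sub_eq_add_neg, Finset.sum_add_distrib]

theorem cliff_c (k : ι) (m : M → ℝ) : (cOp F k m).CliffL F := fun a b x v w => by
  have : ∀ a b, ⟪(cOp F k m).σ a x v, (cOp F k m).σ b x w⟫_ℝ = F.P a b x * (v * w) := fun a b => by
    simp only [cOp, inner_fm, ea_apply, ← PP a b x, Finset.sum_mul, F.P_symm a]
    exact Finset.sum_congr rfl fun _ _ => by simp; ring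
  rw [this, this, F.P_symm b]
  simp [cOp]; ring

theorem app_c (k : ι) (m ξ : M → ℝ) (x : M) (i : ι) :
    (cOp F k m).app F ξ x i = F.D i ξ x + m x * (F.P i k x * ξ x) := by
  simp [Op.app, Pre.op, cOp, ea_apply, projD]

theorem adj_c {k : ι} {m : M → ℝ} (hA : (cOp F k m).Good F C') {u : M → Fm ι ℝ} (hu : Sm I u) (hp : ∀ x, q1 F x (u x) = u x)
    (x : M) : ((cOp F k m).adj F).app F u x = m x * u x k - dv1 F (fun i y => u y i) x := by
  have h1 : ∀ a x (v : Fm ι ℝ), Op.tr (ea ℝ (fun a b => F.P a b x) a) v = q1 F x v a := fun a x v =>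
    ext_inner_left ℝ fun t => by
      rw [inner_tr, inner_fm, q1_apply, inner_sum]
      exact Finset.sum_congr rfl fun _ _ => by simp [ea_apply, F.P_symm a]; ring
  have h2 : ∀ a, Sm I fun y => Op.tr (ea ℝ (fun a b => F.P a b y) a) := fun a =>
    (trL ℝ _).contMDiff.comp (hA.σ a).1
  have h3 : ∀ a, F.D a (fun y => u y a) x = F.D a (fun y => Op.tr (ea ℝ (fun a b => F.P a b y) a)) x (u x) +
      Op.tr (ea ℝ (fun a b => F.P a b x) a) (F.D a u x) := fun a => by
    refine Eq.trans ?_ (dv_app ((h2 a).mdifferentiableAt (by simp)) (hu.mdifferentiableAt (by simp)))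
    simp only [h1, hp, D_def]
  have h4 : Op.tr (m x • ea ℝ (fun a b => F.P a b x) k) (u x) = m x * u x k :=
    ext_inner_left ℝ fun t => by
      rw [inner_tr, smul_apply, real_inner_smul_left, ← inner_tr, h1, hp, ← smul_eq_mul (m x) (u x k),
        real_inner_smul_right]
  simp only [Op.app, Pre.op, Op.adj, cOp, dv1, h3, neg_apply, ContinuousLinearMap.comp_apply,
    ContinuousLinearMap.id_apply, sub_apply, h4, _root_.sum_apply, add_apply, smul_apply, h1 _ x (u x), hp,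
    Finset.sum_add_distrib, Finset.sum_neg_distrib, smul_eq_mul]
  ring

/-- the orthogonal projection onto the kernel of the adjoint -/
theorem proj (hF : F.Tame C) {A : Op M ι V W} (hA : A.Good F C') (hc : A.CliffL F) {c : ℝ}
    (h0 : ∀ ξ : Sec I A.p, F.nrm 0 ξ.1 ≤ c * F.nrm 0 (A.app F ξ.1)) {α : M → W} (hα : Fl F.toPre α)
    (hq : ∀ x, A.q x (α x) = α x) : ∃ ξ β, Sm I ξ ∧ Fl F.toPre β ∧ (∀ x, A.q x (β x) = β x) ∧
      α = β + A.app F ξ ∧ (A.adj F).app F β = 0 ∧ F.nrm 0 β ≤ F.nrm 0 α := by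
  obtain ⟨C'', hB⟩ := good_adj hF hA
  obtain ⟨d, -, h⟩ := llw F C C' hF V W A hA hc c h0
  obtain ⟨K, -, h⟩ := h 0 0
  obtain ⟨ξ, f1, p1, e, -⟩ := h _ (fl_op hF hB hα hq) (q_app hB α)
  have f2 := fl_op hF hA f1 p1
  have f3 : Fl F.toPre (α - A.app F ξ) := by
    rw [sub_eq_add_neg]
    exact fl_add hα (fl_app (Cb_const (-ContinuousLinearMap.id ℝ W)) f2)
  have p3 : ∀ x, A.q x ((α - A.app F ξ) x) = (α - A.app F ξ) x := fun x => by
    rw [Pi.sub_apply, map_sub, hq, q_app hA]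
  have e3 : (A.adj F).app F (α - A.app F ξ) = 0 := funext fun x => by
    have := app_add (F := F) (A := A.adj F) f3.sm f2.sm x
    rwa [sub_add_cancel, e, right_eq_add] at this
  refine ⟨ξ, _, f1.sm, f3, p3, (sub_add_cancel _ _).symm, e3, ?_⟩
  obtain ⟨y, hy⟩ := ex_isp hF f1 p1 1
  obtain ⟨z, hz⟩ := ex_isp hF f3 p3 1
  have a1 : Hs F A 0 z = 0 := (is_op hB hz f3.sm).unique (e3 ▸ Is.zero)
  have a2 := adjH hF hA y z
  have a3 := (hz.incl zero_le_one).add (is_op hA hy f1.sm)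
  rw [sub_add_cancel] at a3
  rw [← a3.norm hα.sm, ← hz.norm_zero]
  rw [a1, inner_zero_right, real_inner_comm] at a2
  refine (abs_le_of_sq_le_sq' ?_ (norm_nonneg _)).2
  rw [norm_add_sq_real, a2]
  linarith [sq_nonneg ‖A.H F 0 y‖]

/-- **Coulomb gauge** where `D k Ψ = 1` -/
theorem coul (hF : F.Tame C) {k : ι} (h1 : ∀ x, F.P k k x = 1) (h2 : ∀ x, F.dv k x = 0) {Ψ : M → ℝ}
    (hΨ : Sm I Ψ) (cΨ : HasCompactSupport Ψ) (h : ∀ i, Sm I (a i))
    (hc : ∀ i, HasCompactSupport (a i)) (hp : ∀ i x, ∑ j, F.P i j x * a j x = a i x) :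
    ∃ (ξ : M → ℝ) (β : M → Fm ι ℝ), Sm I ξ ∧ Fl F.toPre β ∧ F.nrm 0 β ≤ F.nrm 0 (fm a) ∧
      ∀ x, F.D k Ψ x = 1 → dv1 F (fun i y => β y i) x = 0 ∧ ∀ i, β x i = a i x - F.D i ξ x := by
  have cm : F.Cb fun x => 1 - F.D k Ψ x := Cb_sub (Cb_const 1) (Cb_D (Cb_of_hcs hΨ cΨ) k)
  obtain ⟨C', hA⟩ := good_c hF k cm
  obtain ⟨B, hB⟩ := cΨ.exists_bound_of_continuous hΨ.continuous
  have c1 : HasCompactSupport (fm a) := .intro (isCompact_iUnion fun i => hc i) fun x hx =>
    fm_ext fun i => image_eq_zero_of_notMem_tsupport (f := a i) fun k => hx (mem_iUnion.2 ⟨i, k⟩)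
  obtain ⟨ξ, β, s1, f2, p2, e, e0, n⟩ := proj hF hA (cliff_c k _) (c := Real.exp (2 * B))
    (fun ξ => by
      obtain ⟨ξ, s1, c1, -⟩ := ξ
      have s0 : Sm I fun x => Real.exp (-Ψ x) := Real.contDiff_exp.contMDiff.comp hΨ.neg
      have s2 : Sm I fun x => Real.exp (-Ψ x) * ξ x := s0.mul s1
      have c2 : HasCompactSupport fun x => Real.exp (-Ψ x) * ξ x := c1.mul_left
      set η := fun x => Real.exp (-Ψ x) * ξ x with hη
      have s3 : Sm I fun x => η x * η x := s2.mul s2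
      have c3 : HasCompactSupport fun x => η x * η x := c2.mul_left
      have i0 := F.ibp k _ s3 c3
      have i1 := (F.sm_D s3 k).continuous.integrable_of_hasCompactSupport (μ := F.μ) (F.hcs_D c3 k)
      have i2 := int_sq (FL_of_hcs (F := F.toPre) 0 s1 c1)
      have i3 := int_sq (FL_sec (F := F.toPre) 0 (LS hA ⟨ξ, s1, c1, fun _ => rfl⟩))
      simp only [h2, zero_mul, integral_zero, neg_zero] at i0
      refine nrm_le_of_sq (mul_nonneg (Real.exp_pos _).le (nrm_nonneg _ _)) ?_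
      rw [mul_pow, nrm_sq]
      refine le_of_add_le_add_right (a := Real.exp (2 * B) * ∫ x, F.D k (fun x => η x * η x) x ∂F.μ) ?_
      conv_rhs => rw [i0, mul_zero, add_zero]
      rw [N2, N2, n2, n2, ← integral_const_mul, ← integral_const_mul, ← integral_add i2 (i1.const_mul _)]
      refine integral_mono (i2.add (i1.const_mul _)) (i3.const_mul _) fun x => ?_
      have d1 : F.D k η x = Real.exp (-Ψ x) * (F.D k ξ x - F.D k Ψ x * ξ x) := by
        rw [hη, D_def, Wz78.dv_mul (s0 x) (s1 x), ← D_def, Nk89.D_exp F.toPre hΨ.neg]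
        simp only [D_def, show (fun x => -Ψ x) = -Ψ from rfl, dv_neg]
        ring
      have d2 : ((cOp F k fun x => 1 - F.D k Ψ x).app F ξ x k) ^ 2 ≤
          ‖(cOp F k fun x => 1 - F.D k Ψ x).app F ξ x‖ ^ 2 :=
        (sq_abs _).ge.trans (pow_le_pow_left₀ (abs_nonneg _) (PiLp.norm_apply_le
          ((cOp F k fun x => 1 - F.D k Ψ x).app F ξ x) k) 2)
      have b1 : Real.exp (-Ψ x) ≤ Real.exp B := Real.exp_le_exp.2 ((neg_le_abs _).trans (hB x))
      have b2 : 1 ≤ Real.exp B * Real.exp (-Ψ x) := by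
        rw [← Real.exp_add]; exact Real.one_le_exp (by linarith [(le_abs_self _).trans (hB x)])
      have b3 := Real.exp_pos (-Ψ x)
      rw [app_c, h1] at d2
      simp only [D_def, Wz78.dv_mul (s2 x) (s2 x)]
      rw [← D_def, d1, two_mul, Real.exp_add, ← sq, Real.norm_eq_abs, sq_abs, hη]
      refine le_trans ?_ (mul_le_mul_of_nonneg_left d2 (by positivity))
      have b4 := mul_le_mul_of_nonneg_right (pow_le_pow_left₀ zero_le_one b2 2) (sq_nonneg (ξ x))
      have b5 := mul_le_mul_of_nonneg_left (mul_le_mul_of_nonneg_right (pow_le_pow_left₀ b3.le b1 2)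
        (sq_nonneg (F.D k ξ x + (1 - F.D k Ψ x) * (1 * ξ x)))) (sq_nonneg (Real.exp B))
      nlinarith [sq_nonneg (Real.exp B * Real.exp (-Ψ x) * (F.D k ξ x - F.D k Ψ x * ξ x))])
    ⟨sm_fm h, fun j => FL_of_hcs j (sm_fm h) c1⟩ fun x => q1_fm (hp · x)
  refine ⟨ξ, β, s1, f2, n, fun x hx => ⟨?_, fun i => ?_⟩⟩
  · have := (adj_c hA f2.sm p2 x).symm.trans (congrFun e0 x)
    simpa [hx] using this
  · have := congrArg (fun f => f x i) e
    simp only [Pi.add_apply, PiLp.add_apply, app_c, hx, sub_self, zero_mul, add_zero] at this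
    exact eq_sub_of_add_eq this.symm

end Crest.Agent.X212.Lw78
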