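import Crest.Agent.X212.Lw78.Main
import Crest.Agent.X212.Cyl58.PsC
import Crest.Agent.X212.Dec47.Bas

/-!
# Row 212, SWD-HI (helper78): higher order bounds in the slice
-/

set_option autoImplicit false
set_option linter.unusedSectionVars false
noncomputable section
open scoped Manifold ContDiff Topology InnerProductSpace
open MeasureTheory Set Function Filter

namespace Crest.Agent.X212.Lw78
open An An.Pre Sob92 Cyf70 Sw Sw.En3 Sep15.S Dec47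
open Win45 (FY FZ)
open Pb50 (LA LG th)
open Cyl58 (A1 A2 Λ0 Λ1 β1 β2 sa sp)

theorem lim_le {x K ε : ℝ} (h : ∀ δ ∈ Ioc (0 : ℝ) 1, x ≤ K * (ε + δ)) : x ≤ K * ε :=
  ge_of_tendsto (x := 𝓝[>] (0 : ℝ)) (f := fun δ => K * (ε + δ)) (by
    simpa using ((by fun_prop : Continuous fun δ => K * (ε + δ)).tendsto (0 : ℝ)).mono_left
      (nhdsWithin_le_nhds (s := Ioi 0))) (mem_of_superset (Ioc_mem_nhdsGT one_pos) h)

theorem lipc {X : Type} {β : ℝ → ℝ} (hβ : ContDiff ℝ ∞ β) {s ε : X → ℝ} {s₀ B : ℝ}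
    (hε : ∀ d, 0 < ε d ∧ ε d ≤ B) (h : ∃ K, ∀ d, ‖(ε d)⁻¹ * (s d - s₀)‖ ≤ K) :
    ∃ K, ∀ d, ‖(ε d)⁻¹ * (β (s d) - β s₀)‖ ≤ K := by
  obtain ⟨K, h⟩ := h
  obtain ⟨L, hL⟩ := (hβ.of_le (by simp : (1 : ℕ∞ω) ≤ _)).locallyLipschitz.locallyLipschitzOn
    |>.exists_lipschitzOnWith_of_compact (isCompact_closedBall s₀ |K * B|)
  refine ⟨L * K, fun d => ?_⟩
  have k := h d
  have p := inv_pos.2 (hε d).1
  rw [norm_mul, Real.norm_of_nonneg p.le] at k ⊢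
  have := hL.norm_sub_le (x := s d) (y := s₀) (mem_closedBall_iff_norm.2 (le_trans (by
    rw [inv_mul_le_iff₀ (hε d).1] at k
    nlinarith [(hε d).2, (norm_nonneg _).trans (h d)]) (le_abs_self _)))
    (Metric.mem_closedBall_self (abs_nonneg _))
  nlinarith [mul_le_mul_of_nonneg_left this p.le, mul_le_mul_of_nonneg_left k L.2]

section gen
variable {E : Type} [NormedAddCommGroup E] [NormedSpace ℝ E] [FiniteDimensional ℝ E]
  [MeasurableSpace E] [BorelSpace E]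
  {HM : Type} [TopologicalSpace HM] {I : ModelWithCorners ℝ E HM} [I.Boundaryless]
  {M : Type} [TopologicalSpace M] [ChartedSpace HM M] [IsManifold I ∞ M]
  [MeasurableSpace M] [T2Space M] [BorelSpace M] [SecondCountableTopology M] {X : Type} {p j : ℕ}
  {ι : Type} [Fintype ι] {N : Type} [NormedAddCommGroup N] [NormedSpace ℝ N]
  {V W : Type} [NormedAddCommGroup V] [InnerProductSpace ℝ V] [FiniteDimensional ℝ V]
  [NormedAddCommGroup W] [InnerProductSpace ℝ W] [FiniteDimensional ℝ W]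

theorem sm_cs (r : ℝ) {f : M → N} (h : Sm I f) : Sm I fun x => r • f x :=
  (show Sm I fun _ => r from contMDiff_const).smul h

theorem Dw_smul (F : Pre I M ι) (r : ℝ) : ∀ (w : List ι) {f : M → N}, Sm I f →
    F.Dw w (fun x => r • f x) = fun x => r • F.Dw w f x
  | [], _, _ => rfl
  | a :: w, _, h => (congrArg (F.Dw w) (F.D_smul h r a)).trans (Dw_smul F r w (F.sm_D h a))

theorem Dw_le {F : Pre I M ι} {w : List ι} {f : M → N} (h : Sm I f) {ε K : ℝ} (hε : 0 < ε) {x : M}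
    (k : ‖F.Dw w (fun x => ε⁻¹ • f x) x‖ ≤ K) : ‖F.Dw w f x‖ ≤ K * ε := by
  rwa [Dw_smul F _ w h, norm_smul, Real.norm_of_nonneg (inv_pos.2 hε).le, inv_mul_le_iff₀' hε] at k

theorem Wn.Jt.cst {F : Pre I M ι} {w : Wn F X} {r : X → N} (h : ∃ K, ∀ d, ‖r d‖ ≤ K) :
    w.Jt p j fun d _ => r d :=
  let ⟨_, h⟩ := h
  .ub fun d => ⟨contMDiff_const, fun _ => CB_mono (CB_const _ _) (h d)⟩

theorem Wn.Jt.gau {F : Pre I M ι} {w : Wn F X} {g : X → M → ℂ} (hg : ∀ d, Gau I (g d)) :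
    ∀ {j}, (∀ i, w.Jt 0 j fun d => th F (g d) i) → w.Jt 0 (j + 1) g
  | 0, _ => .one (fun d => (hg d).1) (Wn.lp0 fun _ _ => ⟨1, fun d x _ => ((hg d).2 x).le⟩)
  | _ + 1, h => have k := gau hg fun i => (h i).pred
    ⟨k.sm, k.lp, fun i => ((h i).smul (k.clm (.mul ℝ ℂ Complex.I))).eq fun d x =>
      (LG.of_gau (hg d) x).D F i⟩

variable {F : Fr I M ι} {w : Wn F.toPre X} {C C' : ℕ → ℝ} {u : X → M → V} {A : Op M ι V W}

theorem app_lin (A : Op M ι V W) {u v : M → V} (hu : Sm I u) (hv : Sm I v) (r : ℝ) (x : M) :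
    A.app F (fun x => r • (u x - v x)) x = r • (A.app F u x - A.app F v x) := by
  have : ∀ a, F.D a (fun x => r • (u x - v x)) x = r • (F.D a u x - F.D a v x) := fun a =>
    (congrFun (F.D_smul (hu.sub hv) r a) x).trans (congrArg _ (Wz78.dv_sub' (hu x) (hv x)))
  simp only [Op.app, Pre.op, this, map_smul, map_sub, ← Finset.smul_sum, Finset.sum_sub_distrib]
  module

theorem Wn.Jt.op (hA : A.Good F C') (h : w.Jt p (j + 1) u) : w.Jt p j fun d => A.app F (u d) :=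
  (Wn.Jt.sum fun a => (Wn.Jt.cb ⟨_, hA.σ a⟩).app (h.D a)).add ((Wn.Jt.cb ⟨_, hA.B⟩).app h.pred)

theorem Wn.Jt.ells (hF : F.Tame C) (hA : A.Good F C') (hc : A.CliffL F)
    (hp : ∀ d x, A.p x (u d x) = u d x) (h : w.Jt 2 1 u) :
    ∀ {n}, (w.Jt 2 (n + 1) fun d => A.app F (u d)) → w.Jt 2 (n + 2) u
  | 0, k => h.ell hF hA hc hp k
  | _ + 1, k => (ells hF hA hc hp h k.pred).ell hF hA hc hp k

end gen

variable {κ lam ν : Type} [Fintype κ] [Fintype lam] [Fintype ν] [DecidableEq ν] {e : En3 κ lam ν}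
  {v v' : e.YC} {X : Type}

theorem yw_int {g : X → e.Y.M → ℝ} (h : (yw e X).Jt 2 1 g) : ∃ K, ∀ d, ‖∫ y, g d y ∂e.D.F.μ‖ ≤ K := by
  obtain ⟨K, k⟩ := h.lp.2 1 one_pos
  refine ⟨√((e.D.F.μ.real univ + 1) * K), fun d => Real.le_sqrt_of_sq_le ((sq_abs _).trans_le
    ((sq_int (FY e) (h.ct d)).trans (mul_le_mul_of_nonneg_left ?_ (by positivity))))⟩
  simpa [yw] using k d

theorem yw_l2 {V : Type} [NormedAddCommGroup V] [InnerProductSpace ℝ V] {f : X → e.Y.M → V}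
    {ε : X → ℝ} (hs : ∀ d, Sm e.Y.I (f d)) (h : ∀ d, 0 < ε d ∧ e.D.F.nrm 1 (f d) ≤ ε d) :
    (yw e X).Jt 2 1 fun d y => (ε d)⁻¹ • f d y :=
  .one (fun d => sm_cs _ (hs d)) ⟨fun h => absurd h two_ne_zero, fun _ _ => ⟨1, fun d => by
    have := pow_le_pow_left₀ (nrm_nonneg _ _) ((nrm_mono zero_le_one _).trans (h d).2) 2
    simp only [yw, Measure.restrict_univ, norm_smul, mul_pow, integral_const_mul, norm_inv,
      Real.norm_eq_abs, sq_abs, inv_pow]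
    exact (inv_mul_le_one₀ (pow_pos (h d).1 2)).2 ((nrm_sq (F := FY e) 0 (f d)).ge.trans this)⟩⟩

/-- a scaled difference -/
def df (r : ℝ) (v' v : e.YC) : e.YC :=
  ⟨fun k y => r • (v'.a k y - v.a k y), fun y => r • (v'.Φ y - v.Φ y)⟩

theorem adm_df (h' : e.cyl.Adm (fz v')) (h : e.cyl.Adm (fz v)) (r : ℝ) : e.cyl.Adm (fz (df r v' v)) :=
  Cyl58.adm_fz (fun k => sm_cs r ((sm_a h' k).sub (sm_a h k)))
    (sm_cs r ((sm_Φ h').sub (sm_Φ h))) (fun k y => by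
      simp only [df, smul_eq_mul, mul_left_comm _ r, mul_sub, ← Finset.mul_sum, Finset.sum_sub_distrib,
        Cyl58.a_P h', Cyl58.a_P h]) fun y => by
    simp only [df, map_smul, map_sub]
    exact congrArg _ (congrArg₂ _ (h'.pΦ (y, 0)) (h.pΦ (y, 0)))

theorem app_df (he : e.OK) (h' : e.cyl.Adm (fz v')) (h : e.cyl.Adm (fz v)) (co : Co v v') (r : ℝ)
    (y : e.Y.M) : (A1 e.D.F).app e.D.F (fm (df r v' v).a) y = Λ1 e y (r • (Λ0 e y ((A1 e.D.F).app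
      e.D.F (fm v'.a) y) - Λ0 e y ((A1 e.D.F).app e.D.F (fm v.a) y))) := by
  refine (Cyl58.app_Λ he (adm_df h' h r) (fun y => ?_) y).trans ?_
  · rw [← mul_zero r, ← co y, Finset.mul_sum]
    refine Finset.sum_congr rfl fun i _ => ?_
    rw [mul_add, mul_left_comm r]
    exact congrArg (· + _) (congrFun (e.D.F.D_smul ((sm_a h' i).sub (sm_a h i)) r i) y)
  · rw [← map_sub, ← map_smul, ← app_lin _ (sm_fm (sm_a h')) (sm_fm (sm_a h))]
    rfl

/-- SWD-HI -/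
theorem hi : HiStmt κ lam ν := by
  intro e v he hv k B
  let X := {d : e.YC × (e.Y.M → ℂ) × ℝ // (0 < d.2.2 ∧ d.2.2 ≤ B + 1) ∧ e.cyl.Adm (fz d.1) ∧
    Gau e.Y.I d.2.1 ∧ Cy d.1 ⟨0, 0⟩ (k + 4) B ∧ Cy (gr d.1) ⟨0, 0⟩ (k + 4) d.2.2 ∧
    Co v (ay d.2.1 d.1) ∧ dist 1 (ay d.2.1 d.1) v ≤ d.2.2}
  obtain ⟨_, hF⟩ := Cyl58.tame3 e
  obtain ⟨_, g1⟩ := Cyl58.good1 e.D.F hF
  obtain ⟨_, g2⟩ := Cyl58.good2 he hF
  obtain ⟨S, -, hS⟩ := Cht98.supOn (FY e) (e.Y.dim.trans_le (by norm_num)) isCompact_univ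
  have cb : ∀ {N : Type} [NormedAddCommGroup N] [NormedSpace ℝ N] {f : e.Y.M → N} {p j : ℕ},
    Sm e.Y.I f → (yw e X).Jt p j fun _ => f := fun h => .cb (Cb_of_compact h)
  have h1 := fun d : X => d.2.2.1
  have hg := fun d : X => d.2.2.2.1
  have h2 := fun d : X => adm_ay he (h1 d) (hg d)
  have co := fun d : X => d.2.2.2.2.2.2.1
  have n0 := fun {V : Type} [NormedAddCommGroup V] [InnerProductSpace ℝ V] (f : e.Y.M → V) =>
    nrm_nonneg (F := FY e) 1 f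
  have n1 : ∀ (d : X) i, e.D.F.nrm 1 ((ay d.1.2.1 d.1.1).a i - v.a i) ≤ d.1.2.2 := fun d i =>
    ((Finset.single_le_sum (f := fun i => e.D.F.nrm 1 ((ay d.1.2.1 d.1.1).a i - v.a i))
      (fun _ _ => n0 _) (Finset.mem_univ i)).trans
      (le_add_of_nonneg_right (n0 _))).trans d.2.2.2.2.2.2.2
  have n2 : ∀ d : X, e.D.F.nrm 1 ((ay d.1.2.1 d.1.1).Φ - v.Φ) ≤ d.1.2.2 := fun d =>
    (le_add_of_nonneg_left (Finset.sum_nonneg fun _ _ => n0 _)).trans d.2.2.2.2.2.2.2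
  have a1 : ∀ i, (yw e X).Jt 0 (k + 5) fun d => d.1.1.a i := fun i =>
    .of_CB fun d => ⟨sm_a (h1 d) i, by simpa using d.2.2.2.2.1.1 i⟩
  have p1 : (yw e X).Jt 0 (k + 5) fun d => d.1.1.Φ :=
    .of_CB fun d => ⟨sm_Φ (h1 d), by simpa using d.2.2.2.2.1.2⟩
  have sc : ∀ {N : Type} [NormedAddCommGroup N] [NormedSpace ℝ N] {f : X → e.Y.M → N},
      (∀ d, Sm e.Y.I (f d) ∧ e.D.F.CB (k + 4) (f d) d.1.2.2) →
      (yw e X).Jt 0 (k + 5) fun d y => d.1.2.2⁻¹ • f d y := fun h => .of_CB (C := 1) fun d =>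
    ⟨sm_cs _ (h d).1, fun w hw y => by
      rw [Dw_smul _ _ w (h d).1, norm_smul, Real.norm_of_nonneg (inv_pos.2 d.2.1.1).le]
      exact (inv_mul_le_one₀ d.2.1.1).2 ((h d).2 w hw y)⟩
  have a2 := fun i => sc fun d => ⟨sm_gr_a he (h1 d) i, by simpa using d.2.2.2.2.2.1.1 i⟩
  have p2 := sc fun d => ⟨sm_gr_Φ he (h1 d), by simpa using d.2.2.2.2.2.1.2⟩
  have pa : ∀ r (d : X) y, (A1 e.D.F).p y (fm (df r (ay d.1.2.1 d.1.1) v).a y) =
    fm (df r (ay d.1.2.1 d.1.1) v).a y := fun r d => (sa (adm_df (h2 d) hv.1 r)).2.2.2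
  have B0 : ∀ d : X, 0 < B + 1 := fun d => d.2.1.1.trans_le d.2.1.2
  -- bounded regime
  have a3 : (yw e X).Jt 2 (k + 5) fun d => fm (df (B + 1)⁻¹ (ay d.1.2.1 d.1.1) v).a :=
    .ells hF g1 (Cyl58.cliff1 _) (pa _) (.pi fun i => yw_l2 (fun d => (sm_a (h2 d) i).sub (sm_a hv.1 i))
      fun d => ⟨B0 d, (n1 d i).trans d.2.1.2⟩) (((cb (Cyl58.sm_Λ1 he)).app ((cb (contMDiff_const
      (c := (B + 1)⁻¹))).smul ((cb (Cyl58.sm_Λ0 he)).app (((Wn.Jt.pi (f := fun d : X => fm d.1.1.a)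
      a1).op g1).sub ((cb (sm_fm (sm_a hv.1))).op g1))))).of0.eq fun d y => by
      rw [app_df he (h2 d) hv.1 (co d), map_sub]
      congr 3
      ext i
      have := Cyl58.eqv_fc he (h1 d) (eqv_ay (hg d) _)
      have := fun i j => congrArg (· (some i, some j)) (add_left_cancel ((Cyl58.fc_fz he (h2 d) y).symm.trans
        ((congrFun this _).trans (Cyl58.fc_fz he (h1 d) y))))
      refine (Cyl58.Λ0_app he (h2 d) y i).trans (.trans ?_ (Cyl58.Λ0_app he (h1 d) y i).symm)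
      simp only [Cyl58.up2] at this
      simp only [this])
  have a4 : (yw e X).Jt 0 (k + 3) fun d => d.1.2.1 := .gau hg fun i =>
    (((a1 i).of_le (by omega)).sub ((cb (sm_a hv.1 i)).add ((cb (contMDiff_const (c := B + 1))).smul
      ((a3.sob0 hS).clm (Map77.pj ℝ i))))).eq fun d y => by
      simp [fm, df, ay_a (hg d).1, mul_inv_cancel_left₀ (B0 d).ne']
  have cs : ∀ {f : X → e.Y.M → Eu ν}, (yw e X).Jt 0 (k + 5) f →
      (yw e X).Jt 0 (k + 3) fun d y => Pb50.cB e.m.J (d.1.2.1 y) (f d y) := fun h =>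
    (a4.clm _).app (h.of_le (by omega))
  have p3 : (yw e X).Jt 0 (k + 3) fun d => (ay d.1.2.1 d.1.1).Φ := cs p1
  have a5 : ∀ i, (yw e X).Jt 2 1 fun d => (df d.1.2.2⁻¹ (ay d.1.2.1 d.1.1) v).a i := fun i =>
    yw_l2 (fun d => (sm_a (h2 d) i).sub (sm_a hv.1 i)) fun d => ⟨d.2.1.1, n1 d i⟩
  have p5 : (yw e X).Jt 2 1 fun d => (df d.1.2.2⁻¹ (ay d.1.2.1 d.1.1) v).Φ :=
    yw_l2 (fun d => (sm_Φ (h2 d)).sub (sm_Φ hv.1)) fun d => ⟨d.2.1.1, n2 d⟩
  have iY := fun {N : Type} [NormedAddCommGroup N] [NormedSpace ℝ N] {f : e.Y.M → N}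
    (h : Sm e.Y.I f) => integrable_Y h.continuous
  have sζ : ∀ i, Sm e.Y.I fun y => e.ζ y (none, some i) := fun i =>
    (Map77.pj ℝ (none, some i)).contMDiff.comp he.sζ
  have r1 := lipc (contDiff_infty_iff_deriv.1 he.sf).2 (s := fun d : X => hol (ay d.1.2.1 d.1.1))
    (s₀ := hol v) (fun d => d.2.1) ((yw_int ((cb (contMDiff_const (c := (4 : ℝ)))).smul (.sum fun i =>
      (cb (sζ i)).smul (a5 i)))).imp fun K h d => (congrArg norm (by
      have k : ∀ {v : e.YC}, e.cyl.Adm (fz v) → Integrable (fun y =>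
          4 * ∑ k, e.ζ y (none, some k) * v.a k y) e.D.F.μ := fun h =>
        iY (sm_cs 4 (contMDiff_finsetSum (t := Finset.univ) fun i _ => (sζ i).mul (sm_a h i)))
      rw [hol, hol, ← integral_sub (k (h2 d)) (k hv.1), ← integral_const_mul]
      refine integral_congr_ae (.of_forall fun y => ?_)
      simp only [df, smul_eq_mul, mul_left_comm _ d.1.2.2⁻¹, ← Finset.mul_sum, mul_sub,
        Finset.sum_sub_distrib])).trans_le (h d))
  have r2 := lipc he.sb (s := fun d : X => nm (ay d.1.2.1 d.1.1)) (s₀ := nm v) (fun d => d.2.1)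
    ((yw_int (p5.bil (innerSL ℝ) (holR 2) ((p3.of_le (by omega)).add (cb (sm_Φ hv.1))))).imp
      fun K h d => (congrArg norm (by
      have k : ∀ {v : e.YC}, e.cyl.Adm (fz v) → Integrable (fun y => ‖v.Φ y‖ ^ 2) e.D.F.μ := fun h =>
        integrable_Y ((sm_Φ h).continuous.norm.fun_pow 2)
      rw [nm, nm, ← integral_sub (k (h2 d)) (k hv.1), ← integral_const_mul]
      refine integral_congr_ae (.of_forall fun y => ?_)
      beta_reduce
      rw [innerSL_apply_apply]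
      simp only [df, real_inner_smul_left, inner_sub_left, inner_add_right,
        real_inner_self_eq_norm_sq]
      rw [real_inner_comm (v.Φ y)]; ring)).trans_le (h d))
  obtain ⟨B', hB⟩ := b_bd he
  have r3 : ∃ K, ∀ d : X, ‖e.b (nm (ay d.1.2.1 d.1.1))‖ ≤ K :=
    ⟨B', fun _ => hB _ (integral_nonneg fun _ => sq_nonneg _)⟩
  have ga : ∀ {v : e.YC}, e.cyl.Adm (fz v) → ∀ y, fm (gr v).a y = Λ0 e y ((A1 e.D.F).app e.D.F
    (fm v.a) y) + β1 e y (v.Φ y) (v.Φ y) + ((Cyl58.c0 he).1 y + deriv e.f (hol v) • (Cyl58.c1 he).1 y) :=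
    Cyl58.gr_a' he
  have gp : ∀ {v : e.YC}, e.cyl.Adm (fz v) → ∀ y, (A2 e).app e.D.F v.Φ y =
    β2 e y (fm v.a y) (v.Φ y) + (e.b (nm v) • v.Φ y + (gr v).Φ y) := Cyl58.gr_P' he
  have key : ∀ j ≤ k + 3, ((yw e X).Jt 2 (j + 1) fun d => fm (df d.1.2.2⁻¹ (ay d.1.2.1 d.1.1) v).a) ∧
      (yw e X).Jt 2 (j + 1) fun d => (df d.1.2.2⁻¹ (ay d.1.2.1 d.1.1) v).Φ := fun j hj => by
    induction j with
    | zero => exact ⟨.pi a5, p5⟩
    | succ j ih =>
      obtain ⟨i1, i2⟩ := ih (by omega)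
      have q3 := p3.of_le hj
      have b1 := cb (p := 0) (j := j + 1) (Cyl58.sm_β1 he)
      have b2 := cb (p := 0) (j := j + 1) (Cyl58.sm_β2 he)
      have q0 := cb (p := 0) (j := j + 1) (sm_Φ hv.1)
      refine ⟨i1.ell hF g1 (Cyl58.cliff1 _) (fun d => pa _ d) (((cb (Cyl58.sm_Λ1 he)).app
        (((((Wn.Jt.pi (f := fun (d : X) y => d.1.2.2⁻¹ • fm (gr d.1.1).a y) a2).of_le
        (by omega)).of0.sub (.bil (.id ℝ _) (holR 2) (b1.app i2) q3)).sub ((b1.app q0).app i2)).sub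
        ((Wn.Jt.cst r1).smul (cb (Cyl58.c1 he).2.1)))).eq fun d y => ?_),
        i2.ell hF g2 (Cyl58.cliff2 he) (fun d => (sp (adm_df (h2 d) hv.1 _)).2.2.2)
        ((((((Wn.Jt.bil (.id ℝ _) (holR 2) (b2.app i1) q3).add ((b2.app (cb (sm_fm (sm_a hv.1)))).app
        i2)).add ((Wn.Jt.cst r3).smul i2)).add ((Wn.Jt.cst r2).smul q0.of0)).add
        ((cs p2).of_le hj).of0).eq fun d y => ?_)⟩
      · have e2 := ga hv.1 y
        rw [show fm (gr v).a y = 0 from Map77.fm_ext fun i => hv.2.1 i y, add_assoc, eq_comm,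
          add_eq_zero_iff_eq_neg] at e2
        rw [app_df he (h2 d) hv.1 (co d), ← (gr_ay he (h1 d) (hg d)).1, ga (h2 d), e2]
        congr 1
        simp only [df, map_smul, map_sub, smul_apply, sub_apply, ContinuousLinearMap.id_apply]
        module
      · refine (app_lin _ (sm_Φ (h2 d)) (sm_Φ hv.1) _ y).trans ?_
        rw [gp (h2 d), gp hv.1, show fm (df d.1.2.2⁻¹ (ay d.1.2.1 d.1.1) v).a y =
          d.1.2.2⁻¹ • (fm (ay d.1.2.1 d.1.1).a y - fm v.a y) from rfl]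
        simp only [hv.2.2, (gr_ay he (h1 d) (hg d)).2, ← Pb50.cB_apply, df, map_smul, map_sub,
          smul_apply, sub_apply, ContinuousLinearMap.id_apply]
        module
  obtain ⟨k1, k2⟩ := key _ le_rfl
  choose K1 h5 using fun i => ((k1.sob0 hS).clm (Map77.pj ℝ i)).bd 1 one_pos
  obtain ⟨K2, h6⟩ := (k2.sob0 hS).bd 1 one_pos
  obtain ⟨K3, h7⟩ := (a4.of_le (by omega : k + 1 ≤ _)).bd 1 one_pos
  have K0 : 0 ≤ ∑ i, |K1 i| := by positivity
  refine ⟨∑ i, |K1 i| + |K2| + |K3|, fun v₁ g ε t0 t1 t2 t3 t4 t5 t6 => ?_⟩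
  let d : ∀ δ ∈ Ioc (0 : ℝ) 1, X := fun δ hδ => ⟨(v₁, g, ε + δ), ⟨by linarith [t4.nn, hδ.1],
    by linarith [hδ.2]⟩, t1, t2, t3, t4.mono (by linarith [hδ.1]), t5, by linarith [hδ.1]⟩
  have s1 := adm_ay he t1 t2
  refine ⟨⟨fun i w hw y => lim_le fun δ hδ => Dw_le ((sm_a s1 i).sub (sm_a hv.1 i)) (d δ hδ).2.1.1
    ((h5 i (d δ hδ) w hw y trivial).trans ?_), fun w hw y => lim_le fun δ hδ => Dw_le
    ((sm_Φ s1).sub (sm_Φ hv.1)) (d δ hδ).2.1.1 ((h6 (d δ hδ) w hw y trivial).trans ?_)⟩,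
    fun w hw y => (h7 (d 1 ⟨one_pos, le_rfl⟩) w hw y trivial).trans ?_⟩
  · linarith [le_abs_self (K1 i), Finset.single_le_sum (f := fun i => |K1 i|)
      (fun _ _ => abs_nonneg _) (Finset.mem_univ i), abs_nonneg K2, abs_nonneg K3]
  · linarith [le_abs_self K2, abs_nonneg K3]
  · linarith [le_abs_self K3, abs_nonneg K2]

end Crest.Agent.X212.Lw78
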