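import Crest.Agent.X212.Lw78.Hi
import Crest.Agent.X212.Dl42.Dx

/-!
# Row 212, SWD-INT (helper78): interior estimates for the time derivative in temporal gauge
-/

set_option autoImplicit false
set_option linter.unusedSectionVars false
noncomputable section
open scoped Manifold ContDiff Topology InnerProductSpace
open MeasureTheory Set Function Filter

namespace Crest.Agent.X212.Lw78
open An An.Pre Sob92 Ell97 Cyf70 Sw Sw.En3 Sep15.S Dec47 Dl23
open Win45 (FY FZ)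

section cyl
variable {E : Type} [NormedAddCommGroup E] [NormedSpace ℝ E] [FiniteDimensional ℝ E]
  [MeasurableSpace E] [BorelSpace E]
  {HM : Type} [TopologicalSpace HM] {I : ModelWithCorners ℝ E HM} [I.Boundaryless]
  {Y : Type} [TopologicalSpace Y] [ChartedSpace HM Y] [IsManifold I ∞ Y] [T2Space Y]
  [MeasurableSpace Y] [BorelSpace Y] [SecondCountableTopology Y] [CompactSpace Y]
  {ι : Type} [Fintype ι] {N N' N'' : Type} [NormedAddCommGroup N] [NormedSpace ℝ N]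
  [NormedAddCommGroup N'] [NormedSpace ℝ N'] [NormedAddCommGroup N''] [NormedSpace ℝ N''] {X : Type}
  {F : Pre I Y ι} {a b : X → ℝ} {l : ℝ} {h : ∀ d, b d - a d ≤ l} {j : ℕ}

theorem jt_sI00 : ∀ {j : ℕ} {φ : X → Y × ℝ → ℝ}, (cw F a b h).Jt 0 j φ →
    (cw F a b h).Jt 0 j fun d => sI F (φ d)
  | 0, _, k => fun d => sm_sI (k d)
  | j + 1, φ, k => by
    refine ⟨fun d => sm_sI (k.1 d), Wn.lp0 fun r hr => ?_, fun o => (jt_sI00 (φ := fun d =>
        o.elim ((cylP F).D none (φ d)) fun _ => 0) ?_).eq fun d => D_sI (k.1 d) o⟩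
    · obtain ⟨K, -, H⟩ := k.lp.1 rfl r hr
      exact ⟨_, fun d x hx => norm_integral_le_of_norm_le_const
        (.of_forall fun y => H d (y, x.2) ⟨trivial, hx.2⟩)⟩
    · cases o
      exacts [k.D none, .cb (Cb_const 0)]

theorem D0_comm {u : Y × ℝ → N} (hu : Sm (IC I) u) :
    ∀ i, (cylP F).D none ((cylP F).D i u) = (cylP F).D i ((cylP F).D none u)
  | none => rfl
  | some i => D_comm F hu i

theorem D0_st {f : Y × ℝ → N} (hf : Sm (IC I) f) (hs : ∀ y t, f (y, t) = f (y, 0)) (x : Y × ℝ) :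
    (cylP F).D none f x = 0 := by simp [D_none F hf, hs]

theorem D0_app {L : Y × ℝ → N →L[ℝ] N'} (hL : Sm (IC I) L) (hs : ∀ y t, L (y, t) = L (y, 0))
    {u : Y × ℝ → N} (hu : Sm (IC I) u) (x : Y × ℝ) :
    (cylP F).D none (fun x => L x (u x)) x = L x ((cylP F).D none u x) :=
  (dv_app (hL.mdifferentiableAt (by simp)) (hu.mdifferentiableAt (by simp))).trans
    (by rw [← D_def, D0_st hL hs, zero_apply, zero_add]; rfl)

/-- bounded functions with a small time derivative -/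
structure Td (w : Wn (cylP F) X) (r : X → ℝ) (j : ℕ) (f : X → Y × ℝ → N) : Prop where
  b : w.Jt 0 j f
  d : w.Jt 2 j fun d x => r d • (cylP F).D none (f d) x

namespace Td
variable {w : Wn (cylP F) X} {r : X → ℝ} {f f' : X → Y × ℝ → N} {g : X → Y × ℝ → N'}

theorem st {f : Y × ℝ → N} (hf : (cylP F).Cb f) (hs : ∀ y t, f (y, t) = f (y, 0)) :
    Td w r j fun _ => f :=
  ⟨.cb hf, (Wn.Jt.cb (Cb_const 0)).eq fun _ x => by rw [D0_st hf.choose_spec.1 hs, smul_zero]⟩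

theorem add (h : Td w r j f) (h' : Td w r j f') : Td w r j fun d x => f d x + f' d x :=
  ⟨h.b.add h'.b, (h.d.add h'.d).eq fun d x =>
    (congrArg _ (dv_add (h.b.md d x) (h'.b.md d x))).trans (smul_add _ _ _)⟩

theorem bil (B : N →L[ℝ] N' →L[ℝ] N'') (h : Td w r j f) (h' : Td w r j g) :
    Td w r j fun d x => B (f d x) (g d x) :=
  ⟨h.b.bil B (holL 0) h'.b, ((h.d.bil B (holR 2) h'.b).add (h.b.bil B (holL 2) h'.d)).eq fun d x =>
    (congrArg _ (dv_bil B (h.b.md d x) (h'.b.md d x))).trans (by simp [D_def])⟩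

theorem clm (L : N →L[ℝ] N') (h : Td w r j f) : Td w r j fun d x => L (f d x) :=
  ⟨h.b.clm L, (h.d.clm L).eq fun d x =>
    (congrArg _ (dv_clm L (h.b.md d x))).trans (map_smul _ _ _).symm⟩

theorem neg (h : Td w r j f) : Td w r j fun d x => -f d x := h.clm (-.id ℝ N)

theorem sub (h : Td w r j f) (h' : Td w r j f') : Td w r j fun d x => f d x - f' d x := by
  simpa only [sub_eq_add_neg] using h.add h'.neg

theorem app {L : X → Y × ℝ → N →L[ℝ] N'} (h : Td w r j L) (h' : Td w r j f) :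
    Td w r j fun d x => L d x (f d x) := h.bil (.id ℝ _) h'

theorem smul {φ : X → Y × ℝ → ℝ} (h : Td w r j φ) (h' : Td w r j f) :
    Td w r j fun d x => φ d x • f d x := h.bil (.lsmul ℝ ℝ) h'

theorem sum {α : Type} [Fintype α] {f : α → X → Y × ℝ → N} (h : ∀ a, Td w r j (f a)) :
    Td w r j fun d x => ∑ a, f a d x :=
  ⟨.sum fun a => (h a).b, (Wn.Jt.sum fun a => (h a).d).eq fun d x =>
    (congrArg _ (Wz78.dv_sum' _ fun a => (h a).b.sm d x)).trans (Finset.smul_sum ..)⟩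

theorem pi {α : Type} [Fintype α] {f : X → Y × ℝ → Fm α ℝ} (h : ∀ a, Td w r j fun d x => f d x a) :
    Td w r j f := by
  simpa only [← fm_sum] using sum fun a => (h a).clm (Map77.ij ℝ a)

theorem fn {φ : X → Y × ℝ → ℝ} {β : ℝ → ℝ} (hβ : ContDiff ℝ ∞ β) (k : Td (cw F a b h) r j φ) :
    Td (cw F a b h) r j fun d x => β (sI F (φ d) x) :=
  ⟨(jt_sI00 k.b).comp hβ, (((jt_sI00 k.b).comp (contDiff_infty_iff_deriv.1 hβ).2).smul
    (jt_sI k.d)).eq fun d x => by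
      simp only [D_comp hβ (sm_sI (k.b.sm d)), D_sI (k.b.sm d)]
      simp [sI, integral_const_mul, mul_left_comm, mul_comm]⟩

theorem onD (h : Td w r j f) {u : X → Y × ℝ → N} (hu : ∀ d, Sm (IC I) (u d))
    (e1 : ∀ d x, u d x = r d • (cylP F).D none (f' d) x) (e2 : w.On fun d x => f' d x = f d x) :
    w.Jt 2 j u :=
  h.d.congr hu fun r hr d x hx => (e1 d x).trans (congrArg _ (dv_congr (e2.ev r hr d x hx)))

end Td
end cyl

variable {κ lam ν : Type} [Fintype κ] [Fintype lam] [Fintype ν] [DecidableEq ν]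

section bg
variable {E : Type} [NormedAddCommGroup E] [NormedSpace ℝ E] [FiniteDimensional ℝ E]
  [MeasurableSpace E] [BorelSpace E]
  {HM : Type} [TopologicalSpace HM] {I : ModelWithCorners ℝ E HM} [I.Boundaryless]
  {M : Type} [TopologicalSpace M] [ChartedSpace HM M] [IsManifold I ∞ M]
  [MeasurableSpace M] [T2Space M] [BorelSpace M] [SecondCountableTopology M] {X : Type} {j nc : ℕ}
  {b : Bg I M κ lam ν nc}

theorem ellA (hb : b.OK) {w : Wn b.F.toPre X} {c : X → Sw.Cfg M κ ν} (hc : ∀ d, b.Adm (c d))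
    (ha : ∀ i, w.Jt 2 (j + 1) fun d => (c d).a i) (h1 : w.Jt 2 (j + 1) fun d => dv1 b.F (c d).a)
    (h2 : w.Jt 2 (j + 1) fun d x => b.p2 x (da b.F (c d).a x)) (i : Option κ) :
    w.Jt 2 (j + 2) fun d => (c d).a i := by
  obtain ⟨_, hF⟩ := hb.tame
  obtain ⟨_, hA⟩ := good_d hF (vol4 hb) hb.co
  have pa : ∀ d i x, ∑ k, b.F.P i k x * (c d).a k x = (c d).a i x := fun d =>
    (show b.F.P = b.B.P from hb.G.P) ▸ (hc d).pa
  exact (Wn.Jt.ell (u := fun d => fm (c d).a) hF hA (cliff_d (vol4 hb)) (fun d x => q1_fm fun i =>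
    pa d i x) (.pi ha) (((h1.clm (Map77.i1 _ _)).add (h2.clm (Map77.i2 _ _))).eq fun d x => by
      rw [app_d hF (hc d).sa (pa d), p2_eq hb])).clm (Map77.pj ℝ i)

end bg

theorem p2_st (e : En3 κ lam ν) (y : e.Y.M) (s : ℝ) : e.cyl.p2 (y, s) = e.cyl.p2 (y, 0) := by
  have h : ∀ a b, e.cyl.B.P a b (y, s) = e.cyl.B.P a b (y, 0) := fun a b => by
    cases a <;> cases b <;> rfl
  refine congrArg (idx · _) (funext₂ fun a b => ?_)
  simp only [Base.sd, Base.a2, h]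
  rfl

variable {e : En3 κ lam ν} {v : e.YC} {c : e.ZC} (he : e.OK)
include he

/-- the gradient is orthogonal to the orbits -/
theorem row (hv : e.cyl.Adm (fz v)) (y : e.Y.M) : 2 * ∑ k, (e.D.F.D k ((gr v).a k) y +
    e.D.F.dv k y * (gr v).a k y) + e.w * ⟪(gr v).Φ y, e.m.J (v.Φ y)⟫_ℝ = 0 := by
  set G := fun y => 2 * ∑ k, (e.D.F.D k ((gr v).a k) y + e.D.F.dv k y * (gr v).a k y) +
    e.w * ⟪(gr v).Φ y, e.m.J (v.Φ y)⟫_ℝ
  have s := sm_gr_a he hv
  have sG : Sm e.Y.I G := (sm_cs 2 (contMDiff_finsetSum fun k _ => (e.D.F.sm_D (s k) k).add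
    ((e.D.F.dv_sm k).mul (s k)))).add (sm_cs e.w (smooth_bil (innerSL ℝ) (sm_gr_Φ he hv)
    (e.m.J.contMDiff.comp (sm_Φ hv))))
  have n := (((Dl42.nul_dvg e.D.F fun k => (s k).mul sG).mul 2).add
    ((Dl42.nul_gau he (Dl42.ay_of hv) sG).mul (-1))).of (g := fun y => G y ^ 2) fun y => by
      simp only [Wz78.dvg, Dl42.ipd, Dl42.gau, inner_neg_right, real_inner_smul_right, Pi.mul_apply,
        fun k => show dv e.Y.I (e.D.F.e k) ((gr v).a k * G) y = _ from Wz78.dv_mul (s k y) (sG y),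
        Finset.sum_add_distrib, ← mul_assoc, ← Finset.sum_mul, ← D_def]
      linear_combination G y * (congrArg (2 * · + _) Finset.sum_add_distrib : G y = _)
  have := openPos (FY e)
  exact pow_eq_zero_iff two_ne_zero |>.1 (congrFun ((Continuous.ae_eq_iff_eq e.D.F.μ
    (sG.continuous.fun_pow 2) continuous_zero).1 ((integral_eq_zero_iff_of_nonneg
    (fun _ => sq_nonneg _) n.int).1 n.zero)) y)

theorem D0_D (hc : e.cyl.Adm c) (r : ℝ) (x : e.Y.M × ℝ) :
    (sOp e.cyl).app e.cyl.F (fun x => r • (FZ e).D none c.Φ x) x =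
      r • (FZ e).D none ((sOp e.cyl).app e.cyl.F c.Φ) x := by
  have s := fun i => (he.cyl.cρ i).choose_spec.1
  have h1 : ∀ u, (sOp e.cyl).app e.cyl.F u = fun x => ∑ i, e.cyl.m.ρ i x ((FZ e).D i u x) :=
    fun u => funext fun x => add_zero _
  rw [h1, h1, D_def _ none (fun x => ∑ i, _), Wz78.dv_sum' _ fun i => (s i x).clm_apply
    ((FZ e).sm_D hc.sΦ i x), Finset.smul_sum]
  refine Finset.sum_congr rfl fun i _ => ?_
  rw [← D_def, D0_app (s i) (fun _ _ => rfl) ((FZ e).sm_D hc.sΦ i), D0_comm hc.sΦ, ← map_smul]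
  exact congrArg _ (congrFun ((FZ e).D_smul ((FZ e).sm_D hc.sΦ none) r i) x)

theorem D0_C (hc : e.cyl.Adm c) (r : ℝ) (x : e.Y.M × ℝ) :
    e.cyl.p2 x (da e.cyl.F (fun i x => r • (FZ e).D none (c.a i) x) x) =
      r • (FZ e).D none (fun x => e.cyl.p2 x (da e.cyl.F c.a x)) x := by
  have s : ∀ i a, Sm (IC e.Y.I) (e.cyl.F.D a (c.a i)) := fun i => (FZ e).sm_D (hc.sa i)
  have sc : ∀ i j k, Sm (IC e.Y.I) fun x => e.cyl.F.c i j k x * c.a k x := fun i j k =>
    (e.cyl.F.c_sm i j k).mul (hc.sa k)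
  have sd : ∀ s : Option κ × Option κ, Sm (IC e.Y.I) fun x => da e.cyl.F c.a x s := fun _ =>
    ((s _ _).sub (s _ _)).sub (contMDiff_finsetSum fun k _ => sc _ _ k)
  replace sd : Sm (IC e.Y.I) (da e.cyl.F c.a) := sm_fm sd
  rw [D0_app (cb_p2 he.cyl).choose_spec.1 (p2_st e) sd, ← map_smul]
  refine congrArg _ (Map77.fm_ext fun ⟨i, j⟩ => ?_)
  have h1 : ∀ i j, e.cyl.F.D i (fun x => r • (FZ e).D none (c.a j) x) x =
      r • (FZ e).D none (e.cyl.F.D i (c.a j)) x := fun i j =>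
    (congrFun ((FZ e).D_smul (s j none) r i) x).trans (congrArg (r • · x) (D0_comm (hc.sa j) i).symm)
  have h2 : ∀ k, dv (IC e.Y.I) (e.cyl.F.e none) (fun x => e.cyl.F.c i j k x * c.a k x) x =
      e.cyl.F.c i j k x * (FZ e).D none (c.a k) x := fun k =>
    D0_app (L := fun x => .mul ℝ ℝ (e.cyl.F.c i j k x)) ((ContinuousLinearMap.mul ℝ ℝ).contMDiff.comp
      (e.cyl.F.c_sm i j k)) (fun _ _ => by cases i <;> cases j <;> cases k <;> rfl) (hc.sa k) x
  rw [PiLp.smul_apply, show (FZ e).D none (da e.cyl.F c.a) x (i, j) = _ from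
    D_ev (F := e.cyl.F) sd none (i, j)]
  simp only [da, h1]
  rw [D_def _ none (fun x => _ - _), Wz78.dv_sub' ((s _ _ x).sub (s _ _ x)) (Wz78.SA.sum _ fun k _ =>
    sc i j k x), Wz78.dv_sub' (s _ _ x) (s _ _ x), Wz78.dv_sum' _ fun k => sc i j k x]
  simp only [h2, smul_eq_mul, mul_sub, Finset.mul_sum, mul_left_comm r]
  rfl

omit he in
/-- SWD-INT -/
theorem int : IntStmt κ lam ν := by
  intro e he hw k B
  let X := {d : e.ZC × ℝ × ℝ // 0 < d.2.2 ∧ e.cyl.Adm d.1 ∧ (∀ i, e.D.Z.CB (k + 4) (d.1.a i) B) ∧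
    e.D.Z.CB (k + 4) d.1.Φ B ∧ (∀ t ∈ Ioo (d.2.1 - 1 / 2) (d.2.1 + 1 / 2),
      (∀ y, d.1.a none (y, t) = 0) ∧ Ea d.1 t) ∧
    en d.1 (Ioo (d.2.1 - 1 / 2) (d.2.1 + 1 / 2)) ≤ ENNReal.ofReal (d.2.2 ^ 2)}
  let w := cw (FY e) (fun d : X => d.1.2.1 - 1 / 2) (fun d => d.1.2.1 + 1 / 2) (l := 1) fun d => by linarith
  let z : X → e.ZC := fun d => ⟨fun i x => d.1.2.2⁻¹ • (FZ e).D none (d.1.1.a i) x,
    fun x => d.1.2.2⁻¹ • (FZ e).D none d.1.1.Φ x⟩
  have hc := fun d : X => d.2.2.1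
  have hz : ∀ d, e.cyl.Adm (z d) := fun d => have h := Dl42.adm_dt he (hc d)
    ⟨fun i => sm_cs _ (h.sa i), sm_cs _ h.sΦ, fun i x => by
      simp only [z, smul_eq_mul, mul_left_comm _ d.1.2.2⁻¹, ← Finset.mul_sum]
      exact congrArg _ (h.pa i x), fun x => (map_smul _ _ _).trans (congrArg _ (h.pΦ x))⟩
  have io : ∀ {r} (_ : r > 0) (d : X) {t}, t ∈ Icc (d.1.2.1 - 1 / 2 + r) (d.1.2.1 + 1 / 2 - r) →
    t ∈ Ioo (d.1.2.1 - 1 / 2) (d.1.2.1 + 1 / 2) := fun hr d t ht => ⟨by linarith [ht.1], by linarith [ht.2]⟩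
  have hon := fun r (hr : r > 0) (d : X) x (hx : x ∈ w.S d r) => d.2.2.2.2.2.1 x.2 (io hr d hx.2)
  have fl := fun (d : X) t ht => have h := d.2.2.2.2.2.1 t ht
    Dl42.dx.flow e he _ (hc d) t h.1 h.2
  obtain ⟨S, -, hS⟩ := Cht98.sob_cyl (FY e) e.Y.dim.le
  obtain ⟨_, hF⟩ := he.cyl.tame
  obtain ⟨_, hA⟩ := good_s he.cyl
  have l2 : ∀ {N : Type} [NormedAddCommGroup N] [NormedSpace ℝ N] {f : X → e.Y.M × ℝ → N} {A : ℝ},
      0 ≤ A → (∀ d, Sm (IC e.Y.I) (f d) ∧ ∀ t ∈ Ioo (d.1.2.1 - 1 / 2) (d.1.2.1 + 1 / 2),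
        ∫ y, ‖f d (y, t)‖ ^ 2 ∂e.D.F.μ ≤ A * gn (sl d.1.1 t)) →
      w.Jt 2 1 fun d x => d.1.2.2⁻¹ • f d x := fun {N _ _ f A} A0 h =>
    .one (fun d => sm_cs _ (h d).1) ⟨fun h => absurd h two_ne_zero, fun r hr => ⟨A, fun d => by
      have c1 := (h d).1.continuous.norm.fun_pow 2
      simp only [norm_smul, mul_pow, integral_const_mul, norm_inv, Real.norm_eq_abs, sq_abs, inv_pow]
      rw [inv_mul_le_iff₀' (pow_pos d.2.1 2)]
      refine (int_S (FY e) c1 _ _).trans_le ?_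
      rw [integral_eq_lintegral_of_nonneg_ae (.of_forall fun t => integral_nonneg fun _ => sq_nonneg _)
        c1.stronglyMeasurable.integral_prod_left'.aestronglyMeasurable]
      refine ENNReal.toReal_le_of_le_ofReal (by positivity) ((setLIntegral_mono' measurableSet_Icc
        fun t ht => (ENNReal.ofReal_le_ofReal ((h d).2 t (io hr d ht))).trans_eq
        (ENNReal.ofReal_mul A0)).trans ?_)
      rw [lintegral_const_mul' _ _ ENNReal.ofReal_ne_top, ENNReal.ofReal_mul A0]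
      exact mul_le_mul_right ((lintegral_mono_set fun t => io hr d).trans d.2.2.2.2.2.2) _⟩⟩
  have a0 : w.On fun d x => (z d).a none =ᶠ[𝓝 x] fun _ => 0 := Wn.On.ev fun r hr d x hx => by
    simp only [z]
    rw [D_def, dv_congr (Wn.On.ev (fun r hr d x hx => (hon r hr d x hx).1 x.1) r hr d x hx), dv_const,
      Pi.zero_apply, smul_zero]
  have a1 : ∀ i, w.Jt 2 1 fun d => (z d).a i := fun i => by
    cases i with
    | none => exact (Wn.Jt.cb (Cb_const 0)).congr (fun d => (hz d).sa _) fun r hr d x hx =>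
        (a0 r hr d x hx).self_of_nhds
    | some i => exact l2 zero_le_one fun d => ⟨(FZ e).sm_D ((hc d).sa _) _, fun t ht => by
        have := gr_sq he (Pb50.sl_adm (s := t) fun _ => .of_adm (hc d) _) i
        have h : ∀ y, (FZ e).D none (d.1.1.a (some i)) (y, t) = _ := (fl d t ht).1 i
        simp only [integral_const_mul, one_mul, h, norm_neg, Real.norm_eq_abs, sq_abs] at this ⊢
        linarith [integral_nonneg (μ := e.D.F.μ) (f := fun y => (gr (sl d.1.1 t)).a i y ^ 2)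
          fun y => sq_nonneg _]⟩
  have p1 : w.Jt 2 1 fun d => (z d).Φ := l2 (inv_pos.2 hw).le fun d =>
    ⟨(FZ e).sm_D (hc d).sΦ _, fun t ht => by
      have v := Pb50.sl_adm (s := t) fun _ => Pb50.LA.of_adm (hc d) _
      have h : ∀ y, (FZ e).D none d.1.1.Φ (y, t) = _ := (fl d t ht).2
      simp only [h, norm_neg]
      rw [le_inv_mul_iff₀ hw, ← integral_const_mul]
      exact integral_mono (integrable_Y (((sm_gr_Φ he v).continuous.norm.fun_pow 2).const_mul _))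
        (integrable_gn he v) fun y => (congrArg _ (real_inner_self_eq_norm_sq _).symm).trans_le
        (le_add_of_nonneg_left (mul_nonneg zero_le_two (Finset.sum_nonneg fun _ _ => mul_self_nonneg _)))⟩
  have ba : ∀ i, w.Jt 0 (k + 5) fun d => d.1.1.a i := fun i => .of_CB fun d => ⟨(hc d).sa i, d.2.2.2.1 i⟩
  have bp : w.Jt 0 (k + 5) fun d => d.1.1.Φ := .of_CB fun d => ⟨(hc d).sΦ, d.2.2.2.2.1⟩
  have cζ := Cht98.Cb_fst (FY e) (Cb_of_compact he.sζ)
  have key : ∀ j ≤ k + 3, (∀ i, w.Jt 2 (j + 1) fun d => (z d).a i) ∧ w.Jt 2 (j + 1) fun d => (z d).Φ :=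
    fun j hj => by
    induction j with
    | zero => exact ⟨a1, p1⟩
    | succ j ih =>
      obtain ⟨i1, i2⟩ := ih (by omega)
      have ta : ∀ i, Td w (fun d => d.1.2.2⁻¹) (j + 1) fun d => d.1.1.a i := fun i =>
        ⟨(ba i).of_le (by omega), i1 i⟩
      have tp : Td w (fun d => d.1.2.2⁻¹) (j + 1) fun d => d.1.1.Φ := ⟨bp.of_le (by omega), i2⟩
      have st := fun {N : Type} [NormedAddCommGroup N] [NormedSpace ℝ N] {f : e.Y.M × ℝ → N} =>
        Td.st (w := w) (r := fun d => d.1.2.2⁻¹) (j := j + 1) (f := f)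
      have cs := fun r : ℝ => st (Cb_const r) fun _ _ => rfl
      have tρ := fun i => st (he.cyl.cρ i) fun _ _ => rfl
      have tz := st cζ fun _ _ => rfl
      have t2 := st (f := e.cyl.p2) (cb_p2 he.cyl) (p2_st e)
      have t0 := (Td.fn (contDiff_infty_iff_deriv.1 he.sf).2 ((cs 4).smul (.sum fun i => (tz.clm
        (Map77.pj ℝ (none, some i))).smul (ta (some i))))).neg.smul tz
      have t1 : Td w _ _ fun (d : X) x => e.cyl.qd x (d.1.1.Φ x) (d.1.1.Φ x) := .pi fun s =>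
        (cs (1 / 8)).smul ((((tρ s.1).app ((tρ s.2).app tp)).clm e.m.J).bil (innerSL ℝ) tp)
      have t3 := ((t0.add (st he.cyl.com fun _ _ => rfl)).add (t2.app ((cs e.w).smul t1))).sub
        (t2.app (st (f := e.cyl.fc ⟨0, 0⟩) (cb_fc he.cyl) fun _ _ => Map77.fm_ext fun s => Win45.fc0 he s))
      have t4 := ((Td.sum fun i => (ta i).smul ((tρ i).bil (.mul ℝ _) (st (f := e.cyl.jp) (cb_jp he.cyl)
        fun _ _ => rfl))).neg.app tp).add (((Td.fn he.sb (tp.bil (innerSL ℝ) tp)).smul ((tρ none).app tp)).sub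
        (((Td.sum fun i => (tρ i).bil (.mul ℝ _) (st (he.cyl.cA i) fun _ _ => by cases i <;> rfl)).add
        (st he.cyl.cms fun _ _ => rfl)).app tp))
      have s1 : ∀ d, Sm (IC e.Y.I) (dv1 e.cyl.F (z d).a) := fun d => contMDiff_finsetSum fun i _ =>
        (e.cyl.F.sm_D ((hz d).sa i) i).add ((e.cyl.F.dv_sm i).mul ((hz d).sa i))
      refine ⟨ellA he.cyl hz i1 (((cs (-(e.w / 2))).b.smul (i2.bil (innerSL ℝ) (holR 2)
        (tp.b.clm e.m.J))).congr s1 fun r hr d x hx => ?_) (t3.onD (fun d => fun x => sa_p2 he.cyl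
        (sa_lp fun s => ((e.cyl.F.sm_D ((hz d).sa _) _ x).sub (e.cyl.F.sm_D ((hz d).sa _) _ x)).sub
        (Wz78.SA.sum _ fun k _ => .mul (e.cyl.F.c_sm _ _ _ x) ((hz d).sa _ x))))
        (fun d => D0_C he (hc d) _) fun r hr d x hx => ?_), i2.ell hF hA (cliff_s he.cyl)
        (fun d x => Win45.p_of he.cyl ((hz d).pΦ x)) (t4.onD (fun d => sm_op (fun a => (hA.σ a).1)
        hA.B.1 (hz d).sΦ) (fun d => D0_D he (hc d) _) fun r hr d x hx => ?_)⟩
      · obtain ⟨f1, f2⟩ := fl d x.2 (io hr d hx.2)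
        have v := Pb50.sl_adm (s := x.2) fun _ => Pb50.LA.of_adm (hc d) _
        have f3 : ∀ i, (fun y => (z d).a (some i) (y, x.2)) = -d.1.2.2⁻¹ • (gr (sl d.1.1 x.2)).a i :=
          fun i => funext fun y => (congrArg (d.1.2.2⁻¹ • ·) (f1 i y)).trans (by simp)
        have f4 : ∀ i, e.cyl.F.D (some i) ((z d).a (some i)) x + e.cyl.F.dv (some i) x *
            (z d).a (some i) x = -d.1.2.2⁻¹ * (e.D.F.D i ((gr (sl d.1.1 x.2)).a i) x.1 +
            e.D.F.dv i x.1 * (gr (sl d.1.1 x.2)).a i x.1) := fun i => by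
          rw [show e.cyl.F.D (some i) _ x = _ from D_some (FY e) ((hz d).sa _) i x, f3,
            show (z d).a (some i) x = _ from congrFun (f3 i) x.1, D_smul _ (sm_gr_a he v i), mul_add,
            mul_left_comm]
          rfl
        have f5 : (z d).Φ x = -d.1.2.2⁻¹ • (gr (sl d.1.1 x.2)).Φ x.1 :=
          (congrArg (d.1.2.2⁻¹ • ·) (f2 x.1)).trans (by simp)
        rw [dv1, Fintype.sum_option, D_def, dv_congr (a0 r hr d x hx), dv_const, innerSL_apply_apply,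
          (a0 r hr d x hx).self_of_nhds, f5, real_inner_smul_left]
        simp only [f4, ← Finset.mul_sum, Pi.zero_apply, smul_eq_mul]
        have f6 : _ + _ * ⟪_, e.m.J (d.1.1.Φ x)⟫_ℝ = _ := row he v x.1
        linear_combination (-d.1.2.2⁻¹ / 2) * f6
      · have := ((hon r hr d x hx).2 x.1).2
        rw [Bg.eC, fc_da he.cyl (hc d).sa, map_sub, map_add] at this
        exact eq_sub_of_add_eq' (eq_add_of_sub_eq (eq_add_of_sub_eq this))
      · beta_reduce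
        rw [app_s, ((hon r hr d x hx).2 x.1).1]
        simp only [nm, ← real_inner_self_eq_norm_sq]
        rfl
  obtain ⟨k1, k2⟩ := key _ le_rfl
  have q4 : (0 : ℝ) < 1 / 4 := by norm_num
  choose K1 h5 using fun i => ((k1 i).sob0 hS).bd _ q4
  obtain ⟨K2, h6⟩ := (k2.sob0 hS).bd _ q4
  have K0 : 0 ≤ ∑ i, |K1 i| := by positivity
  refine ⟨∑ i, |K1 i| + |K2|, fun c s ε t0 t1 t2 t3 t4 t5 v hv x hx => ?_⟩
  let d : ∀ δ ∈ Ioc (0 : ℝ) 1, X := fun δ hδ => ⟨(c, s, ε + δ), by linarith [hδ.1], t1, t2, t3, t4,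
    t5.trans (ENNReal.ofReal_le_ofReal (pow_le_pow_left₀ t0 (by linarith [hδ.1]) 2))⟩
  have hx' : ∀ δ hδ, x ∈ w.S (d δ hδ) (1 / 4) := fun _ _ =>
    ⟨trivial, by linarith [hx.2.1], by linarith [hx.2.2]⟩
  simp only [Pi.zero_apply, sub_zero]
  refine ⟨fun i => lim_le fun δ hδ => Dw_le ((FZ e).sm_D (t1.sa i) none) (d δ hδ).2.1
    ((h5 i (d δ hδ) v hv x (hx' δ hδ)).trans ?_), lim_le fun δ hδ => Dw_le ((FZ e).sm_D t1.sΦ none)
    (d δ hδ).2.1 ((h6 (d δ hδ) v hv x (hx' δ hδ)).trans ?_)⟩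
  · linarith [le_abs_self (K1 i), Finset.single_le_sum (f := fun i => |K1 i|)
      (fun _ _ => abs_nonneg _) (Finset.mem_univ i), abs_nonneg K2]
  · linarith [le_abs_self K2]

end Crest.Agent.X212.Lw78
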