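import Crest.Agent.X212.Lw78.Co
import Crest.Agent.X212.Cyl58.PsW

/-!
# Row 212, SW-LOCW (helper78): the gauge on a window, `LocwStmt`
-/

set_option autoImplicit false
set_option linter.unusedSectionVars false
noncomputable section
open scoped Manifold ContDiff Topology InnerProductSpace
open MeasureTheory Set Function Filter

namespace Crest.Agent.X212.Lw78
open An An.Pre Sob92 Cyf70 Sw Sw.En3 Sep15.S Dl23
open Win45 (FY FZ)
open Pb50 (LA LG th)

variable {κ lam ν : Type} [Fintype κ] [Fintype lam] [Fintype ν] [DecidableEq ν] {e : En3 κ lam ν}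
  {c c' : e.ZC} {v : e.YC}

variable (e) in
/-- the cross-section as a window -/
def yw (X : Type) : Wn (FY e) X where
  S _ _ := univ
  cpt _ _ := isCompact_univ
  cut _ _ _ := let ⟨C, h⟩ := Cb_const (F := FY e) (1 : ℝ)
    ⟨C, fun _ => ⟨_, h, subset_univ _, fun _ _ => .rfl⟩⟩
  vol _ _ := ⟨_, fun _ => le_rfl⟩

theorem yg {r : ℝ} (h : 0 < r) (w d : ℝ) : |2 * w * d| ≤ r⁻¹ * w ^ 2 + r * d ^ 2 := by
  have k := fun s : ℝ => mul_nonneg (inv_pos.2 h).le (sq_nonneg (w + s * r * d))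
  have e : ∀ s : ℝ, r⁻¹ * (w + s * r * d) ^ 2 = r⁻¹ * w ^ 2 + 2 * s * w * d + s ^ 2 * r * d ^ 2 :=
    fun s => by field_simp; ring
  exact abs_le.2 ⟨by linarith [k 1, e 1], by linarith [k (-1), e (-1)]⟩

theorem tmp (c : e.ZC) (h : Sm (IC e.Y.I) (c.a none)) (t : ℝ) {g : e.Y.M → ℂ} (hg : Gau e.Y.I g) :
    ∃ u, Gau (IC e.Y.I) u ∧ (∀ y, u (y, t) = g y) ∧ (e.cyl.act u c).a none = 0 := by
  obtain ⟨u, u1, u2, u3⟩ := Tmp64.exists_sol (I := e.Y.I)
    (A := fun x => c.a none x • ContinuousLinearMap.mul ℝ ℂ Complex.I) (h.smul contMDiff_const) t hg.1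
  have u4 : ∀ x, ‖u x‖ = 1 := fun x => by
    have := Tmp64.const_of_deriv (f := fun s => ‖u (x.1, s)‖ ^ 2)
      (fun s => (u3 x.1 s).norm_sq.congr_deriv (by simp [Complex.inner, mul_comm]; ring)) x.2 t
    rw [u2, hg.2, one_pow] at this
    exact (pow_eq_one_iff_of_nonneg (norm_nonneg _) two_ne_zero).1 this
  exact ⟨u, ⟨u1, u4⟩, u2, funext fun x => sub_eq_zero.2 (Win45.lg_of (FZ e) (u4 x)
    ((hasDerivAt_slice (FY e) u1 x.1 x.2).unique (u3 x.1 x.2))).symm⟩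

variable (he : e.OK)
include he

theorem gr_sq (hv : e.cyl.Adm (fz v)) (k : κ) : ∫ y, 2 * (gr v).a k y ^ 2 ∂e.D.F.μ ≤ gn v :=
  integral_mono (integrable_Y (((sm_gr_a he hv k).continuous.fun_pow 2).const_mul _))
    (integrable_gn he hv) fun y => le_add_of_le_of_nonneg (mul_le_mul_of_nonneg_left ((sq _).trans_le
      (Finset.single_le_sum (f := fun k => (gr v).a k y * (gr v).a k y) (fun _ _ => mul_self_nonneg _)
      (Finset.mem_univ k))) zero_le_two) (mul_nonneg he.cyl.w real_inner_self_nonneg)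

/-- a good gauge on a slice with bounded gradient -/
theorem slc (C : ℝ) : ∃ K, ∀ v : e.YC, e.cyl.Adm (fz v) → (∀ y, ‖v.Φ y‖ ≤ C) → gn v ≤ C →
    ∃ v', Eqv v v' ∧ ∀ k, ∫ y, v'.a k y ^ 2 ∂e.D.F.μ ≤ K := by
  let X := {v : e.YC // e.cyl.Adm (fz v) ∧ (∀ y, ‖v.Φ y‖ ≤ C) ∧ gn v ≤ C}
  have cb : ∀ {N : Type} [NormedAddCommGroup N] [NormedSpace ℝ N] {f : e.Y.M → N}, Sm e.Y.I f →
    (yw e X).Jt 0 1 fun _ => f := fun h => .cb (Cb_of_compact h)
  have sl : ∀ {N : Type} [NormedAddCommGroup N] [NormedSpace ℝ N] {f : e.Y.M × ℝ → N}, e.cyl.F.Cb f →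
    (yw e X).Jt 0 1 fun _ y => f (y, 0) := fun ⟨_, h⟩ => cb (sm_slice_fst h.1 0)
  obtain ⟨B, hB⟩ := he.bf 1
  rw [iteratedDeriv_one] at hB
  have h0 : (yw e X).Jt 0 1 fun d => d.1.Φ :=
    .one (fun d => sm_Φ d.2.1) (Wn.lp0 fun _ _ => ⟨C, fun d y _ => d.2.2.1 y⟩)
  have h1 : ∀ k, (yw e X).Jt 2 1 fun d => (gr d.1).a k := fun k => .one (fun d => sm_gr_a he d.2.1 k)
    ⟨fun h => absurd h two_ne_zero, fun _ _ => ⟨|C|, fun d => by
      have := gr_sq he d.2.1 k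
      rw [integral_const_mul] at this
      simp only [yw, Measure.restrict_univ, Real.norm_eq_abs, sq_abs]
      linarith [d.2.2.2, le_abs_self C, abs_nonneg C]⟩⟩
  have h2 : (yw e X).Jt 0 1 fun d y => e.cyl.qd (y, 0) (d.1.Φ y) (d.1.Φ y) := .pi fun s =>
    (cb (contMDiff_const (c := (1 / 8 : ℝ)))).smul (.bil (innerSL ℝ) (holL 0) (((sl (he.cyl.cρ s.1)).app
      ((sl (he.cyl.cρ s.2)).app h0)).clm e.m.J) h0)
  have h3 := fun k => (cb (contMDiff_const (c := (2 : ℝ)))).smul (((((sl (cb_p2 he.cyl)).app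
    ((cb (Cyl58.sm_fc0 he)).sub ((cb (contMDiff_const (c := e.w))).smul h2))).sub (sl he.cyl.com)).add
    ((Wn.Jt.one (f := fun d _ => deriv e.f (hol d.1)) (fun _ => contMDiff_const)
      (Wn.lp0 fun _ _ => ⟨B, fun _ _ _ => hB _⟩)).smul (cb he.sζ))).clm (Map77.pj ℝ (none, some k)))
  have h5 : ∀ i j, (yw e X).Jt 2 1 fun d => Cyl58.da e d.1.a i j := fun i j =>
    (Wn.Jt.sum fun k => (cb (Cyl58.sm_o3 he k i j)).smul ((h1 k).sub (h3 k).of0)).eq fun d y => by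
      rw [← Cyl58.o3_inv he (Cyl58.da_anti (Cyl58.a_P d.2.1) · · y) (Cyl58.da_P
        (sm_a d.2.1) (Cyl58.a_P d.2.1) · · y) i j]
      simp only [Cyl58.gr_a he d.2.1, smul_eq_mul, Map77.pj_apply]
      exact Finset.sum_congr rfl fun k _ => congrArg _ (add_sub_cancel_right _ _).symm
  have h4 : (yw e X).Jt 2 1 fun d y => Cyl58.up2 fun i j => Cyl58.da e d.1.a i j y := .pi fun s => by
    obtain ⟨_ | i, _ | j⟩ := s
    iterate 3 exact (cb (contMDiff_const (c := (0 : ℝ)))).of0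
    exact h5 i j
  obtain ⟨K, hK⟩ := ((cb (Cyl58.sm_fc0 he)).of0.add h4).lp.2 1 one_pos
  obtain ⟨A, hA⟩ := Cyl58.wlU he
  refine ⟨(|A 0| * (1 + √K)) ^ 2, fun v h1 h2 h3 => (hA v h1).imp fun v' h => ⟨h.1, fun k => ?_⟩⟩
  have h6 := ((nrm_mono zero_le_one _).trans (h.2 0 k)).trans (mul_le_mul (le_abs_self _)
    (add_le_add_right ((nrm_eq _ _).trans_le (Real.sqrt_le_sqrt (by
      simpa [yw, N2, n2, Cyl58.fc_fz he h1] using hK ⟨v, h1, h2, h3⟩))) _) (add_nonneg zero_le_one (nrm_nonneg _ _))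
      (abs_nonneg _))
  simpa [nrm_sq, N2, n2] using pow_le_pow_left₀ (nrm_nonneg _ _) h6 2

variable {W : Type} {T : W → Option e.YT} {q : W →₀ ℝ} {a b C : ℝ} {k : ℕ}

theorem loc_act (h : Loc T q c (some a) (some b)) {u : e.Y.M × ℝ → ℂ} (hu : Gau (IC e.Y.I) u) :
    Loc T q (e.cyl.act u c) (some a) (some b) ∧ en (e.cyl.act u c) (Ioo a b) = en c (Ioo a b) :=
  have := Pb50.loca he h ⟨hu.1.contMDiffOn, fun x _ => hu.2 x⟩
  ⟨this.1, setLIntegral_congr_fun measurableSet_Ioo fun t ht => by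
    rw [(this.2 t (Jv_sub _ _ (Jv_some a b ▸ ht))).2.1]⟩

/-- the temporal gauge -/
theorem tmp_l2 (C l : ℝ) : ∃ K ≥ 0, ∀ (W : Type) (T : W → Option e.YT) q c a b k, a + 1 ≤ b →
    b - a ≤ l → Sml T q k C → e.cyl.Adm c → Loc T q c (some a) (some b) → Sup c (Ioo a b) C →
    en c (Ioo a b) ≤ ENNReal.ofReal C → ∃ u, Gau (IC e.Y.I) u ∧
      ∀ t ∈ Ioo a b, ∀ i, ∫ y, (e.cyl.act u c).a i (y, t) ^ 2 ∂e.D.F.μ ≤ K := by
  obtain ⟨K, hK⟩ := slc he (|C| + 1)
  set B := 1 / 2 + 4 * C ^ 2 * e.D.F.μ.real univ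
  have B0 : 0 ≤ B := by have : 0 ≤ e.D.F.μ.real univ := measureReal_nonneg; positivity
  refine ⟨(√(1 + K) + (B * l + 1 / 2 * |C|)) ^ 2, sq_nonneg _,
    fun W T q c a b k h1 hl hs hc hL hS hE => ?_⟩
  obtain ⟨t₀, ht₀, h0⟩ : ∃ t ∈ Ioo a b, gn (sl c t) ≤ |C| + 1 := by
    by_contra! h
    have := (setLIntegral_mono' measurableSet_Ioo fun t ht =>
      ENNReal.ofReal_le_ofReal (h t ht).le).trans hE
    rw [setLIntegral_const, Real.volume_Ioo, ← ENNReal.ofReal_mul (by positivity),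
      ENNReal.ofReal_le_ofReal_iff'] at this
    rcases this with h | h <;> nlinarith [le_abs_self C, abs_nonneg C]
  obtain ⟨v', ⟨g, hg, hv⟩, h2⟩ := hK _ (Pb50.sl_adm fun _ => .of_adm hc _)
    (fun y => (hS (y, t₀) ⟨trivial, ht₀⟩).trans (by linarith [le_abs_self C])) h0
  obtain ⟨u, hu, u1, u2⟩ := tmp c (hc.sa none) t₀ hg
  obtain ⟨hL', hE'⟩ := loc_act he hL hu
  have hc' : e.cyl.Adm (e.cyl.act u c) := Pb50.adm_of fun x => (LA.of_adm hc x).act he.cyl (hu.1 x)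
  have e0 := Pb50.sl_act c (s := t₀) fun y => hu.1 _
  simp only [u1, ← hv] at e0
  refine ⟨u, hu, fun t ht i => ?_⟩
  obtain _ | i := i
  · simp [u2, sq_nonneg]
  generalize e.cyl.act u c = c at *
  set h := fun t => ∫ y, c.a (some i) (y, t) ^ 2 ∂e.D.F.μ
  have p : ∀ t, 0 < 1 + h t := fun t => add_pos_of_pos_of_nonneg one_pos
    (integral_nonneg fun _ => sq_nonneg _)
  have s := hc'.sa (some i)
  have := osc (h := fun t => √(1 + h t)) one_half_pos.le B0 (abs_nonneg C)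
    (fun t => gn_nonneg he.cyl.w (sl c t)) (fun t ht => ⟨((hasDerivAt_int' (FY e) (s.pow 2) fun y =>
      (hasDerivAt_slice (FY e) s y t).fun_pow 2).const_add 1).sqrt (p t).ne', ?_⟩)
    (hE'.trans_le (hE.trans (ENNReal.ofReal_le_ofReal (le_abs_self C)))) ht ht₀
  · have h3 : h t₀ ≤ K := (integral_congr_ae (.of_forall fun y =>
      congrArg (fun c : e.ZC => c.a (some i) (y, 0) ^ 2) e0)).trans_le (h2 i)
    refine (le_add_of_nonneg_left zero_le_one).trans ((Real.sqrt_le_iff.1 ?_).2)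
    linarith [(abs_le.1 this).2, Real.sqrt_le_sqrt (add_le_add_right h3 1),
      mul_le_mul_of_nonneg_left hl B0]
  have v := Pb50.sl_adm (s := t) fun y => LA.of_adm hc' _
  have r1 := Real.sqrt_pos.2 (p t)
  have r2 := Real.sq_sqrt (p t).le
  generalize √(1 + h t) = r at *
  have i1 := integrable_Y ((sm_slice_fst s t).continuous.fun_pow 2)
  have i2 := integrable_Y (((sm_gr_a he v i).continuous.fun_pow 2).const_mul 2)
  have i3 := i2.add (integrable_const (8 * C ^ 2))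
  have := norm_integral_le_of_norm_le ((i1.const_mul r⁻¹).add (i3.const_mul r)) (.of_forall fun y =>
    show ‖((2 : ℕ) : ℝ) * c.a (some i) (y, t) ^ (2 - 1) * (FZ e).D none (c.a (some i)) (y, t)‖ ≤ _ by
    have f := Win45.flow_C he isOpen_univ (Pb50.admOn_of fun x _ => .of_adm hc' x) (mem_univ t) y i
    have f2 := congrArg (· (none, some i)) (Loc_tau hL' ht y).2
    have f3 := tau_sq (c := c) hs (y, t) (none, some i)
    have f4 : (FZ e).D (some i) (c.a none) (y, t) = 0 := by rw [u2]; exact congrFun (dv_const _) _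
    have f5 : (FZ e).D none (c.a (some i)) (y, t) =
        2 * tau T q c (y, t) (none, some i) - (gr (sl c t)).a i y := by
      simp only [gr, PiLp.add_apply] at f2 ⊢; linarith
    simp only [Pi.add_apply, f5, Real.norm_eq_abs, Nat.cast_ofNat, Nat.add_one_sub_one, pow_one]
    generalize tau T q c (y, t) (none, some i) = x at *
    generalize (gr (sl c t)).a i y = z
    exact (yg r1 _ _).trans (add_le_add_right (mul_le_mul_of_nonneg_left
      (by nlinarith [sq_nonneg (2 * x + z)]) r1.le) _))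
  rw [integral_add' (i1.const_mul _) (i3.const_mul _), integral_const_mul, integral_const_mul,
    integral_add' i2 (integrable_const _), integral_const, smul_eq_mul] at this
  rw [abs_div, abs_of_pos (mul_pos two_pos r1), div_le_iff₀ (mul_pos two_pos r1)]
  refine this.trans ?_
  have f9 : r⁻¹ * h t ≤ r := (inv_mul_le_iff₀ r1).2 (by linarith)
  simp only [B]
  linarith [mul_le_mul_of_nonneg_left (gr_sq he v i) r1.le]

/-- the Coulomb gauge -/
theorem gauge (C l : ℝ) : ∃ K, ∀ (W : Type) (T : W → Option e.YT) q c a b k, a + 1 ≤ b →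
    b - a ≤ l → Sml T q k C → e.cyl.Adm c → Loc T q c (some a) (some b) → Sup c (Ioo a b) C →
    en c (Ioo a b) ≤ ENNReal.ofReal C → ∃ u, Gau (IC e.Y.I) u ∧ (∀ i, ∫ x in univ ×ˢ
      Icc (a + 1 / 2) (b - 1 / 2), ‖(e.cyl.act u c).a i x‖ ^ 2 ∂(FZ e).μ ≤ K) ∧
      ∀ x ∈ univ ×ˢ Ioo (a + 1 / 2) (b - 1 / 2), dv1 e.cyl.F (e.cyl.act u c).a x = 0 := by
  obtain ⟨K, K0, hK⟩ := tmp_l2 he C l
  obtain ⟨_, hF⟩ := he.cyl.tame
  refine ⟨Fintype.card (Option κ) * K * l, fun W T q c a b k h1 hl hs hc hL hS hE => ?_⟩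
  obtain ⟨u, hu, h2⟩ := hK W T q c a b k h1 hl hs hc hL hS hE
  have hc' : e.cyl.Adm (e.cyl.act u c) := Pb50.adm_of fun x => (LA.of_adm hc x).act he.cyl (hu.1 x)
  have q4 : (0 : ℝ) < 1 / 4 := by norm_num
  have cs : ∀ {δ a b : ℝ}, 0 < δ → HasCompactSupport fun x : e.Y.M × ℝ => ct δ a b x.2 := fun h =>
    (isCompact_univ.prod isCompact_Icc).of_isClosed_subset (isClosed_tsupport _) (ct_tsupp h)
  have s1 : ContDiff ℝ ∞ fun t => t * ct 1 (a - 1) (b + 1) t := contDiff_id.mul cd_ct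
  set α := fun i x => ct (1 / 4) (a + 1 / 4) (b - 1 / 4) x.2 * (e.cyl.act u c).a i x
  have s2 : ∀ i, Sm (IC e.Y.I) (α i) := fun i => (sm_snd cd_ct).mul (hc'.sa i)
  obtain ⟨ξ, β, s3, f1, n, h3⟩ := coul (a := α) hF (k := none) (fun _ => rfl) (fun _ => rfl) (sm_snd s1)
    (cs one_pos).mul_left s2 (fun i => (cs q4).mul_right) fun i x => by
      simp only [α, mul_left_comm _ (ct _ _ _ _), ← Finset.mul_sum]
      exact congrArg _ ((show e.cyl.F.P = e.cyl.B.P from he.cyl.G.P) ▸ hc'.pa i x)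
  obtain ⟨g1, g2⟩ := Cyl58.gau_exp e.cyl.F s3
  have h4 : ∀ x ∈ univ ×ˢ Icc (a + 1 / 2) (b - 1 / 2), dv1 e.cyl.F (fun i y => β y i) x = 0 ∧ ∀ i,
      (e.cyl.act (fun x => Complex.exp (ξ x • Complex.I) * u x) c).a i x = β x i := fun x hx => by
    have := h3 x ((congrFun (D_none_snd (FY e) s1) x).trans ((EventuallyEq.deriv_eq (f := id) (by
      filter_upwards [Icc_mem_nhds (show a - 1 + 1 < x.2 by linarith [hx.2.1])
        (show x.2 < b + 1 - 1 by linarith [hx.2.2])] with t ht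
      rw [ct_one one_pos ht, mul_one, id])).trans (deriv_id _)))
    refine ⟨this.1, fun i => ?_⟩
    rw [this.2, ← Pb50.act_act he.cyl hu g1, ← g2]
    simp only [α]
    rw [ct_one q4 ⟨by linarith [hx.2.1], by linarith [hx.2.2]⟩, one_mul]
    rfl
  refine ⟨_, (Cyl58.gau_mul e.cyl.F g1 hu).1, fun i => ?_, fun x hx => ?_⟩
  · have i1 := int_sq (f1.fl 0)
    have c1 := (sm_fm s2).continuous.norm.fun_pow 2
    replace n := pow_le_pow_left₀ (nrm_nonneg _ _) n 2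
    rw [nrm_sq, nrm_sq] at n
    have p1 : ∀ x, ‖β x i‖ ^ 2 ≤ ‖β x‖ ^ 2 := fun x =>
      pow_le_pow_left₀ (norm_nonneg _) (PiLp.norm_apply_le _ i) 2
    rw [setIntegral_congr_fun (MeasurableSet.univ.prod measurableSet_Icc) fun x hx => by
      rw [(h4 x hx).2 i]]
    refine ((integral_mono_of_nonneg (.of_forall fun _ => sq_nonneg _) i1.integrableOn
      (.of_forall p1)).trans ((setIntegral_le_integral i1 (.of_forall fun _ => sq_nonneg _)).trans
      n)).trans ?_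
    rw [N2, n2, ← setIntegral_eq_integral_of_forall_compl_eq_zero (s := univ ×ˢ
      Icc (a + 1 / 4) (b - 1 / 4)) fun x hx => by
        simp only [PiLp.norm_sq_eq_of_L2, fm, α, image_eq_zero_of_notMem_tsupport
          (f := fun x : e.Y.M × ℝ => ct _ _ _ x.2) fun k => hx (ct_tsupp q4 k)]
        simp]
    refine (int_S (FY e) c1 _ _).trans_le ((Real.le_norm_self _).trans ((norm_setIntegral_le_of_norm_le_const
      (C := Fintype.card (Option κ) * K) measure_Icc_lt_top fun t ht => ?_).trans ?_))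
    · rw [Real.norm_of_nonneg (integral_nonneg fun _ => sq_nonneg _)]
      simp only [PiLp.norm_sq_eq_of_L2, fm, Real.norm_eq_abs, sq_abs]
      rw [integral_finsetSum _ fun i _ => integrable_Y ((sm_slice_fst (s2 i) t).continuous.fun_pow 2),
        ← nsmul_eq_mul, ← Finset.card_univ]
      refine Finset.sum_le_card_nsmul _ _ _ fun i _ => (integral_mono_of_nonneg (.of_forall fun _ =>
        sq_nonneg _) (integrable_Y ((sm_slice_fst (hc'.sa i) t).continuous.fun_pow 2))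
        (.of_forall fun y => ?_)).trans (h2 t ⟨by linarith [ht.1], by linarith [ht.2]⟩ i)
      simp only [α, mul_pow]
      exact mul_le_of_le_one_left (sq_nonneg _) ((sq_le_one_iff_abs_le_one _).2 ct_abs)
    · rw [Real.volume_real_Icc]
      exact mul_le_mul_of_nonneg_left (max_le (by linarith) (by linarith)) (by positivity)
  · rw [← (h4 x ⟨trivial, Ioo_subset_Icc_self hx.2⟩).1]
    have : ∀ i, _ =ᶠ[𝓝 x] fun y => β y i := fun i =>
      mem_of_superset ((isOpen_univ.prod isOpen_Ioo).mem_nhds hx) fun y hy =>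
        (h4 y ⟨trivial, Ioo_subset_Icc_self hy.2⟩).2 i
    simp only [dv1, D_def, fun i => dv_congr (e := e.cyl.F.e i) (this i), fun i => (this i).self_of_nhds]

omit he in
theorem Dw_ev {N : Type} [NormedAddCommGroup N] [NormedSpace ℝ N] {x : e.Y.M × ℝ} :
    ∀ (w : List (Option κ)) {f g : e.Y.M × ℝ → N}, f =ᶠ[𝓝 x] g → e.D.Z.Dw w f x = e.D.Z.Dw w g x
  | [], _, _, h => h.self_of_nhds
  | _ :: w, _, _, h => Dw_ev w (h.eventuallyEq_nhds.mono fun _ hy => dv_congr hy)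

omit he in
theorem eq_ev {x : e.Y.M × ℝ} (ha : ∀ i, c.a i =ᶠ[𝓝 x] c'.a i) (hΦ : c.Φ =ᶠ[𝓝 x] c'.Φ) :
    e.cyl.eD c x = e.cyl.eD c' x ∧ e.cyl.eC c x = e.cyl.eC c' x := by
  have W : ∀ i, e.cyl.W c i =ᶠ[𝓝 x] e.cyl.W c' i := fun i => (ha i).mono fun y h => by
    simp only [Bg.W, h]
  simp only [Bg.eD, Bg.eC, Bg.fc, Wz78.dir, Wz78.nab, Wz78.curv, dv_congr hΦ, hΦ.self_of_nhds,
    fun i j => dv_congr (e := e.cyl.F.e j) (W i), fun i => (W i).self_of_nhds, and_self]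

omit he in
/-- SW-LOCW -/
theorem locw (hD : DlStmt κ lam ν) : LocwStmt κ lam ν := by
  intro e he _ C ρ l k hρ
  obtain ⟨K₁, h1⟩ := gauge he C l
  obtain ⟨K₂, h2⟩ := tau_sm he hD C (ρ / 2) l (k + 2) (half_pos hρ)
  obtain ⟨K, h3⟩ := core he (max C (max K₁ K₂)) l (ρ / 2) k (half_pos hρ)
  refine ⟨K, fun W T q c a b hl hs hL hS hE => ?_⟩
  by_cases hab : a + 1 ≤ b
  swap
  · exact ⟨fun _ => 1, ⟨contMDiff_const, fun _ => norm_one⟩, fun w _ x hx =>
      absurd (hx.2.1.trans hx.2.2) (by linarith)⟩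
  have q4 : (0 : ℝ) < 1 / 4 := by norm_num
  have hO : tsupport (fun x : e.Y.M × ℝ => ct (1 / 4) (a - 3 / 4) (b + 3 / 4) x.2) ⊆
      univ ×ˢ Ioo (a - 1) (b + 1) :=
    (ct_tsupp q4).trans (prod_mono_right (Icc_subset_Ioo (by linarith) (by linarith)))
  have hA : e.cyl.AdmOn c (univ ×ˢ Ioo (a - 1) (b + 1)) := Jv_some _ _ ▸ hL.adm
  have o1 : ∀ t ∈ Icc (a - 1 / 2) (b + 1 / 2), ct (1 / 4) (a - 3 / 4) (b + 3 / 4) t = 1 := fun t ht =>
    ct_one q4 ⟨by linarith [ht.1], by linarith [ht.2]⟩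
  generalize hφ : ct (1 / 4) (a - 3 / 4) (b + 3 / 4) = φ at hO o1
  have s0 : ContDiff ℝ ∞ φ := hφ ▸ cd_ct
  have sm : ∀ {N : Type} [NormedAddCommGroup N] [NormedSpace ℝ N] {f : e.Y.M × ℝ → N},
      ContMDiffOn (IC e.Y.I) 𝓘(ℝ, N) ∞ f (univ ×ˢ Ioo (a - 1) (b + 1)) →
      Sm (IC e.Y.I) fun x => φ x.2 • f x := fun h => contMDiff_of_tsupport fun x hx =>
    (sm_snd s0 x).smul (h.contMDiffAt ((isOpen_univ.prod isOpen_Ioo).mem_nhds
      (hO (tsupport_smul_subset_left _ _ hx))))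
  set c₁ : e.ZC := ⟨fun i x => φ x.2 • c.a i x, fun x => φ x.2 • c.Φ x⟩ with hc₁
  have o2 : ∀ x : e.Y.M × ℝ, φ x.2 = 0 ∨ x ∈ univ ×ˢ Ioo (a - 1) (b + 1) := fun x =>
    (em _).imp_right fun h => hO (subset_tsupport _ h)
  have hc : e.cyl.Adm c₁ := ⟨fun i => sm (hA.sa i), sm hA.sΦ, fun i x => (o2 x).elim
    (fun h => by simp [hc₁, h]) fun h => by
      simp only [hc₁, smul_eq_mul, mul_left_comm _ (φ _), ← Finset.mul_sum, hA.pa i x h],
    fun x => (o2 x).elim (fun h => by simp [hc₁, h]) fun h => by simp only [hc₁, map_smul, hA.pΦ x h]⟩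
  have o3 : ∀ t ∈ Icc (a - 1 / 2) (b + 1 / 2), sl c₁ t = sl c t := fun t ht => by
    simp only [sl, hc₁, o1 t ht, one_smul]
  have o4 : ∀ t ∈ Ioo a b, t ∈ Icc (a - 1 / 2) (b + 1 / 2) := fun t ht =>
    ⟨by linarith [ht.1], by linarith [ht.2]⟩
  have o5 : ∀ x ∈ univ ×ˢ Ioo a b, (∀ i, c₁.a i =ᶠ[𝓝 x] c.a i) ∧ c₁.Φ =ᶠ[𝓝 x] c.Φ := fun x hx =>
    have := (isOpen_univ.prod isOpen_Ioo).eventually_mem hx
    ⟨fun i => this.mono fun y hy => by simp [hc₁, o1 _ (o4 _ hy.2)],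
      this.mono fun y hy => by simp [hc₁, o1 _ (o4 _ hy.2)]⟩
  have hL₁ : Loc T q c₁ (some a) (some b) := ⟨Pb50.admOn_of fun x _ => .of_adm hc x, fun x hx => by
    have k := hL.eq x hx
    rw [Jv_some] at hx
    obtain ⟨k1, k2⟩ := eq_ev (o5 x hx).1 (o5 x hx).2
    simp only [k1, k2, k.1, k.2, pt, tau, o3 _ (o4 _ hx.2), (o5 x hx).2.self_of_nhds, and_self,
      Pb50.lb_congr (c := c) (c' := c₁) (s := x.2) fun t ht => by
        rw [o3 t ⟨by linarith [ht.1, hx.2.1], by linarith [ht.2, hx.2.2]⟩]]⟩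
  have hS₁ : Sup c₁ (Ioo a b) C := fun x hx => (o5 x hx).2.self_of_nhds ▸ hS x hx
  have hE₁ : en c₁ (Ioo a b) ≤ ENNReal.ofReal C :=
    (setLIntegral_congr_fun measurableSet_Ioo fun t ht => by rw [o3 t (o4 t ht)]).trans_le hE
  obtain ⟨u, hu, u1, u2⟩ := h1 W T q c₁ a b _ hab hl hs hc hL₁ hS₁ hE₁
  obtain ⟨hL₂, hE₂⟩ := loc_act he hL₁ hu
  have hc₂ : e.cyl.Adm (e.cyl.act u c₁) := Pb50.adm_of fun x => (LA.of_adm hc x).act he.cyl (hu.1 x)
  obtain ⟨τ, t1, t2, t3⟩ := h2 W T q _ a b hl hs hc₂ hL₂ (hE₂.trans_le hE₁)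
  have := h3 _ τ (a + 1 / 2 + ρ / 2) (b - 1 / 2 - ρ / 2) (by linarith) hc₂ t1
    (CB_mono t2 (le_max_of_le_right (le_max_right _ _))) (fun i => ((setIntegral_mono_set
      (((hc₂.sa i).continuous.norm.fun_pow 2).continuousOn.integrableOn_compact
      (isCompact_univ.prod isCompact_Icc)) (.of_forall fun _ => sq_nonneg _) (prod_mono_right
      (Icc_subset_Icc (by linarith) (by linarith))).eventuallyLE).trans (u1 i)).trans
      (le_max_of_le_right (le_max_left _ _))) fun x hx => by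
    have hx' : x.2 ∈ Ioo a b := ⟨by linarith [hx.2.1], by linarith [hx.2.2]⟩
    have k := hL₂.eq x ⟨trivial, Jv_some a b ▸ hx'⟩
    exact ⟨((Pb50.norm_act he.cyl (hu.2 x)).trans_le (hS₁ x ⟨trivial, hx'⟩)).trans (le_max_left _ _),
      u2 x ⟨trivial, by linarith [hx.2.1], by linarith [hx.2.2]⟩, k.1,
      k.2.trans (t3 x ⟨trivial, Ioo_subset_Icc_self hx.2⟩ ▸ rfl)⟩
  refine ⟨u, hu, fun w hw x hx => ?_⟩
  obtain ⟨k1, k2⟩ := o5 x ⟨trivial, by linarith [hx.2.1], by linarith [hx.2.2]⟩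
  obtain ⟨k3, k4⟩ := this w hw x ⟨trivial, by linarith [hx.2.1], by linarith [hx.2.2]⟩
  refine ⟨fun i => (congrArg abs (Dw_ev w ((k1 i).mono fun y h => ?_))).trans_le (k3 i),
    (congrArg norm (Dw_ev w (k2.mono fun y h => ?_))).trans_le k4⟩ <;>
  simp only [Bg.act, Pi.sub_apply, h]

end Crest.Agent.X212.Lw78
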