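import Crest.Agent.X212.End23.Mk
import Crest.Agent.X212.Es42.Psc
import Crest.Agent.X212.Wp42.Flux
import Crest.Agent.X212.Cyl58.PsC

/-!
# Row 212, MK-GEN (helper78): the marks of the ends exist
-/

set_option autoImplicit false
set_option linter.unusedSectionVars false
noncomputable section
open scoped Manifold ContDiff Topology InnerProductSpace
open MeasureTheory Set Function Filter

namespace Crest.Agent.X212.Lw78.Gn
open An An.Pre Sob92 Cyf70 Sw Sw.En3 End23 Mp86.En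
open Cyl58 (adm_fz a_P)
open Sep15.S (sm_a)

variable {κ lam ν : Type} [Fintype κ] [Fintype lam] [Fintype ν] [DecidableEq ν] {e : En3 κ lam ν}
  {v v' : e.YC} {α : κ → e.Y.M → ℝ} {u : e.Y.M → ℂ}

theorem clo_lg (hu : Gau e.Y.I u) (r : ℝ) : e.Clo fun k y => r * lg e u k y := by
  have s : ∀ k, Sm e.Y.I (lg e u k) := fun k y => Pb50.sa_th _ (hu.1 y) k
  have d : ∀ i j y, e.D.F.D i (fun y => r * lg e u j y) y = r * e.D.F.D i (lg e u j) y :=
    fun i j => congrFun (e.D.F.D_smul (s j) r i)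
  refine ⟨fun k => contMDiff_const.mul (s k), fun k y => ?_, fun i j y => ?_⟩ <;>
    simp only [d, mul_left_comm _ r, ← Finset.mul_sum, ← mul_sub] <;> congr 1
  exacts [Pb50.th_P _ u k y, (Pb50.LG.of_gau hu y).closed _ i j]

theorem adm_clo (h : e.Clo α) : e.cyl.Adm (fz (⟨α, 0⟩ : e.YC)) :=
  adm_fz h.sm contMDiff_const h.pr fun _ => map_zero _

theorem hol_lg {r : ℝ} (h : ∀ k y, v.a k y = r * lg e u k y) : hol v = r * per e u := by
  simp only [hol, per, h, mul_left_comm _ r, ← Finset.mul_sum, integral_const_mul]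

theorem gr_0 (h : v.Φ = 0) (y : e.Y.M) : (gr v).Φ y = 0 := by
  simp [gr, Bg.eD, Wz78.dir, Wz78.nab, fz, h, dv_const]

variable (he : e.OK)
include he

theorem fc_clo (hv : e.cyl.Adm (fz v)) (hv' : e.cyl.Adm (fz v')) (hα : e.Clo α)
    (h : ∀ k y, v'.a k y = v.a k y + α k y) (y : e.Y.M) :
    e.cyl.fc (fz v') (y, 0) = e.cyl.fc (fz v) (y, 0) := by
  rw [Cyl58.fc_fz he hv', Cyl58.fc_fz he hv]
  congr 2
  ext i j
  have := hα.cl i j y
  simp only [Wz78.d1, funext (h _), Wz78.dv_add' (sm_a hv _ y) (hα.sm _ y), smul_eq_mul, mul_add,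
    Finset.sum_add_distrib, D_def] at this ⊢
  linarith

theorem flat (h0 : e.om = 0) (hf : e.f = 0) (h : Red v) (y : e.Y.M) : e.cyl.fc (fz v) (y, 0) = 0 := by
  have e1 := Wp42.crit_eC he h.1 y
  have e2 : e.cyl.kd (fz v) (y, 0) = 0 := by
    simp [kd_eq, Fintype.sum_prod_type, Fintype.sum_option, fc_none, Base.st, cyl_o, o_some he]
  have e3 := norm_fc he.cyl h.1.1 (x := (y, 0))
  rw [Bg.eC, show (fz v).Φ (y, 0) = (0 : ℝ) • 0 by simp [fz, h.2], Sw88.qd_smul, cyl_om, h0, hf] at e1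
  rw [e2, show e.cyl.p2 _ _ = 0 by simpa using e1] at e3
  simpa using e3

theorem perd (hu : Gau e.Y.I u) (hp : per e u ≠ 0) : Periodic (deriv e.f) |per e u| := by
  have : Periodic (deriv e.f) (per e u) := fun x => by
    have := he.per _ _ (adm_clo (clo_lg hu (x / per e u + 1))) (Dec47.eqv_ay hu _)
    rwa [hol_lg (u := u) (r := x / per e u) fun k y => (Dec47.ay_a hu.1 _ k y).trans
      ((congrArg (· - _) (add_one_mul _ _)).trans (add_sub_cancel_right _ _)),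
      hol_lg (u := u) fun _ _ => rfl, add_one_mul, div_mul_cancel₀ _ hp, eq_comm] at this
  rcases abs_choice (per e u) with h | h <;> rw [h]
  exacts [this, this.neg]

theorem f_ne (hu : Gau e.Y.I u) (hp : per e u ≠ 0) (hv : e.cyl.Adm (fz v)) (h0 : v.Φ = 0) (hn : Nd v) :
    deriv e.f ≠ 0 := fun hf => by
  have c := clo_lg hu
  have z : ∀ r, (v.vr ⟨fun k y => 1 * lg e u k y, 0⟩ r).Φ = 0 := fun r => by ext1; simp [YC.vr, h0]
  obtain ⟨χ, h1, h2, -⟩ := hn _ (adm_clo (c 1)) (fun k y => (hasDerivAt_const _ ((gr v).a k y)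
    ).congr_of_eventuallyEq (.of_forall fun r => by
      have := fc_clo he hv (v' := v.vr ⟨fun k y => 1 * lg e u k y, 0⟩ r) (adm_fz (fun k => (sm_a hv k).add
        (contMDiff_const.mul ((c 1).sm k))) (by rw [z]; exact contMDiff_const) (fun k y => by
          simp only [YC.vr, one_mul, mul_add, Finset.sum_add_distrib, a_P hv, (c r).pr]) fun y => by
          rw [z]; exact map_zero _) (c r) (fun k y => by simp [YC.vr]) y
      simp only [gr, Bg.eC, this, hf, show ∀ v : e.YC, (fz v).Φ (y, 0) = v.Φ y from fun _ => rfl, z, h0,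
        Pi.zero_apply])) fun y => by simpa only [gr_0 (z _)] using hasDerivAt_const _ _
  refine hp ?_
  simp only [one_mul] at h2
  simp only [per, hol, h2, mul_neg, Finset.sum_neg_distrib, integral_neg, integral_const_mul,
    he.clζ χ h1, mul_zero, neg_zero]

theorem wp (hp : Psc e) (h0 : e.om = 0) (hw : e.w = 1) (hb : e.b = 0) : ∃ ε > 0, ∀ f h, (wh e f h).OK →
    (∀ y, ‖h y‖ ≤ ε) → (∀ r, |deriv f r| ≤ ε) → Sw88.Wp (wh e f h) 0 := by
  obtain ⟨σ, h1, h2⟩ := isCompact_univ.exists_forall_le' (f := fun y => Sw88.sc e.cyl (y, 0))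
    (cs0 fun x => (Wz78.lc_gam _).sScal (Wz78.frm _) x).continuousOn fun y _ => hp y
  obtain ⟨Z, h3⟩ := isCompact_univ.exists_bound_of_continuousOn he.sζ.continuous.continuousOn
  have p : 0 < 8 * (|Z| + 1) := by positivity
  have p0 := lt_min one_pos (div_pos h1 p)
  have p1 := min_le_left 1 (σ / (8 * (|Z| + 1)))
  have p2 := (le_div_iff₀ p).1 (min_le_right 1 (σ / (8 * (|Z| + 1))))
  refine ⟨_, p0, fun f h H hh hf => Wp42.wpStmt _ 0 H hw hb fun y r => ?_⟩
  generalize min 1 (σ / (8 * (|Z| + 1))) = ε at p0 p1 p2 hh hf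
  have k1 : ‖(wh e f h).cyl.ms (y, 0)‖ ≤ ε := ContinuousLinearMap.opNorm_le_bound _ p0.le fun x =>
    (norm_ρ H (y := y) _).trans ((h y).le_of_opNorm_le (hh y) x)
  have k2 : ‖e.om y - deriv f r • e.ζ y‖ ≤ ε * |Z| := by
    rw [h0, Pi.zero_apply, zero_sub, norm_neg, norm_smul]
    exact mul_le_mul (hf _) ((h3 y trivial).trans (le_abs_self Z)) (norm_nonneg _) p0.le
  have k3 : σ ≤ Sw88.sc (wh e f h).cyl (y, 0) := h2 y trivial
  nlinarith [pow_le_pow_left₀ (norm_nonneg _) k1 2, mul_nonneg p0.le (abs_nonneg Z)]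

omit he in
/-- MK-GEN -/
theorem gen (hQ : GenQStmt κ lam ν) (hT : GenTStmt κ lam ν) : GenStmt κ lam ν where
  qp e he h1 h0 hf hh hp k ε hε := by
    obtain ⟨δ, δ0, H⟩ := Es42.pscStmt e he hp h0
    obtain ⟨h, k1, k2, k3⟩ := hQ e he h1 h0 hf k _ (lt_min hε δ0)
    rw [hh, sub_zero] at k2
    exact ⟨h, k1, CB_mono k2 (min_le_left _ _), k3, (H 0 h k1 (fun y => (CB_bound k2 y).trans
      (min_le_right _ _)) fun r => by simpa using δ0.le).1⟩
  tor e u he hw hb hu hl hp h0 hf hz := fun ⟨θ, hθ⟩ k ε hε => by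
    obtain ⟨δ, δ0, H⟩ := Es42.pscStmt e he hp h0
    obtain ⟨δ', δ1, H'⟩ := wp he hp h0 hw hb
    obtain ⟨f, h, k1, k2, k3, k4⟩ := hT e u he hu hl hp h0 hf ⟨θ, hθ⟩ (k + 1) _
      (lt_min hε (lt_min δ0 δ1))
    have b1 := fun y => le_min_iff.1 ((CB_bound k2 y).trans (min_le_right _ _))
    have b2 := fun r => le_min_iff.1 ((k3 1 (by omega) r).trans (min_le_right _ _))
    rw [iteratedDeriv_one] at b2
    have h1 := (Wp42.fluxStmt e he hz).1 θ hθ.1.1 hθ.2
    rw [hf, show gn θ = 0 by simp [gn, En3.ip, hθ.1.2.1, hθ.1.2.2]] at h1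
    obtain ⟨M, hM, -⟩ := id k4
    obtain ⟨j⟩ := hM.ne
    obtain ⟨ε', h2, l, -, h3⟩ := (Wp42.fluxStmt _ k1 { hz with }).2
      (show Sw88.flux e = 0 by simp at h1; nlinarith) _ (abs_pos.2 hl) (perd k1 hu.1 hl)
      (f_ne (e := lf _) hM.ok hu.1 hl (hM.crit (.inr j)).1 (hM.red j) (hM.nd (.inr j)))
    refine ⟨f, h, k1, CB_mono (CB_of_le k2 k.le_succ) (min_le_left _ _), fun j hj r =>
      (k3 j (by omega) r).trans (min_le_left _ _), k4, ⟨θ.a, ?_, fun α hα Φ a1 a2 => ?_⟩,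
      H' f h k1 (fun y => (b1 y).2) fun r => (b2 r).2, ε', h2, l, h3⟩
    · exact adm_fz (sm_a (e := e) hθ.1.1) contMDiff_const (a_P (e := e) hθ.1.1) fun _ => map_zero _
    · exact by_contra fun k => (H f h k1 (fun y => (b1 y).1) fun r => (b2 r).1).2 _ a1 (fun y =>
        (fc_clo he hθ.1.1 (v' := ⟨θ.a + α, Φ⟩) { a1 with } { hα with } (fun _ _ => rfl) y).trans
        (flat he h0 hf hθ y)) ⟨Φ, k, a1, fun y => by simp [dr, a2]⟩
  dead e he hw hb hp h0 hf hh hn := by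
    obtain ⟨δ, δ0, H⟩ := Es42.pscStmt e he hp h0
    obtain ⟨δ', δ1, H'⟩ := wp he hp h0 hw hb
    have h1 : ∀ v : (lf e).YC, ¬Crit v := fun v hv => by
      have k := (H e.f e.h he (by simpa [hh] using δ0.le) (by simpa [hf] using δ0.le)).1 ⟨v.a, v.Φ⟩ hv
      have a : e.cyl.Adm (fz (⟨v.a, 0⟩ : e.YC)) :=
        adm_fz (sm_a (e := lf e) hv.1) contMDiff_const (a_P (e := lf e) hv.1) fun _ => map_zero _
      refine hn ⟨v.a, 0⟩ ⟨⟨a, fun i y => (Es42.gr_tv_a he (Dl42.ay_of a) i y).symm.trans ?_,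
        gr_0 rfl⟩, rfl⟩
      rw [show tv (⟨v.a, 0⟩ : e.YC) = v from YC.ext rfl (k.symm ▸ funext fun _ => smul_zero _)]
      exact hv.2.1 i y
    refine ⟨⟨Es42.ok_lf he, h0, hf, h1⟩, H' e.f e.h he (by simpa [hh] using δ1.le)
      (by simpa [hf] using δ1.le), by_contra fun k => ?_⟩
    push Not at k
    choose v a1 a2 a3 using fun n : ℕ => k _ (Nat.one_div_pos_of_nat (α := ℝ) (n := n))
    obtain ⟨v₀, -, c, -⟩ := Cyl58.psyStmt.ps e he (hw ▸ one_pos) 0 ℕ (hyperfilter ℕ) v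
      (fun i => ⟨a1 i, fun y => by simp [a2]⟩) ((squeeze_zero (fun i => Sep15.S.gn_nonneg he.cyl.w _)
      (fun i => (a3 i).le) tendsto_one_div_add_atTop_nhds_zero_nat).mono_left
      Nat.hyperfilter_le_atTop)
    have A := Dl42.ay_of c.1
    exact h1 (tv v₀) ⟨(Es42.ay_tv A).adm, fun i y => (Es42.gr_tv_a he A i y).trans (c.2.1 i y),
      fun y => by simp [Es42.gr_tv_Φ he A, c.2.2, hb]⟩

end Crest.Agent.X212.Lw78.Gn
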