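import Crest.Agent.X212.Lw78.Ops
import Crest.Agent.X212.Win45.Jet

/-!
# Row 212, SW-LOCW (helper78): the bootstrap in Coulomb gauge on a family of windows
-/

set_option autoImplicit false
set_option linter.unusedSectionVars false
noncomputable section
open scoped Manifold ContDiff Topology InnerProductSpace
open MeasureTheory Set Function Filter

namespace Crest.Agent.X212.Lw78
open An An.Pre Sob92 Ell97 Map77
open Sw (Bg F2)

variable {κ lam ν : Type} [Fintype κ] [Fintype lam] [Fintype ν] [DecidableEq ν]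
  {E : Type} [NormedAddCommGroup E] [NormedSpace ℝ E] [FiniteDimensional ℝ E]
  [MeasurableSpace E] [BorelSpace E]
  {HM : Type} [TopologicalSpace HM] {I : ModelWithCorners ℝ E HM} [I.Boundaryless]
  {M : Type} [TopologicalSpace M] [ChartedSpace HM M] [IsManifold I ∞ M]
  [MeasurableSpace M] [T2Space M] [BorelSpace M] [SecondCountableTopology M] {X : Type} {p j : ℕ}

section gen
variable {ι : Type} [Fintype ι] {F : Pre I M ι} {w : Wn F X} {V : Type} [NormedAddCommGroup V]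
  [InnerProductSpace ℝ V]

theorem fm_sum {α : Type} [Fintype α] (v : Fm α V) : v = ∑ a, Map77.ij V a (v a) :=
  (DFunLike.congr_fun (tp_eq (Map77.pj V)) v).trans (by simp)

theorem Wn.Jt.pi {α : Type} [Fintype α] {f : X → M → Fm α V}
    (h : ∀ a, w.Jt p j fun d x => f d x a) : w.Jt p j f :=
  (Wn.Jt.sum fun a => (h a).clm (Map77.ij V a)).eq fun _ _ => fm_sum _

theorem Wn.Lp.app {N N' : Type} [NormedAddCommGroup N] [NormedSpace ℝ N] [NormedAddCommGroup N']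
    [NormedSpace ℝ N'] {L : M → N →L[ℝ] N'} (hL : F.Cb L) {f : X → M → N} (h : w.Lp p f)
    (hs : ∀ d, Sm I (f d)) : w.Lp p fun d x => L x (f d x) :=
  ((Wn.Jt.cb hL).app (.one hs h)).lp

end gen

variable {nc : ℕ} {b : Bg I M κ lam ν nc} (hb : b.OK)

variable (b) in
/-- the principal part of the Dirac operator -/
def sOp : Op M (Option κ) (Eu ν) (Eu ν) := ⟨b.m.p, b.m.p, b.m.ρ, 0⟩

theorem app_s (c : Sw.Cfg M κ ν) (x : M) : (sOp b).app b.F c.Φ x =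
    (-∑ i, c.a i x • (b.m.ρ i x * b.jp x)) (c.Φ x) +
      (b.eD c x - (∑ i, b.m.ρ i x * b.A i x + b.ms x) (c.Φ x)) := by
  simp [Op.app, Pre.op, sOp, Bg.eD, Wz78.dir, Wz78.nab, Bg.W, Finset.sum_add_distrib, D_def]
  abel

include hb

theorem good_s : ∃ C, (sOp b).Good b.F C := by
  obtain ⟨_, hF⟩ := hb.tame
  have k : ∀ {S T U : En ν}, S * T = U → ∀ v, S (T v) = U v := fun h v => h ▸ rfl
  have h : Prj b.m.p := ⟨fun x => k (hb.m.pidem x trivial), fun x => hb.m.psym x trivial⟩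
  obtain ⟨C, -, h⟩ := good_of (A := sOp b) hF hb.cp hb.cp hb.cρ (Cb_const _)
    ⟨h, h, fun a x => k ((hb.m.cl x trivial).pr a), fun a x => k ((hb.m.cl x trivial).pl a),
      fun _ _ => map_zero _, fun a x => hb.G.P ▸ (hb.m.cl x trivial).proj a⟩
  exact ⟨C, h⟩

theorem cliff_s : (sOp b).CliffL b.F := fun i k x v u => by
  have := congrArg (fun T : En ν => ⟪v, T u⟫_ℝ) ((hb.m.cl x trivial).rel i k)
  simp only [sOp, hb.m.ρsk _ x trivial v, hb.m.psym x trivial v, show b.F.P = b.B.P from hb.G.P]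
  simp only [add_apply, mul_apply_eq_comp, inner_add_right, smul_apply,
    real_inner_smul_right] at this
  linarith

theorem p2_eq (x : M) : b.p2 x = q2 b.F b.B.o x := by
  rw [q2, show b.F.P = b.B.P from hb.G.P]; rfl

theorem vol4 (x : M) : Vol (fun i k => b.F.P i k x) fun i k l m => b.B.o i k l m x := by
  rw [show b.F.P = b.B.P from hb.G.P]
  exact ⟨hb.B.pr x, hb.B.rk x, (hb.B.o12 · · · · x), (hb.B.o23 · · · · x), (hb.B.o34 · · · · x),
    (hb.B.oP · · · · x), hb.B.onm x⟩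

theorem cb_p2 : b.F.Cb b.p2 := let ⟨_, hF⟩ := hb.tame; funext (p2_eq hb) ▸ cb_q2 hF hb.co

theorem cb_jp : b.F.Cb b.jp := Cb_clm (ContinuousLinearMap.mul ℝ _ b.m.J) hb.cp

theorem cb_fc : b.F.Cb (b.fc ⟨0, 0⟩) := by
  obtain ⟨_, hF⟩ := hb.tame
  have m := fun i k => Cb_bil (ContinuousLinearMap.mul ℝ _) (hb.cA i) (hb.cA k)
  have W : b.W ⟨0, 0⟩ = b.A := by ext i x : 2; simp [Bg.W]
  have h : ∀ s : Option κ × Option κ, b.F.Cb fun x => b.fc ⟨0, 0⟩ x s := fun s => by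
    simp only [Bg.fc, W]
    exact Cb_smul (Cb_const (1 / 8 : ℝ)) (Cb_bil (innerSL ℝ) (Cb_clm hsL (cb_jp hb)) (Cb_clm hsL
      (Cb_sub (Cb_add (Cb_sub (Cb_D (hb.cA _) _) (Cb_D (hb.cA _) _)) (Cb_sub (m _ _) (m _ _)))
        (Cb_sum _ fun k _ => Cb_smul ⟨_, hF.c _ _ k⟩ (hb.cA k)))))
  convert Cb_sum Finset.univ fun s _ => Cb_clm (Map77.ij ℝ s) (h s) using 2 with x
  exact fm_sum _

theorem fc_da {c : Sw.Cfg M κ ν} (h : ∀ i, Sm I (c.a i)) (x : M) :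
    b.fc c x = b.fc ⟨0, 0⟩ x + da b.F c.a x :=
  fm_ext fun s => Win45.fc_eq hb (fun i => h i x) s

variable {w : Wn b.F.toPre X} {c : X → Sw.Cfg M κ ν} (hc : ∀ d, b.Adm (c d))
  (h0 : w.Lp 0 fun d => (c d).Φ)
include hc h0

theorem jt_qd (h : w.Jt 2 (j + 1) fun d => (c d).Φ) :
    w.Jt 2 (j + 1) fun d x => b.qd x ((c d).Φ x) ((c d).Φ x) := .pi fun s => by
  obtain ⟨_, hF⟩ := hb.tame
  have k : b.F.Cb fun x => b.m.J * (b.m.ρ s.1 x * b.m.ρ s.2 x) :=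
    Cb_clm (ContinuousLinearMap.mul ℝ _ b.m.J) (Cb_bil (.mul ℝ _) (hb.cρ _) (hb.cρ _))
  exact (Wn.Jt.cb (Cb_const (1 / 8 : ℝ))).smul (.alg hF (innerSL ℝ) ((Wn.Jt.cb k).app h)
    (h0.app k h.sm) h h0)

theorem stepA {r : X → M → F2 κ} (hd : w.On fun d x => dv1 b.F (c d).a x = 0)
    (he : w.On fun d x => b.eC (c d) x = r d x) (hr : w.Jt 2 (j + 1) r)
    (ha : ∀ i, w.Jt 2 (j + 1) fun d => (c d).a i) (h : w.Jt 2 (j + 1) fun d => (c d).Φ) (i : Option κ) :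
    w.Jt 2 (j + 2) fun d => (c d).a i := by
  obtain ⟨_, hF⟩ := hb.tame
  obtain ⟨_, hA⟩ := good_d hF (vol4 hb) hb.co
  have pa : ∀ d i x, ∑ k, b.F.P i k x * (c d).a k x = (c d).a i x := fun d =>
    (show b.F.P = b.B.P from hb.G.P) ▸ (hc d).pa
  have P := Wn.Jt.cb (w := w) (p := 0) (j := j + 1) (cb_p2 hb)
  refine (Wn.Jt.ell (u := fun d => fm (c d).a) hF hA (cliff_d (vol4 hb))
    (fun d x => q1_fm fun i => pa d i x) (.pi ha) (.congr (.clm (i2 ℝ _) (((hr.add (.cb hb.com)).add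
    (P.app ((Wn.Jt.cb (Cb_const b.w)).smul (jt_qd hb hc h0 h)))).sub (P.app (.cb (cb_fc hb)))))
    (fun d => sm_op (fun a => (hA.σ a).1) hA.B.1 (sm_fm (hc d).sa)) fun r hr d x hx => ?_)).clm
      (Map77.pj ℝ i)
  beta_reduce
  rw [app_d hF (hc d).sa (pa d), hd r hr d x hx, map_zero, zero_add, ← he r hr d x hx, ← p2_eq hb,
    Bg.eC, fc_da hb (hc d).sa, map_sub (b.p2 x), map_add (b.p2 x)]
  congr 1; abel

theorem stepS {S : ℝ} (hS : Cht98.SupOn b.F.toPre univ S) {r : X → M → Eu ν}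
    (he : w.On fun d x => b.eD (c d) x = r d x) (hr : w.Jt 2 (j + 1) r)
    (ha : ∀ i, w.Jt 2 (j + 2) fun d => (c d).a i) (h : w.Jt 2 (j + 1) fun d => (c d).Φ) :
    w.Jt 2 (j + 2) fun d => (c d).Φ := by
  obtain ⟨_, hF⟩ := hb.tame
  obtain ⟨_, hA⟩ := good_s hb
  have hp : ∀ d x, (sOp b).p x ((c d).Φ x) = (c d).Φ x := fun d x => Win45.p_of hb ((hc d).pΦ x)
  have k : ∀ i, b.F.Cb fun x => b.m.ρ i x * b.jp x := fun i => Cb_bil (.mul ℝ _) (hb.cρ i) (cb_jp hb)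
  have hv := hr.sub ((Wn.Jt.cb (Cb_add (Cb_sum Finset.univ fun i _ => Cb_bil (.mul ℝ _) (hb.cρ i) (hb.cA i))
    hb.cms)).app h)
  have hm : ∀ {p j}, (∀ i, w.Jt p j fun d => (c d).a i) →
      w.Jt p j fun d x => -∑ i, (c d).a i x • (b.m.ρ i x * b.jp x) := fun h =>
    (Wn.Jt.sum fun i => (h i).smulR (.cb (k i))).neg
  have e : w.On fun d x => (sOp b).app b.F (c d).Φ x = (-∑ i, (c d).a i x • (b.m.ρ i x * b.jp x))
      ((c d).Φ x) + (r d x - (∑ i, b.m.ρ i x * b.A i x + b.ms x) ((c d).Φ x)) :=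
    fun r hr d x hx => (app_s _ _).trans (by rw [he r hr d x hx])
  have g : (w.Jt 2 (j + 1) fun d x => (-∑ i, (c d).a i x • (b.m.ρ i x * b.jp x)) ((c d).Φ x)) →
      w.Jt 2 (j + 2) fun d => (c d).Φ := fun g => .ell hF hA (cliff_s hb) hp h ((g.add hv).congr
    (fun d => sm_op (fun a => (hA.σ a).1) hA.B.1 (hc d).sΦ) e)
  obtain _ | _ | j := j
  · exact g (.bil (.id ℝ _) (holR 2) (hm fun i => (ha i).pred) (.one h.sm h0))
  · exact Wn.Jt.ell2 hF hA (cliff_s hb) hp h h0 (hm fun i => (ha i).pred)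
      (hm fun i => .one (ha i).sm ((ha i).lp8 hF)).lp hv e
  · exact g ((Wn.Jt.sum fun i => Wn.Jt.alg hF (.lsmul ℝ ℝ) (ha i).pred
      (((ha i).of_le (by omega : 1 + 3 ≤ _)).sob0 hS).lp ((Wn.Jt.cb (k i)).app h)
      (h0.app (k i) h.sm)).neg.eq fun d x => by simp)

/-- the bootstrap -/
theorem boot {S : ℝ} (hS : Cht98.SupOn b.F.toPre univ S) {r : X → M → F2 κ} {r' : X → M → Eu ν}
    (hd : w.On fun d x => dv1 b.F (c d).a x = 0) (he : w.On fun d x => b.eC (c d) x = r d x)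
    (he' : w.On fun d x => b.eD (c d) x = r' d x) (ha : ∀ i, w.Jt 2 1 fun d => (c d).a i) (n : ℕ)
    (hr : ∀ j < n, (∀ i, w.Jt 2 (j + 1) fun d => (c d).a i) → w.Jt 2 (j + 1) r)
    (hr' : ∀ j < n, (w.Jt 2 (j + 1) fun d => (c d).Φ) → w.Jt 2 (j + 1) r') :
    (∀ i, w.Jt 2 (n + 1) fun d => (c d).a i) ∧ w.Jt 2 (n + 1) fun d => (c d).Φ := by
  induction n with
  | zero => exact ⟨ha, (Wn.Jt.one (fun d => (hc d).sΦ) h0).of0⟩
  | succ n ih =>
    obtain ⟨h1, h2⟩ := ih (fun j h => hr j (by omega)) fun j h => hr' j (by omega)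
    have h3 := stepA hb hc h0 hd he (hr n (by omega) h1) h1 h2
    exact ⟨h3, stepS hb hc h0 hS he' (hr' n (by omega) h2) h3 h2⟩

end Crest.Agent.X212.Lw78
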