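import Crest.Agent.X212.Lw78.Bt
import Crest.Agent.X212.Lw78.Cy
import Crest.Agent.X212.Win45.Slc
import Crest.Agent.X212.Pb50.Cyl
import Crest.Agent.X212.Sep15.Mono

/-!
# Row 212, SW-LOCW (helper78): estimates in Coulomb gauge on a cylinder, the transversality terms
-/

set_option autoImplicit false
set_option linter.unusedSectionVars false
noncomputable section
open scoped Manifold ContDiff Topology InnerProductSpace Convolution
open MeasureTheory Set Function Filter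

namespace Crest.Agent.X212.Lw78
open An An.Pre Sob92 Cyf70 Sw Sw.En3 Sep15.S
open Win45 (FY FZ)

/-- the oscillation of a function with a bound of the derivative -/
theorem osc {h h' G : ℝ → ℝ} {a b A B C t t' : ℝ} (hA : 0 ≤ A) (hB : 0 ≤ B) (hC : 0 ≤ C)
    (hG : ∀ t, 0 ≤ G t) (hd : ∀ t ∈ Ioo a b, HasDerivAt h (h' t) t ∧ |h' t| ≤ B + A * G t)
    (hE : ∫⁻ t in Ioo a b, ENNReal.ofReal (G t) ≤ ENNReal.ofReal C) (ht : t ∈ Ioo a b)
    (ht' : t' ∈ Ioo a b) : |h t - h t'| ≤ B * (b - a) + A * C := by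
  have h1 := ordConnected_Ioo.uIcc_subset ht ht'
  have h0 : 0 ≤ b - a := by linarith [ht.1, ht.2]
  have h2 := addHaar_image_le_lintegral_abs_det_fderiv volume measurableSet_uIcc
    fun s hs => (hd s (h1 hs)).1.hasDerivWithinAt.hasFDerivWithinAt
  simp only [ContinuousLinearMap.det_toSpanSingleton] at h2
  have h3 := ((measure_mono (intermediate_value_uIcc fun s hs =>
    (hd s (h1 hs)).1.continuousAt.continuousWithinAt)).trans h2).trans ((lintegral_mono_set h1).trans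
    (setLIntegral_mono' measurableSet_Ioo fun s hs => (ENNReal.ofReal_le_ofReal (hd s hs).2).trans_eq
      ((ENNReal.ofReal_add hB (mul_nonneg hA (hG s))).trans (congrArg _ (ENNReal.ofReal_mul hA)))))
  rw [lintegral_add_left measurable_const, lintegral_const_mul' _ _ ENNReal.ofReal_ne_top,
    setLIntegral_const, Real.volume_interval, Real.volume_Ioo, abs_sub_comm] at h3
  have h4 := h3.trans (add_le_add_right (mul_le_mul_right hE _) _)
  rwa [← ENNReal.ofReal_mul hA, ← ENNReal.ofReal_mul hB, ← ENNReal.ofReal_add (by positivity)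
    (by positivity), ENNReal.ofReal_le_ofReal_iff (by positivity)] at h4

variable {κ lam ν : Type} [Fintype κ] [Fintype lam] [Fintype ν] [DecidableEq ν] {e : En3 κ lam ν}
  (he : e.OK)
include he

theorem b_bd : ∃ B, ∀ r ≥ 0, ‖e.b r‖ ≤ B := by
  obtain ⟨B, h⟩ := isCompact_Icc.exists_bound_of_continuousOn
    (he.sb.continuous.continuousOn (s := Icc 0 1))
  exact ⟨B, fun r hr => (le_total r 1).elim (fun k => h r ⟨hr, k⟩) fun k => by
    rw [he.b1 r k, ← he.b1 1 le_rfl]; exact h 1 ⟨zero_le_one, le_rfl⟩⟩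

/-- estimates in Coulomb gauge -/
theorem core (C l r : ℝ) (k : ℕ) (hr : 0 < r) : ∃ K, ∀ (c : e.ZC) (τ : e.Y.M × ℝ → F2 κ) a b,
    b - a ≤ l → e.cyl.Adm c → Sm (IC e.Y.I) τ → (FZ e).CB (k + 2) τ C →
    (∀ i, ∫ x in univ ×ˢ Icc a b, ‖c.a i x‖ ^ 2 ∂(FZ e).μ ≤ C) →
    (∀ x ∈ univ ×ˢ Ioo a b, ‖c.Φ x‖ ≤ C ∧ dv1 e.cyl.F c.a x = 0 ∧
      e.cyl.eD c x = e.b (nm (sl c x.2)) • e.m.ρ none x.1 (c.Φ x) ∧
      e.cyl.eC c x = -deriv e.f (hol (sl c x.2)) • e.ζ x.1 + τ x) →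
    Cl c ⟨0, 0⟩ (Icc (a + r) (b - r)) k K := by
  let X := {d : e.ZC × (e.Y.M × ℝ → F2 κ) × ℝ × ℝ // d.2.2.2 - d.2.2.1 ≤ l ∧ e.cyl.Adm d.1 ∧
    Sm (IC e.Y.I) d.2.1 ∧ (FZ e).CB (k + 2) d.2.1 C ∧
    (∀ i, ∫ x in univ ×ˢ Icc d.2.2.1 d.2.2.2, ‖d.1.a i x‖ ^ 2 ∂(FZ e).μ ≤ C) ∧
    ∀ x ∈ univ ×ˢ Ioo d.2.2.1 d.2.2.2, ‖d.1.Φ x‖ ≤ C ∧ dv1 e.cyl.F d.1.a x = 0 ∧
      e.cyl.eD d.1 x = e.b (nm (sl d.1 x.2)) • e.m.ρ none x.1 (d.1.Φ x) ∧
      e.cyl.eC d.1 x = -deriv e.f (hol (sl d.1 x.2)) • e.ζ x.1 + d.2.1 x}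
  let w := cw (FY e) (fun d : X => d.1.2.2.1) (fun d => d.1.2.2.2) fun d => d.2.1
  have hc := fun d : X => d.2.2.1
  have hon := fun r (hr : r > 0) (d : X) x (hx : x ∈ w.S d r) => d.2.2.2.2.2.2 x
    ⟨trivial, by linarith [hx.2.1], by linarith [hx.2.2]⟩
  have h0 : w.Lp 0 fun d => d.1.1.Φ := Wn.lp0 fun r hr => ⟨C, fun d x hx => (hon r hr d x hx).1⟩
  obtain ⟨S, -, hS⟩ := Cht98.sob_cyl (FY e) e.Y.dim.le
  obtain ⟨_, hF⟩ := he.cyl.tame
  obtain ⟨B, hB⟩ := b_bd he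
  obtain ⟨B', hB'⟩ := he.bf 1
  rw [iteratedDeriv_one] at hB'
  have cζ := Cht98.Cb_fst (FY e) (Cb_of_compact he.sζ)
  obtain ⟨h1, h2⟩ := boot he.cyl (w := w) hc h0 hS (fun r hr d x hx => (hon r hr d x hx).2.1)
    (fun r hr d x hx => (hon r hr d x hx).2.2.2) (fun r hr d x hx => (hon r hr d x hx).2.2.1)
    (fun i => .one (fun d => (hc d).sa i) ⟨fun h => absurd h two_ne_zero, fun r hr => ⟨C, fun d =>
      (setIntegral_mono_set ((((hc d).sa i).continuous.norm.fun_pow 2).continuousOn.integrableOn_compact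
        (isCompact_univ.prod isCompact_Icc)) (.of_forall fun _ => sq_nonneg _) (prod_mono_right
        (Icc_subset_Icc (by linarith) (by linarith))).eventuallyLE).trans (d.2.2.2.2.2.1 i)⟩⟩) (k + 3)
    (fun j hj ha => ((jt_fn (contDiff_infty_iff_deriv.1 he.sf).2 ((Wn.Jt.cb (Cb_const (4 : ℝ))).smul
      (.sum fun i => (Wn.Jt.cb (Cb_clm (Map77.pj ℝ (none, some i)) cζ)).smul (ha (some i))))
      (Wn.lp0 fun _ _ => ⟨B', fun _ _ _ => hB' _⟩)).2.neg.smulR
      (.cb cζ)).add ((Wn.Jt.of_CB fun d : X => ⟨d.2.2.2.1, d.2.2.2.2.1⟩).of0.of_le (by omega)))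
    fun j _ h => by
      have g := jt_fn he.sb ((h.alg hF (innerSL ℝ) h0 h h0).eq (f' := fun d x => ‖d.1.1.Φ x‖ ^ 2)
        fun _ _ => (real_inner_self_eq_norm_sq _).symm) (Wn.lp0 fun _ _ => ⟨B, fun _ _ _ =>
        hB _ (integral_nonneg fun _ => sq_nonneg _)⟩)
      have g' := (Wn.Jt.cb (he.cyl.cρ none)).app h
      exact Wn.Jt.mulL (.lsmul ℝ ℝ) (holL 2) (h0.app (he.cyl.cρ none) h.sm) g'.sm g.2 g.1 g'.D
  choose K hK using fun i => ((h1 i).sob0 hS).bd r hr
  obtain ⟨K', hK'⟩ := (h2.sob0 hS).bd r hr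
  refine ⟨∑ i, |K i| + |K'|, fun c τ a b k1 k2 k3 k4 k5 k6 v hv x hx => ⟨fun i => ?_, ?_⟩⟩
  · simp only [Pi.zero_apply, sub_zero]
    exact (((hK i ⟨(c, τ, a, b), k1, k2, k3, k4, k5, k6⟩ v hv x hx).trans (le_abs_self _)).trans
      (Finset.single_le_sum (f := fun i => |K i|) (fun _ _ => abs_nonneg _)
      (Finset.mem_univ i))).trans (le_add_of_nonneg_right (abs_nonneg _))
  · rw [sub_zero]
    exact ((hK' ⟨(c, τ, a, b), k1, k2, k3, k4, k5, k6⟩ v hv x hx).trans (le_abs_self _)).trans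
      (le_add_of_nonneg_left (by positivity))

variable {W : Type} {T : W → Option e.YT} {q : W →₀ ℝ} {c : e.ZC} {a b C : ℝ} {k : ℕ}

omit he in
theorem Loc_tau (h : Loc T q c (some a) (some b)) {t : ℝ} (ht : t ∈ Ioo a b) (y : e.Y.M) :
    e.cyl.eD c (y, t) = e.b (nm (sl c t)) • e.m.ρ none y (c.Φ (y, t)) ∧
      e.cyl.eC c (y, t) + deriv e.f (hol (sl c t)) • e.ζ y = tau T q c (y, t) :=
  have := h.eq (y, t) ⟨trivial, Jv_some a b ▸ ht⟩
  ⟨this.1, by rw [this.2]; simp [pt]⟩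

omit he in
theorem tau_sq (h : Sml T q k C) (x : e.Y.M × ℝ) (s : Option κ × Option κ) :
    tau T q c x s ^ 2 ≤ C ^ 2 :=
  sq_le_sq.2 (((PiLp.norm_apply_le _ s).trans (tau_le h c x)).trans (le_abs_self _))

/-- the terms agree with functions with uniform bounds -/
theorem tau_sm (hD : DlStmt κ lam ν) (C ρ l : ℝ) (k : ℕ) (hρ : 0 < ρ) : ∃ K,
    ∀ (W : Type) (T : W → Option e.YT) q c a b, b - a ≤ l → Sml T q k C → e.cyl.Adm c →
    Loc T q c (some a) (some b) → en c (Ioo a b) ≤ ENNReal.ofReal C → ∃ τ, Sm (IC e.Y.I) τ ∧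
      (FZ e).CB k τ K ∧ ∀ x ∈ univ ×ˢ Icc (a + 1 / 2 + ρ) (b - 1 / 2 - ρ), τ x = tau T q c x := by
  have s1 : ContDiff ℝ ∞ bp := (contDiff_infty_iff_deriv.1 Real.smoothTransition.contDiff).2
  have s2 : ContDiff ℝ ∞ fun t => bp (1 / 2 - t) := by fun_prop
  have c1 : HasCompactSupport bp := .intro isCompact_Icc fun _ => Pb50.bp_zero
  have c2 : HasCompactSupport fun t => bp (1 / 2 - t) := c1.comp_homeomorph (.subLeft _)
  choose K K0 hK using fun i => cv_bd (i + 1) s2 c2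
  set B := 4 * Fintype.card κ * C ^ 2 * e.D.F.μ.real univ
  have B0 : 0 ≤ B := mul_nonneg (by positivity) measureReal_nonneg
  obtain ⟨A, A0, hA⟩ := cb_sep (N := F2 κ) (F := FY e) (fun i => K i * (B * |l| + 3 / 2 * |C|)) k
  refine ⟨A * C, fun W T q c a b hl hs hc hL hE => ?_⟩
  obtain ⟨d1, -, d3⟩ := hD e he c _ isOpen_univ (Pb50.admOn_of fun x _ => .of_adm hc x)
  replace d1 := contDiffOn_univ.1 d1
  set g := fun t => ct (ρ / 2) (a + ρ / 2) (b - ρ / 2) t * (L (sl c t) - L (sl c ((a + b) / 2)))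
  have g1 : Continuous g := (cd_ct.mul (d1.sub contDiff_const)).continuous
  have g2 : ∀ t, |g t| ≤ B * |l| + 3 / 2 * |C| := fun t => by
    by_cases h : t ∈ Ioo a b
    · have := osc (by norm_num : (0 : ℝ) ≤ 3 / 2) B0 (abs_nonneg C) (fun t => gn_nonneg he.cyl.w (sl c t))
        (fun t ht => ⟨d3 t trivial fun y => (Loc_tau hL ht y).1, by
          have v := Pb50.sl_adm (s := t) fun y => .of_adm hc _
          have i1 := ip_le he v (τ := fun k y => tau T q c (y, t) (none, some k)) fun _ _ => tau_sq hs _ _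
          have i2 := ip_le he v (τ := fun k y => -tau T q c (y, t) (none, some k)) fun _ _ =>
            (neg_sq _).trans_le (tau_sq hs _ _)
          have := gn_nonneg he.cyl.w (sl c t)
          simp only [fun y => (Loc_tau hL ht y).2]
          simp only [En3.ip, mul_neg, Finset.sum_neg_distrib, Pi.zero_apply, inner_zero_right, mul_zero,
            add_zero, integral_neg] at i1 i2 ⊢
          exact abs_le.2 ⟨by linarith, by linarith⟩⟩)
        (hE.trans (ENNReal.ofReal_le_ofReal (le_abs_self C))) h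
        (show (a + b) / 2 ∈ Ioo a b from ⟨by linarith [h.1, h.2], by linarith [h.1, h.2]⟩)
      rw [abs_mul]
      exact (mul_le_of_le_one_left (abs_nonneg _) ct_abs).trans (this.trans (by
        gcongr; exact hl.trans (le_abs_self l)))
    · simp only [g]
      rw [image_eq_zero_of_notMem_tsupport (f := ct _ _ _) fun k => h (Icc_subset_Ioo (by linarith)
        (by linarith) (ct_supp (half_pos hρ) k)), zero_mul, abs_zero]
      positivity
  set G := fun s => L (sl c ((a + b) / 2)) * (∫ p, bp p) +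
    ((fun t => bp (1 / 2 - t)) ⋆[ContinuousLinearMap.mul ℝ ℝ] g) s
  have G1 : ContDiff ℝ ∞ G :=
    contDiff_const.add (c2.contDiff_convolution_left _ s2 g1.locallyIntegrable)
  obtain ⟨s, s3, s4⟩ := hs
  set f := fun w (x : e.Y.M × ℝ) => q w • (T w).elim 0 fun T => T.b (G x.2) • T.fo x.1 with hf
  have G2 : ∀ w ∈ q.support, Sm (IC e.Y.I) (f w) ∧ (FZ e).CB k (f w) (A * (|q w| * s w)) := fun w hw => by
    have := (s4 w hw).1
    simp only [hf]
    cases hT : T w with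
    | none =>
      simp only [Option.elim]
      exact ⟨contMDiff_const, CB_mono (CB_const _ _) (by simp; positivity)⟩
    | some T' =>
      simp only [Option.elim]
      have k1 := (sm_snd (I := e.Y.I) (Y := e.Y.M) (T'.sb.comp G1)).smul (sm_fst T'.sf)
      refine ⟨(show Sm _ fun _ => q w from contMDiff_const).smul k1, CB_mono (CB_clm (q w • .id ℝ _) k1 (hA G _ _ _ G1 (fun i t => ?_) T'.sb
        T'.sf ((s4 w hw).2 T' hT))) ?_⟩
      · rw [iteratedDeriv_const_add i.succ_pos]; exact hK i g _ g1 g2 t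
      · rw [abs_of_nonneg this, mul_left_comm A]
        gcongr
        exact ContinuousLinearMap.opNorm_le_bound _ (abs_nonneg _) fun v => (norm_smul (q w) v).le
  refine ⟨fun x => ∑ w ∈ q.support, f w x, contMDiff_finsetSum fun w hw => (G2 w hw).1,
    CB_mono (CB_sum _ (fun w hw => (G2 w hw).1) fun w hw => (G2 w hw).2)
      ((Finset.mul_sum ..).ge.trans (mul_le_mul_of_nonneg_left s3 A0)), fun x hx => ?_⟩
  have i1 := s1.continuous.integrable_of_hasCompactSupport (μ := volume) c1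
  simp only [hf]
  rw [show G x.2 = lb c x.2 from ?_]; · rfl
  simp only [G, convolution_def, ContinuousLinearMap.mul_apply', lb, av]
  rw [← integral_sub_left_eq_self (fun t => bp (1 / 2 - t) * _) volume (1 / 2), ← integral_const_mul,
    ← integral_add (i1.const_mul _) (Continuous.integrable_of_hasCompactSupport (by fun_prop)
      (by simp only [sub_sub_cancel]; exact c1.mul_right))]
  refine integral_congr_ae (.of_forall fun p => ?_)
  by_cases h : p ∈ Icc (0 : ℝ) 1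
  · simp only [g, sub_sub_cancel, show x.2 - (1 / 2 - p) = x.2 + p - 1 / 2 by ring]
    rw [ct_one (half_pos hρ) ⟨by linarith [hx.2.1, h.1], by linarith [hx.2.2, h.2]⟩]; ring
  · simp [Pb50.bp_zero h]

end Crest.Agent.X212.Lw78
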