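import Crest.Agent.X212.Lw78.EnD
import Crest.Agent.X212.Fin37.Nk

/-!
# Row 212, EN18 (helper78): pointwise estimates and cut-off functions on a neck
-/

set_option autoImplicit false
set_option linter.unusedSectionVars false
noncomputable section
open scoped Manifold ContDiff Topology InnerProductSpace Classical
open MeasureTheory Set Function Filter

namespace Crest.Agent.X212.Lw78.En
open An Wz78 Nd18 Cyf70 Dgr80 Nka63
open Mp86 (NK DB Dom)

variable {E3 : Type} [NormedAddCommGroup E3] [NormedSpace ℝ E3] [FiniteDimensional ℝ E3]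
  [MeasurableSpace E3] [BorelSpace E3]
  {H3 : Type} [TopologicalSpace H3] {I3 : ModelWithCorners ℝ E3 H3} [I3.Boundaryless]
  {Y : Type} [TopologicalSpace Y] [ChartedSpace H3 Y] [IsManifold I3 ∞ Y] [T2Space Y]
  [MeasurableSpace Y] [BorelSpace Y] [SecondCountableTopology Y] [CompactSpace Y]
  {κ : Type} [Fintype κ] {lam : Type} [Fintype lam] {D : YD I3 Y κ lam} {S : ℝ} {r : ℕ}
  {N : ND Y lam} {X : NK D S} {c : Cfg X.M (Option κ) lam r} {q : YW I3 Y →₀ ℝ} {k : ℝ} {x : X.M}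

theorem sq3 {V : Type} [NormedAddCommGroup V] (u v w : V) :
    ‖u + v + w‖ ^ 2 ≤ 3 * (‖u‖ ^ 2 + ‖v‖ ^ 2 + ‖w‖ ^ 2) := by
  nlinarith [pow_le_pow_left₀ (norm_nonneg _) (norm_add₃_le (a := u) (b := v) (c := w)) 2,
    sq_nonneg (‖u‖ - ‖v‖), sq_nonneg (‖u‖ - ‖w‖), sq_nonneg (‖v‖ - ‖w‖)]

variable (X) in
/-- the cut-off of the neck -/
abbrev th (x : X.M) : ℝ := X.K.cut 3 (X.K.τ x)

variable (X) in
/-- the derivative of the time -/
abbrev dt (x : X.M) : ℝ := X.G.F.D none X.K.τ x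

theorem qq_cut (hk : 1 ≤ k) (hq : Sml (fun T => k * sk T) q) (x : X.M) :
    ‖(qq N X q r 0).C c x‖ ≤ k⁻¹ * th X x := by
  have o : ∀ T : YW I3 Y, |N.oc X.K T.1 c x| ≤ sk T * th X x := fun T => by
    rw [ND.oc, abs_mul, abs_of_nonneg ct_mem.1, mul_comm]
    refine mul_le_mul_of_nonneg_right ((abs_mul _ _).trans_le ?_) ct_mem.1
    exact (mul_le_of_le_one_left (abs_nonneg _) (abs_nv _).2).trans ((exists_sk T).choose_spec _)
  exact norm_fsum ct_mem.1 (by linarith) (fun T => (norm_smul _ _).trans_le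
    ((mul_le_of_le_one_right (norm_nonneg _) (norm_nrm _)).trans (o T))) hq

theorem q1_le (x : X.M) : ‖(N.q1 X.K : Pt _ _ _ r 0).C c x‖ ^ 2 ≤
    64 * (dt X x ^ 2 * ‖(N.dg X.K).gA X.G.F c x‖ ^ 2) := by
  have e : ‖(WithLp.toLp 2 fun s : Option κ × Option κ => X.G.F.D s.1 X.K.τ x •
      (N.dg X.K).gA X.G.F c x s.2 : Fm (Option κ × Option κ) c.m.A)‖ ^ 2 =
      (∑ a, X.G.F.D a X.K.τ x ^ 2) * ‖(N.dg X.K).gA X.G.F c x‖ ^ 2 := by
    simp only [PiLp.norm_sq_eq_of_L2, norm_smul, mul_pow, Fintype.sum_prod_type, Finset.sum_mul_sum,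
      Real.norm_eq_abs, sq_abs]
  have b := (pow_le_pow_left₀ (norm_nonneg _) (Mp86.norm_p2 X.hB c.m x _) 2).trans_eq e
  rw [Fintype.sum_option] at b
  simp only [X.K.D_τ_some, Pi.zero_apply, sq (0 : ℝ), mul_zero, Finset.sum_const_zero, add_zero] at b
  simp only [ND.q1, DG.q1, norm_smul, mul_pow, Real.norm_eq_abs, sq_abs]
  change _ * ‖c.m.p2 X.B x (WithLp.toLp 2 fun s : Option κ × Option κ => X.G.F.D s.1 X.K.τ x •
      (N.dg X.K).gA X.G.F c x s.2)‖ ^ 2 ≤ _
  linarith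

theorem xP_zero (hz : ∀ x, c.Φ x = 0) (x : X.M) : xP X.G.F c X.K.τ x = 0 := by
  simp [xP, nt, nab, show c.Φ = fun _ => 0 from funext hz, Sob92.dv_const]

/-- the energy identity without spinor -/
theorem pw_en (hD : D.OK) (A : c.Adm X.B X.G) (hz : ∀ x, c.Φ x = 0) (hx : x ∈ O X.K 2)
    {ρ : Fm (Option κ × Option κ) c.m.A}
    (e : c.m.p2 X.B x (c.m.Fg X.G.F c.W x) = (N.pt X.K q : Pt _ _ _ r 0).C c x + ρ) :
    3 / 4 * en X.G.F c X.K.τ x ≤ 8 * Real.pi ^ 2 * c.m.kd X.B X.G.F c.W x -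
      ⟪xA X.G.F c X.K.τ x, (N.dg X.K).gA X.G.F c x⟫_ℝ + 2 * ‖(qq N X q r 0).C c x‖ ^ 2 +
      2 * ‖ρ‖ ^ 2 := by
  have P := pn2 hD X
  have h0 := P.kd_eq A hx
  have h1 := P.wk_q1 (n := 0) A (N.dg X.K) rfl hx
  have h2 := (abs_le.1 (P.wk_le A hx 0 ((qq N X q r 0).C c x + ρ))).2
  have h3 := sq_add_le ((qq N X q r 0).C c x) ρ
  have h4 : en X.G.F c X.K.τ x = ‖xA X.G.F c X.K.τ x‖ ^ 2 / 4 := by rw [en, xP_zero hz]; simp
  rw [e] at h0
  simp only [wk, xP_zero hz, inner_zero_left, inner_zero_right, ND.pt, ND.q1, Pt.add, inner_add_left,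
    norm_zero] at h0 h1 h2
  linarith

theorem isCompact_collar (K : Nk D X.B X.G) :
    IsCompact (K.tm ⁻¹' (Dp K.p K.q (1 / 2) \ Dq K.p K.q 5)) := by
  have e : ∀ (o : Option ℝ) (f g : ℝ → ℝ), IsCompact (K.tm ⁻¹' (Dp K.p K.q (1 / 2) ∩
      o.elim ∅ fun a => Icc (f a) (g a))) := fun o f g => by
    cases o with
    | none => simp
    | some a =>
      refine (isCompact_slab K (a := max (f a) (K.p.elim (f a) (· + 1 / 2)))
        (b := min (g a) (K.q.elim (g a) (· - 1 / 2))) fun s hs => Dp_sub one_half_pos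
          ⟨fun b hb => ?_, fun b hb => ?_⟩).of_isClosed_subset
        ((isClosed_Dp.inter isClosed_Icc).preimage K.cont) fun x hx =>
          ⟨max_le hx.2.1 ?_, le_min hx.2.2 ?_⟩
      · simpa [Option.mem_def.1 hb] using (max_le_iff.1 hs.1).2
      · simpa [Option.mem_def.1 hb] using (le_min_iff.1 hs.2).2
      · rcases h : K.p with _ | b
        exacts [hx.2.1, hx.1.1 b h]
      · rcases h : K.q with _ | b
        exacts [hx.2.2, hx.1.2 b h]
  refine ((e K.p id (· + 5)).union (e K.q (· - 5) id)).of_isClosed_subset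
    ((isClosed_Dp.sdiff isOpen_Dq).preimage K.cont) fun x hx => ?_
  rcases not_and_or.1 (mt mem_Dq.2 hx.2) with h | h <;> push Not at h <;> obtain ⟨a, ha, h⟩ := h
  · exact .inl ⟨hx.1, by
      rw [Option.mem_def.1 ha]; exact ⟨by linarith [hx.1.1 a ha, show id a = a from rfl], h⟩⟩
  · exact .inr ⟨hx.1, by
      rw [Option.mem_def.1 ha]; exact ⟨h, by linarith [hx.1.2 a ha, show id a = a from rfl]⟩⟩

variable (X) in
/-- the cut-off of the collars -/
structure Ph (φ : X.M → ℝ) (v : ℝ) : Prop where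
  ts : Ts X.I univ φ
  l0 : LB X.G.F.μ (fun x => φ x ^ 2) v
  l1 : LB X.G.F.μ (fun x => ∑ i, X.G.F.D i φ x ^ 2) v
  d : ∀ x, (1 - th X x) * dt X x ^ 2 ≤ φ x ^ 2
  t : ∀ x, (1 - th X x) * th X x ^ 2 ≤ φ x ^ 2
  b : ∀ x, dt X x ^ 2 ≤ v

theorem dt_one (hx : x ∈ O X.K 1) : dt X x = 1 := (congrFun X.K.D_τ_none x).trans (dtf_one' hx)

variable (D) in
theorem exists_ph : ∃ v, 1 ≤ v ∧ vY D ≤ v ∧ ∀ S (X : NK D S), ∃ φ, Ph X φ v := by
  obtain ⟨A, hA⟩ := cbs_Dτ (D := D)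
  obtain ⟨C, hC⟩ := cbs_cut_τ D
  have v0 := vY_nonneg D
  set R := 1 + A 1 ^ 2 + Fintype.card (Option κ) * (|A 1| + |A 1| * |C 1|) ^ 2
  have R1 : 1 ≤ R := by
    rw [show R = 1 + (A 1 ^ 2 + Fintype.card (Option κ) * (|A 1| + |A 1| * |C 1|) ^ 2) by ring]
    exact le_add_of_nonneg_right (by positivity)
  refine ⟨R * (vY D * (2 * 5)) + R, by nlinarith, by nlinarith, fun S X =>
    ⟨fun x => dt X x * (1 - X.K.cut 4 (X.K.τ x)), ?_⟩⟩
  have a := hA X.K none
  have b := hC X.K 4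
  have a0 : ∀ x, |dt X x| ≤ |A 1| := fun x => (a.2 1 [] zero_le_one x).trans (le_abs_self _)
  have a1 : ∀ x, dt X x ^ 2 ≤ A 1 ^ 2 := fun x => sq_le_sq.2 (a0 x)
  have sb : Sm X.I fun x => 1 - X.K.cut 4 (X.K.τ x) := contMDiff_const.sub b.1
  have sm := a.1.mul sb
  have m : ∀ x, |1 - X.K.cut 4 (X.K.τ x)| ≤ 1 := fun x =>
    abs_le.2 ⟨by linarith [(ct_mem (p := X.K.p) (q := X.K.q) (d := 4) (s := X.K.τ x)).2],
      by linarith [(ct_mem (p := X.K.p) (q := X.K.q) (d := 4) (s := X.K.τ x)).1]⟩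
  have k5 := isCompact_collar X.K
  have z : ∀ x ∉ X.K.tm ⁻¹' (Dp X.K.p X.K.q (1 / 2) \ Dq X.K.p X.K.q 5),
      dt X x * (1 - X.K.cut 4 (X.K.τ x)) = 0 := fun x hx => by
    by_cases e : X.K.tm x ∈ Dp X.K.p X.K.q (1 / 2)
    · rw [cut_τ_one X.K (by norm_num) (by
        norm_num; exact O_sub_dp X.K (by_contra fun e' => hx ⟨e, e'⟩)), sub_self, mul_zero]
    · rw [show dt X x = 0 from (congrFun X.K.D_τ_none x).trans (dtf_zero X.K.len e), zero_mul]
  have m5 : X.G.F.μ.real (X.K.tm ⁻¹' (Dp X.K.p X.K.q (1 / 2) \ Dq X.K.p X.K.q 5)) ≤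
      vY D * (2 * 5) := by
    rw [measureReal_def, measure_slab X.K (isClosed_Dp.measurableSet.diff isOpen_Dq.measurableSet)
      (sdiff_subset.trans (Dp_sub one_half_pos)), ENNReal.toReal_mul]
    exact mul_le_mul_of_nonneg_left (ENNReal.toReal_le_of_le_ofReal (by norm_num)
      ((measure_mono (sdiff_subset_sdiff (Dp_sub one_half_pos) subset_rfl)).trans
        (Fin37.vol_collar _ _ (by norm_num)))) v0
  have k := fun i => (X.G.F.sm_D sm i).continuous
  have t4 : ∀ x, th X x ≠ 1 → X.K.cut 4 (X.K.τ x) = 0 := fun x hx =>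
    cut_τ_zero X.K (by norm_num) fun e => hx (cut_τ_one X.K (by norm_num)
      (by norm_num; exact O_sub_dp X.K e))
  have t1 : ∀ x, 0 ≤ 1 - th X x ∧ 1 - th X x ≤ 1 := fun x =>
    ⟨sub_nonneg.2 ct_mem.2, sub_le_self _ ct_mem.1⟩
  refine ⟨⟨sm, .intro k5 z, subset_univ _⟩, (Fin37.lb_supp k5.measurableSet k5.measure_ne_top m5
    (sm.continuous.pow 2).aestronglyMeasurable (fun _ => sq_nonneg _) (C := R) (by linarith)
    (fun x => ?_) fun x hx => by simp [z x hx]).le (by linarith),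
    (Fin37.lb_supp k5.measurableSet k5.measure_ne_top m5 (Continuous.aestronglyMeasurable
      (by fun_prop)) (fun _ => by positivity) (C := R) (by linarith) (fun x => ?_)
      fun x hx => ?_).le (by linarith), fun x => ?_, fun x => ?_, fun x => ?_⟩
  · refine ((mul_pow _ _ _).trans_le (mul_le_of_le_one_right (sq_nonneg _)
      ((sq_le_one_iff_abs_le_one _).2 (m x)))).trans ((a1 x).trans ?_)
    exact le_add_of_le_of_nonneg (le_add_of_nonneg_left zero_le_one) (by positivity)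
  · refine le_add_of_nonneg_of_le (by positivity) (Mp86.sum_sq_le fun i => ?_)
    rw [Pre.D_def, dv_mul (a.1 x) (sb x), dv_sub' contMDiffAt_const (b.1 x), Sob92.dv_const,
      Pi.zero_apply, zero_sub]
    refine (abs_add_le _ _).trans (add_le_add ?_ ?_) <;> rw [abs_mul]
    · exact (mul_le_of_le_one_right (abs_nonneg _) (m x)).trans
        ((a.2 1 [i] le_rfl x).trans (le_abs_self _))
    · rw [abs_neg]
      exact mul_le_mul (a0 x) ((b.2 1 [i] le_rfl x).trans (le_abs_self _)) (abs_nonneg _)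
        (abs_nonneg _)
  · have : x ∉ tsupport fun x => dt X x * (1 - X.K.cut 4 (X.K.τ x)) := fun e => hx
      (closure_minimal (s := support fun x => dt X x * (1 - X.K.cut 4 (X.K.τ x)))
        (fun y hy => by_contra fun e => hy (z y e)) k5.isClosed e)
    simp [Pre.D_def, Sob92.dv_eq_zero_of_notMem this]
  · by_cases e : th X x = 1
    · rw [e, sub_self, zero_mul]; exact sq_nonneg _
    · rw [t4 x e, sub_zero, mul_one]; exact mul_le_of_le_one_left (sq_nonneg _) (t1 x).2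
  · by_cases e : th X x = 1
    · rw [e, sub_self, zero_mul]; exact sq_nonneg _
    by_cases e0 : x ∈ O X.K 3
    · rw [t4 x e, sub_zero, mul_one, dt_one (O_mono X.K (by norm_num) e0), one_pow]
      exact mul_le_one₀ (t1 x).2 (sq_nonneg _) (pow_le_one₀ ct_mem.1 ct_mem.2)
    · rw [show th X x = 0 from cut_τ_zero X.K (by norm_num) e0]; simp [sq_nonneg]
  · refine (a1 x).trans (le_add_of_nonneg_of_le (by positivity) ?_)
    exact le_add_of_le_of_nonneg (le_add_of_nonneg_left zero_le_one) (by positivity)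

/-- the cut-off of a window -/
theorem win {a a' : ℝ} (T : Sb X.K.p X.K.q a a') (h : a ≤ a') : ∃ φ : X.M → ℝ, Ts X.I univ φ ∧
    LB X.G.F.μ (fun x => φ x ^ 2) (vY D * (a' - a)) ∧
    LB X.G.F.μ (fun x => ∑ i, X.G.F.D i φ x ^ 2) (vY D * (80 * cA ^ 2)) ∧
    ∀ x, φ x ^ 2 ≤ 1 ∧ θc a a' (X.K.τ x) ≤ φ x ^ 2 := by
  have c := contDiff_ct (p := some a) (q := some a') (d := 2)
  have z : ∀ s ∉ Dp (some a) (some a') 2, ct (some a) (some a') 2 s = 0 := fun _ => ct_zero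
  have t := T.ts (I := X.I) c le_rfl one_lt_two z
  have l : LB volume (fun s => ct (some a) (some a') 2 s ^ 2) (1 * (a' - a)) :=
    Fin37.lb_supp (L := Icc a a') measurableSet_Icc measure_Icc_lt_top.ne (by simp [h])
      (c.continuous.pow 2).aestronglyMeasurable (fun _ => sq_nonneg _) zero_le_one
      (fun _ => pow_le_one₀ ct_mem.1 ct_mem.2) fun s hs => by
        rw [z s fun e => hs ⟨by linarith [e.1 a rfl], by linarith [e.2 a' rfl]⟩]; simp
  refine ⟨fun x => ct (some a) (some a') 2 (X.K.τ x), ⟨t.sm, t.hc, subset_univ _⟩, ?_, ?_,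
    fun x => ⟨pow_le_one₀ ct_mem.1 ct_mem.2, ?_⟩⟩
  · have := int_time (G := X.G) X.K l.1 (T.off le_rfl fun s hs => by simp [z s hs])
    simp only [abs_sq] at this
    exact this.le (mul_le_mul_of_nonneg_left (l.2.trans_eq (one_mul _)) (vY_nonneg D))
  · have := T.lbZ (G := X.G) (g := fun s => deriv (ct (some a) (some a') 2) s ^ 2)
      ((cd_deriv c).continuous.pow 2) (C := cA ^ 2) (fun s => (abs_pow _ _).trans_le
        (pow_le_pow_left₀ (abs_nonneg _) dct_le 2)) fun s hs => by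
        by_cases e : s ∈ Dp (some a) (some a') 2
        · rw [dct_zero (Dq_mono (by norm_num) (by_contra fun e' => hs ⟨e, e'⟩))]; simp
        · simp [deriv_off isClosed_Dp z s e]
    convert this using 2 with x
    rw [abs_sq, Fintype.sum_option, D_time0 X.K c (T.off le_rfl z)]
    simp [D_time_some X.K c]
  · by_cases e : X.K.τ x ∈ Dp (some a) (some a') 3
    · beta_reduce
      rw [ct_one (d := 2) (by norm_num; exact e), one_pow]; exact ct_mem.2
    · rw [show θc a a' (X.K.τ x) = 0 from ct_zero e]; exact sq_nonneg _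

end Crest.Agent.X212.Lw78.En
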