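import Crest.Agent.X212.Lw78.EnA

/-!
# Row 212, EN18 (helper78): **CORE**, the level of a piece without spinor
-/

set_option autoImplicit false
set_option linter.unusedSectionVars false
noncomputable section
open scoped Manifold ContDiff Topology InnerProductSpace Classical
open MeasureTheory Set Function Filter

namespace Crest.Agent.X212.Lw78.En
open An Wz78 Nd18 Cyf70 Dgr80 Nka63
open Mp86 (NK DB Dom)

section meas
variable {Z : Type*} [MeasurableSpace Z] {μ : Measure Z} {U : Set Z} {f g : Z → ℝ} {a : ℝ}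

theorem lb_res (h : LB μ f a) (f0 : ∀ x, 0 ≤ f x) : LB (μ.restrict U) f a :=
  ⟨h.1.integrableOn, (setIntegral_le_integral h.1 (.of_forall f0)).trans h.2⟩

theorem lb_mo (hU : MeasurableSet U) (h : LB (μ.restrict U) g a)
    (hm : AEStronglyMeasurable f (μ.restrict U)) (f0 : ∀ x, 0 ≤ f x) (hle : ∀ x ∈ U, f x ≤ g x) :
    LB (μ.restrict U) f a := by
  have e := (ae_restrict_mem (μ := μ) hU).mono hle
  have i := h.1.mono' hm (e.mono fun x hx => (Real.norm_of_nonneg (f0 x)).trans_le hx)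
  exact ⟨i, (integral_mono_ae i h.1 e).trans h.2⟩

end meas

variable {E3 : Type} [NormedAddCommGroup E3] [NormedSpace ℝ E3] [FiniteDimensional ℝ E3]
  [MeasurableSpace E3] [BorelSpace E3]
  {H3 : Type} [TopologicalSpace H3] {I3 : ModelWithCorners ℝ E3 H3} [I3.Boundaryless]
  {Y : Type} [TopologicalSpace Y] [ChartedSpace H3 Y] [IsManifold I3 ∞ Y] [T2Space Y]
  [MeasurableSpace Y] [BorelSpace Y] [SecondCountableTopology Y] [CompactSpace Y]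
  {κ : Type} [Fintype κ] {lam : Type} [Fintype lam] {D : YD I3 Y κ lam} {S : ℝ} {r : ℕ}
  {N : ND Y lam} {X : NK D S} {c : Cfg X.M (Option κ) lam r} {q : YW I3 Y →₀ ℝ} {x : X.M}
  {U : Set X.M} {ρ : X.M → Fm (Option κ × Option κ) c.m.A} {ε η k v a a' : ℝ} {φ : X.M → ℝ}

theorem en_bdd (h : Gd X.B X.G c) (hz : ∀ x, c.Φ x = 0) :
    ∃ b, 0 ≤ b ∧ ∀ z, en X.G.F c X.K.τ z ≤ b := by
  obtain ⟨A, hA⟩ := cbs_Dτ D
  obtain ⟨C, hC⟩ := Fin37.cb_Fg h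
  refine ⟨(∑ _a : Option κ, (∑ _k : Option κ, A 0 * √C) ^ 2) / 4, by positivity, fun z => ?_⟩
  rw [en, xP_zero hz, norm_zero, sq (0 : ℝ), mul_zero, add_zero]
  refine div_le_div_of_nonneg_right ((PiLp.norm_sq_eq_of_L2 _ _).trans_le (Finset.sum_le_sum
    fun a _ => pow_le_pow_left₀ (norm_nonneg _) (norm_sum_le_of_le _ fun k _ => ?_) 2)) zero_le_four
  have := (hA X.K k).2 0 [] le_rfl z
  exact (norm_smul_le _ _).trans (mul_le_mul this ((PiLp.norm_apply_le _ _).trans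
    (Real.le_sqrt_of_sq_le (hC z))) (norm_nonneg _) ((norm_nonneg _).trans this))

theorem mem_O2 (T : Sb X.K.p X.K.q a a') (hx : θc a a' (X.K.τ x) ≠ 0) : x ∈ O X.K 2 := by
  have := T.dp (by_contra fun e => hx (ct_zero e))
  rw [(tm_eq X.K (Dp_mono (by norm_num) this)).2.2] at this
  exact dp_sub_O X.K (by norm_num) this

theorem ct_th : Continuous (th X) := (sm_time X.K contDiff_ct).continuous

theorem Wk.cacc (w : Wk N X c η) (η0 : 0 < η) (hf : Ts X.I univ φ)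
    (h1 : LB X.G.F.μ (fun x => φ x ^ 2) a) (h2 : LB X.G.F.μ (fun x => ∑ i, X.G.F.D i φ x ^ 2) a') :
    LB X.G.F.μ (fun x => φ x ^ 2 * ‖(N.dg X.K).gA X.G.F c x‖ ^ 2) (η * (a + 2 * a')) :=
  (Fin37.dom_cacc w.dom η0 (w.ct.norm.pow 2) (fun _ => (zero_add _).ge) (fun _ => sq_nonneg _) le_rfl
    hf h1 h2).le (by linarith)

theorem ct_F (A : c.Adm X.B X.G) : Continuous fun x => ‖c.m.Fg X.G.F c.W x‖ ^ 2 :=
  (Mp86.sm_Fg X.hB X.hG A.ok A.conn).continuous.norm.pow 2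

variable (H : Hy N q X c U ρ ε)
include H

theorem Hy.mem {d : ℝ} (hd : 0 ≤ d) (hx : x ∈ O X.K d) : x ∈ U := H.sub (O_sub X.K hd hx)

theorem Hy.th0 (hx : x ∉ U) : th X x = 0 :=
  cut_τ_zero X.K (by norm_num) fun e => hx (H.mem (by norm_num) e)

theorem Hy.lb : LB (X.G.F.μ.restrict U) (fun x => ‖ρ x‖ ^ 2) (∫ x in U, ‖ρ x‖ ^ 2 ∂X.G.F.μ) :=
  ⟨H.fb.int.integrableOn, le_rfl⟩

theorem Hy.ik : IntegrableOn (fun x => th X x * c.m.kd X.B X.G.F c.W x) U X.G.F.μ :=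
  Integrable.bdd_mul (c := 1) H.kd ct_th.aestronglyMeasurable
    (.of_forall fun _ => (Real.norm_of_nonneg ct_mem.1).trans_le ct_mem.2)

theorem Hy.lim (hD : D.OK) {α β : ℝ} (h : ∀ a a', Sb X.K.p X.K.q a a' →
    ∫ x, θc a a' (X.K.τ x) * en X.G.F c X.K.τ x ∂X.G.F.μ ≤
      α * ∫ x, θc a a' (X.K.τ x) * c.m.kd X.B X.G.F c.W x ∂X.G.F.μ + β) :
    LB X.G.F.μ (fun x => th X x * en X.G.F c X.K.τ x)
      (α * ∫ x in U, th X x * c.m.kd X.B X.G.F c.W x ∂X.G.F.μ + β) := by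
  have P := pn2 hD X
  have A := H.gd.adm
  have z : ∀ x ∉ U, th X x * c.m.kd X.B X.G.F c.W x = 0 := fun x hx => by rw [H.th0 hx, zero_mul]
  have t := fun n : ℕ => ((sb_getD X.K.p X.K.q (-n) n).tf (G := X.G)).ts.mul (P.sm_en A)
  rw [setIntegral_eq_integral_of_forall_compl_eq_zero z]
  exact LB.lim (ct_th.mul (P.sm_en A).continuous).measurable
    (fun _ => mul_nonneg ct_mem.1 (en_nonneg _ _ _ _)) (fun n => (t n).sm.continuous.measurable)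
    (fun _ _ => mul_nonneg ct_mem.1 (en_nonneg _ _ _ _))
    (fun n => ⟨(t n).int X.G.F, h _ _ (sb_getD _ _ _ _)⟩) (((tend_θ X (P.sm_kd A).continuous
      (H.ik.integrable_of_forall_notMem_eq_zero z)).const_mul α).add_const β)
    fun x => tendsto_const_nhds.congr' ((ev_getD _).mono fun _ h =>
      congrArg (· * en X.G.F c X.K.τ x) h.symm)

variable (w : Wk N X c η) (hk : 1 ≤ k) (hq : Sml (fun T => k * sk T) q)
include hk hq

theorem Hy.p2 (hx : x ∈ U) : ‖c.m.p2 X.B x (c.m.Fg X.G.F c.W x)‖ ^ 2 ≤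
    192 * (dt X x ^ 2 * ‖(N.dg X.K).gA X.G.F c x‖ ^ 2) + 3 * (k⁻¹ * th X x ^ 2) + 3 * ‖ρ x‖ ^ 2 := by
  have h1 := sq3 ((N.q1 X.K : Pt _ _ _ r 0).C c x) ((qq N X q r 0).C c x) (ρ x)
  have h2 := pow_le_pow_left₀ (norm_nonneg _) (qq_cut (N := N) (c := c) hk hq x) 2
  have k0 : 0 ≤ k⁻¹ := inv_nonneg.2 (by linarith)
  have h3 := mul_le_mul_of_nonneg_right (mul_le_of_le_one_left k0 (inv_le_one_of_one_le₀ hk))
    (sq_nonneg (th X x))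
  rw [H.eq x hx]
  change ‖(N.q1 X.K : Pt _ _ _ r 0).C c x + (qq N X q r 0).C c x + ρ x‖ ^ 2 ≤ _
  linarith [q1_le (N := N) (c := c) x]

include w

theorem Hy.loc (hD : D.OK) (hδ : 0 < N.δ) (T : Sb X.K.p X.K.q a a') {t : ℝ}
    (l : LB X.G.F.μ (fun x => θc a a' (X.K.τ x) * eT N X c (X.K.τ x)) t) :
    3 / 4 * ∫ x, θc a a' (X.K.τ x) * en X.G.F c X.K.τ x ∂X.G.F.μ ≤
      8 * Real.pi ^ 2 * ∫ x, θc a a' (X.K.τ x) * c.m.kd X.B X.G.F c.W x ∂X.G.F.μ +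
        (η + 4 * k⁻¹ * t + 2 * ∫ x in U, ‖ρ x‖ ^ 2 ∂X.G.F.μ) := by
  have P := pn2 hD X
  have A := H.gd.adm
  have t := (T.tf (G := X.G)).ts
  have l1 : LB X.G.F.μ (fun x => -(θc a a' (X.K.τ x) *
      ⟪xA X.G.F c X.K.τ x, (N.dg X.K).gA X.G.F c x⟫_ℝ)) η :=
    ⟨(w.wk a a' T).1.neg, by rw [integral_neg]; linarith [(abs_le.1 (w.wk a a' T).2).1]⟩
  rw [← integral_const_mul]
  refine (((LB.mul ⟨(t.mul (P.sm_kd A)).int X.G.F, le_rfl⟩ (by positivity)).add ((l1.add (l.mul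
    (by positivity))).add (((Eps37.lb_ind_iff H.cl.2.measurableSet).2 H.lb).mul zero_le_two))).mono
    (g' := fun x => 3 / 4 * (θc a a' (X.K.τ x) * en X.G.F c X.K.τ x)) (continuous_const.mul (t.mul (P.sm_en A)).sm.continuous).aestronglyMeasurable
    (fun _ => mul_nonneg (by norm_num) (mul_nonneg ct_mem.1 (en_nonneg _ _ _ _))) fun x => ?_).2
  by_cases hx : θc a a' (X.K.τ x) = 0
  · simp [hx]
  have o := mem_O2 T hx
  have m := ct_mem (p := some a) (q := some a') (d := 3) (s := X.K.τ x)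
  have b := mul_le_mul_of_nonneg_left (pw_en hD A H.z o (H.eq x (H.mem zero_le_two o))) m.1
  have b1 := mul_le_mul_of_nonneg_left
    ((le_add_of_nonneg_left (sq_nonneg _)).trans (qq_le (n := 0) X hδ A hk hq x).2) m.1
  rw [indicator_of_mem (H.mem zero_le_two o)]
  linarith [mul_le_of_le_one_left (sq_nonneg ‖ρ x‖) m.2]

theorem Hy.en_le (hD : D.OK) (hδ : 0 < N.δ) {C C' : ℝ} (hE : ∀ ϖ b a a', Amb X.G.F ϖ →
      (∀ x, en X.G.F c X.K.τ x ≤ b) → Sb X.K.p X.K.q a a' →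
      LB X.G.F.μ (fun x => θc a a' (X.K.τ x) * eT N X c (X.K.τ x))
        (C * (∫ x, θc a a' (X.K.τ x) * en X.G.F c X.K.τ x ∂X.G.F.μ + b)))
    (hC : ∀ ϖ a, Amb X.G.F ϖ → LB X.G.F.μ (fun x => th X x * en X.G.F c X.K.τ x) a →
      LB X.G.F.μ (N.ew X.K c) (C' * a)) (h1 : k⁻¹ * C ≤ 1 / 16) (h2 : k⁻¹ * (vY D * C') ≤ 1 / 16) :
    LB X.G.F.μ (fun x => th X x * en X.G.F c X.K.τ x) (16 * Real.pi ^ 2 *
      ∫ x in U, th X x * c.m.kd X.B X.G.F c.W x ∂X.G.F.μ + 2 * η + 4 * ∫ x in U, ‖ρ x‖ ^ 2 ∂X.G.F.μ) := by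
  obtain ⟨ϖ, hϖ⟩ := H.amb
  obtain ⟨b, b0, hb⟩ := en_bdd H.gd H.z
  have i := (H.lim hD (α := 16 * Real.pi ^ 2) (β := 2 * η + b + 4 * ∫ x in U, ‖ρ x‖ ^ 2 ∂X.G.F.μ)
    fun a a' T => by
      have := mul_le_mul_of_nonneg_right h1 (add_nonneg (integral_nonneg (μ := X.G.F.μ) fun x =>
        mul_nonneg (ct_mem (p := some a) (q := some a') (d := 3) (s := X.K.τ x)).1
          (en_nonneg X.G.F c X.K.τ x)) b0)
      linarith [H.loc w hk hq hD hδ T (hE ϖ b a a' hϖ hb T)]).1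
  have := mul_le_mul_of_nonneg_right h2 (LB.nonneg ⟨i, le_rfl⟩ fun x =>
    mul_nonneg ct_mem.1 (en_nonneg _ _ _ _))
  have j := (H.lim hD (α := 4 / 3 * (8 * Real.pi ^ 2)) (β := 4 / 3 * (η + (∫ x, th X x *
    en X.G.F c X.K.τ x ∂X.G.F.μ) / 4 + 2 * ∫ x in U, ‖ρ x‖ ^ 2 ∂X.G.F.μ)) fun a a' T => by
      linarith [H.loc w hk hq hD hδ T (T.lb_eT hδ H.gd.adm (hC ϖ _ hϖ ⟨i, le_rfl⟩))]).2
  exact ⟨i, by linarith⟩

variable (hφ : Ph X φ v) (η0 : 0 < η)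
include hφ η0

theorem Hy.Y_le : LB (X.G.F.μ.restrict U) (fun x => (1 - th X x) * ‖c.m.Fg X.G.F c.W x‖ ^ 2)
    (1152 * (v * η) + 6 * (k⁻¹ * v) + 6 * ∫ x in U, ‖ρ x‖ ^ 2 ∂X.G.F.μ + 128 * Real.pi ^ 2 *
      (∫ x in U, c.m.kd X.B X.G.F c.W x ∂X.G.F.μ -
        ∫ x in U, th X x * c.m.kd X.B X.G.F c.W x ∂X.G.F.μ)) := by
  have A := H.gd.adm
  have k0 : 0 ≤ k⁻¹ := inv_nonneg.2 (by linarith)
  have l := lb_res (U := U) (w.cacc η0 hφ.ts hφ.l0 hφ.l1) fun _ => by positivity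
  refine (lb_mo (f := fun x => (1 - th X x) * ‖c.m.Fg X.G.F c.W x‖ ^ 2) H.cl.2.measurableSet ((((l.mul (by norm_num : (0 : ℝ) ≤ 384)).add
    (((lb_res hφ.l0 fun _ => sq_nonneg _).mul k0).mul (by norm_num : (0 : ℝ) ≤ 6))).add
    (H.lb.mul (by norm_num : (0 : ℝ) ≤ 6))).add (LB.mul (c := 128 * Real.pi ^ 2)
      ⟨Integrable.sub H.kd H.ik, (integral_sub H.kd H.ik).le⟩ (by positivity)))
    ((continuous_const.sub ct_th).mul (ct_F A)).aestronglyMeasurable (fun _ => mul_nonneg (sub_nonneg.2 ct_mem.2) (sq_nonneg _))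
    fun x hx => ?_).le (by linarith)
  have b := mul_le_mul_of_nonneg_left (H.p2 hk hq hx) (sub_nonneg.2 ct_mem.2 : 0 ≤ 1 - th X x)
  rw [norm_Fg_sq X.hG A.conn X.hB, Pi.sub_apply]
  linarith [mul_le_mul_of_nonneg_right (hφ.d x) (sq_nonneg ‖(N.dg X.K).gA X.G.F c x‖),
    mul_le_mul_of_nonneg_left (hφ.t x) k0, mul_nonneg (ct_mem.1 : 0 ≤ th X x) (sq_nonneg ‖ρ x‖)]

theorem Hy.f_le (hD : D.OK) {f : X.M → ℝ} {a₀ a₁ a₂ Y E : ℝ} (hf : Ts X.I univ f) (a0 : 0 ≤ a₀)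
    (h0 : ∀ x, f x ^ 2 ≤ a₀) (h1 : LB X.G.F.μ (fun x => f x ^ 2) a₁)
    (h2 : LB X.G.F.μ (fun x => ∑ i, X.G.F.D i f x ^ 2) a₂)
    (hY : LB (X.G.F.μ.restrict U) (fun x => (1 - th X x) * ‖c.m.Fg X.G.F c.W x‖ ^ 2) Y)
    (hE : LB X.G.F.μ (fun x => th X x * en X.G.F c X.K.τ x) E) :
    LB (X.G.F.μ.restrict U) (fun x => f x ^ 2 * ‖c.m.Fg X.G.F c.W x‖ ^ 2)
      (a₀ * (Y + 32 * E + 18 * ∫ x in U, ‖ρ x‖ ^ 2 ∂X.G.F.μ) + 1152 * (v * η) * (a₁ + 2 * a₂) +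
        18 * k⁻¹ * a₁) := by
  have A := H.gd.adm
  have k0 : 0 ≤ k⁻¹ := inv_nonneg.2 (by linarith)
  have v0 := hφ.l0.nonneg fun _ => sq_nonneg _
  have e0 : ∀ x, 0 ≤ th X x * en X.G.F c X.K.τ x := fun _ => mul_nonneg ct_mem.1 (en_nonneg _ _ _ _)
  have l := lb_res (U := U) (w.cacc η0 hf h1 h2) fun _ => by positivity
  refine (lb_mo (f := fun x => f x ^ 2 * ‖c.m.Fg X.G.F c.W x‖ ^ 2) H.cl.2.measurableSet (((((hY.add ((lb_res hE e0).mul (by norm_num : (0 : ℝ) ≤ 32))).add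
    (H.lb.mul (by norm_num : (0 : ℝ) ≤ 18))).mul a0).add (l.mul (by positivity : 0 ≤ 1152 * v))).add
    ((lb_res h1 fun _ => sq_nonneg _).mul (by positivity : 0 ≤ 18 * k⁻¹)))
    ((hf.sm.continuous.pow 2).mul (ct_F A)).aestronglyMeasurable (fun _ => by positivity) fun x hx => ?_).le (by linarith)
  have m : 0 ≤ th X x ∧ th X x ≤ 1 := ct_mem
  have g0 := sq_nonneg ‖(N.dg X.K).gA X.G.F c x‖
  have b1 : ‖c.m.p2 X.B x (c.m.Fg X.G.F c.W x)‖ ^ 2 ≤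
      192 * (v * ‖(N.dg X.K).gA X.G.F c x‖ ^ 2) + 3 * k⁻¹ + 3 * ‖ρ x‖ ^ 2 := by
    linarith [H.p2 hk hq hx, mul_le_mul_of_nonneg_right (hφ.b x) g0,
      mul_le_of_le_one_right k0 (pow_le_one₀ (n := 2) m.1 m.2)]
  have b2 : th X x * ‖c.m.Fg X.G.F c.W x‖ ^ 2 ≤
      6 * ‖c.m.p2 X.B x (c.m.Fg X.G.F c.W x)‖ ^ 2 + 32 * (th X x * en X.G.F c X.K.τ x) := by
    by_cases o : x ∈ O X.K 3
    · linarith [mul_le_mul_of_nonneg_left (Fin37.pn_F (pn2 hD X) A (O_mono X.K (by norm_num) o)) m.1,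
        mul_le_of_le_one_left (sq_nonneg ‖c.m.p2 X.B x (c.m.Fg X.G.F c.W x)‖) m.2]
    · rw [show th X x = 0 from cut_τ_zero X.K (by norm_num) o]; simp
  have b3 := mul_le_mul_of_nonneg_right (h0 x) (add_nonneg (add_nonneg (mul_nonneg (sub_nonneg.2 m.2)
    (sq_nonneg ‖c.m.Fg X.G.F c.W x‖)) (mul_nonneg (by norm_num : (0 : ℝ) ≤ 32) (e0 x)))
    (mul_nonneg (by norm_num : (0 : ℝ) ≤ 18) (sq_nonneg ‖ρ x‖)))
  linarith [mul_le_mul_of_nonneg_left b1 (sq_nonneg (f x)),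
    mul_le_mul_of_nonneg_left b2 (sq_nonneg (f x))]

omit H w hk hq hφ η0 in
/-- **CORE** -/
theorem core (et : EtStmt I3 Y κ lam) : CoreStmt I3 Y κ lam := fun D hD c₀ c0 => by
  obtain ⟨v, v1, vy, hv⟩ := exists_ph D
  have y0 := vY_nonneg D
  obtain ⟨η, η0, η1, η2⟩ : ∃ η > 0, v * (v * η) ≤ 1 / 4608 ∧ v * (v * η) ≤ c₀ / 4608 :=
    ⟨min 1 c₀ / 4608 / (v * v), by positivity, by
      rw [← mul_assoc, mul_div_cancel₀ _ (by positivity)]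
      exact ⟨by linarith [min_le_left 1 c₀], by linarith [min_le_right 1 c₀]⟩⟩
  refine ⟨η, η0, fun N hN K₀ => ?_⟩
  obtain ⟨C, C0, hC⟩ := et N D hD hN
  obtain ⟨C', C1, hC'⟩ := exists_ew hD hN
  have yc : 0 ≤ vY D * C' := by positivity
  have vc : 0 ≤ v / c₀ := by positivity
  obtain ⟨k, k1, k2, k3, k4, k5⟩ : ∃ k, 1 ≤ k ∧ k⁻¹ * v ≤ 1 ∧ k⁻¹ * C ≤ 1 / 16 ∧
      k⁻¹ * (vY D * C') ≤ 1 / 16 ∧ k⁻¹ * v ≤ c₀ / 72 := by
    have p : 0 < v + 16 * C + 16 * (vY D * C') + 72 * (v / c₀) := by positivity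
    refine ⟨v + 16 * C + 16 * (vY D * C') + 72 * (v / c₀), by linarith, ?_, ?_, ?_, ?_⟩ <;>
      rw [inv_mul_le_iff₀ p]
    iterate 3 linarith
    nlinarith [div_mul_cancel₀ v c0.ne', mul_nonneg c0.le yc, mul_nonneg c0.le C0]
  refine ⟨fun T => k * sk T, 1 / 30, max 0 (2 / c₀ * (8 * c₀ + 40 * c₀ * cA ^ 2 + 80 +
    640 * Real.pi ^ 2 * K₀)), by norm_num, fun ν q S r X c U ρ hq H w => ?_⟩
  obtain ⟨φ, hφ⟩ := hv S X
  have A := H.gd.adm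
  have hE := H.en_le w k1 hq hD hN.δ0 (fun ϖ b a a' => hC S r X c ϖ b a a' A)
    (fun ϖ a => hC' S r X c ϖ a A) k3 k4
  have hY := H.Y_le w k1 hq hφ η0
  have f := fun {f a₀ a₁ a₂} hf a0 h0 h1 h2 => H.f_le w k1 hq hφ η0 hD (f := f) (a₀ := a₀) (a₁ := a₁)
    (a₂ := a₂) hf a0 h0 h1 h2 ⟨hY.1, le_rfl⟩ ⟨hE.1, le_rfl⟩
  have Y0 := LB.nonneg ⟨hY.1, le_rfl⟩ fun _ => mul_nonneg (sub_nonneg.2 ct_mem.2) (sq_nonneg _)
  have E0 := LB.nonneg ⟨hE.1, le_rfl⟩ fun _ => mul_nonneg ct_mem.1 (en_nonneg _ _ _ _)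
  have P0 := H.lb.nonneg fun _ => sq_nonneg _
  have e1 := le_mul_of_one_le_left η0.le v1
  have e2 := le_mul_of_one_le_left (η0.le.trans e1) v1
  have ki : k⁻¹ ≤ 1 := inv_le_one_of_one_le₀ k1
  have hP := (H.fb.le (∫ x in U, (1 - th X x) * ‖c.m.Fg X.G.F c.W x‖ ^ 2 ∂X.G.F.μ + 32 *
    ∫ x, th X x * en X.G.F c X.K.τ x ∂X.G.F.μ + 18 * ∫ x in U, ‖ρ x‖ ^ 2 ∂X.G.F.μ + 36)
    (by positivity) fun g a hg h0 h1 h2 => by
      have a0 := h1.nonneg fun _ => sq_nonneg _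
      refine (f hg a0 h0 h1 h2).le ?_
      linarith [mul_le_mul_of_nonneg_right ki a0, mul_le_mul_of_nonneg_right (e2.trans η1) a0]).2
  have p9 : 9 < Real.pi ^ 2 := by nlinarith [Real.pi_gt_three]
  refine ⟨by_contra fun h => by nlinarith [hY.2, hE.2], fun a a' T hL h => ?_⟩
  have a0 := (le_max_left _ _).trans hL
  obtain ⟨ψ, t, l0, l1, hψ⟩ := win T (by linarith)
  have b := (lb_mo (f := fun x => θc a a' (X.K.τ x) * ‖c.m.Fg X.G.F c.W x‖ ^ 2)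
    H.cl.2.measurableSet (f t zero_le_one (fun x => (hψ x).1) (l0.le
    (mul_le_mul_of_nonneg_right vy a0)) (l1.le (mul_le_mul_of_nonneg_right vy (by positivity))))
    ((T.tf (G := X.G)).ts.sm.continuous.mul (ct_F A)).aestronglyMeasurable (fun _ => mul_nonneg ct_mem.1 (sq_nonneg _)) fun x _ =>
    mul_le_mul_of_nonneg_right (hψ x).2 (sq_nonneg _)).2
  rw [← setIntegral_eq_integral_of_forall_compl_eq_zero (s := U) fun x hx => by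
    rw [by_contra fun e => hx (H.mem zero_le_two (mem_O2 T e)), zero_mul]] at h
  have b1 := (div_le_iff₀' c0).1 ((mul_div_right_comm _ _ _).trans_le
    ((le_max_right _ _).trans hL))
  refine le_of_mul_le_mul_left ?_ (by positivity : 0 < 640 * Real.pi ^ 2)
  linarith [h.trans b, hY.2, hE.2, mul_le_mul_of_nonneg_right η2 a0, mul_le_mul_of_nonneg_right k5 a0,
    mul_le_mul_of_nonneg_right η2 (sq_nonneg cA)]

end Crest.Agent.X212.Lw78.En
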