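import Crest.Agent.X212.Dgr80.En1
import Crest.Agent.X212.Eps37.Job
import Crest.Agent.X212.Nd18.Props

/-!
# Row 212, EN18 (helper78): pieces without spinor at a neck with terms.  STATEMENTS
-/

set_option autoImplicit false
set_option linter.unusedSectionVars false
noncomputable section
open scoped Manifold ContDiff Topology InnerProductSpace
open MeasureTheory Set Function Filter

namespace Crest.Agent.X212.Lw78.En
open An Nd18 Cyf70 Dgr80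
open Mp86 (NK DB Dom)

section gen
variable {E : Type} [NormedAddCommGroup E] [NormedSpace ℝ E] [FiniteDimensional ℝ E]
  [MeasurableSpace E] [BorelSpace E]
  {HM : Type} [TopologicalSpace HM] {I : ModelWithCorners ℝ E HM}
  {M : Type} [TopologicalSpace M] [ChartedSpace HM M] [IsManifold I ∞ M]
  [MeasurableSpace M] [T2Space M] [BorelSpace M] {ι lam : Type} [Fintype ι] [Fintype lam] {r : ℕ}
  (F : Fr I M ι) (c : Cfg M ι lam r) (O : Set M)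

/-- the curvature seen by test functions of size `a` is at most `a * D` over `O` -/
def Sd (D : ℝ) : Prop := ∀ (f : M → ℝ) (a : ℝ), Ts I univ f → (∀ x, f x ^ 2 ≤ a) →
  LB F.μ (fun x => f x ^ 2) a → LB F.μ (fun x => ∑ i, F.D i f x ^ 2) a →
  LB (F.μ.restrict O) (fun x => f x ^ 2 * ‖c.m.Fg F c.W x‖ ^ 2) (a * D)

/-- a small field term -/
structure Fb (ρ : M → Fm (ι × ι) c.m.A) (ε : ℝ) : Prop where
  int : Integrable (fun x => ‖ρ x‖ ^ 2) F.μ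
  le : ∀ D, 0 ≤ D → Sd F c O D → LB (F.μ.restrict O) (fun x => ‖ρ x‖ ^ 2) (ε ^ 2 * D)

end gen

section nk
variable {E3 : Type} [NormedAddCommGroup E3] [NormedSpace ℝ E3] [FiniteDimensional ℝ E3]
  [MeasurableSpace E3] [BorelSpace E3]
  {H3 : Type} [TopologicalSpace H3] {I3 : ModelWithCorners ℝ E3 H3} [I3.Boundaryless]
  {Y : Type} [TopologicalSpace Y] [ChartedSpace H3 Y] [IsManifold I3 ∞ Y] [T2Space Y]
  [MeasurableSpace Y] [BorelSpace Y] [SecondCountableTopology Y] [CompactSpace Y]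
  {κ : Type} [Fintype κ] {lam : Type} [Fintype lam] {D : YD I3 Y κ lam} {S : ℝ} {r : ℕ}

/-- the text of `Nd18.SmI` -/
def SmJ (N : ND Y lam) (R : YDen Y → ℝ) : Prop := ∃ p : N.J0 → ℝ,
  (∀ x : N.J0 → ℝ, (∀ j u v, N.d0 j = .sw u v → x j = 0) → N.φ (x, 0) = ∑ j, p j * x j) ∧
    ∑ j, |p j| * R (N.d0 j) ≤ 1

/-- the gradient term is `η`-small at `c` -/
structure Wk (N : ND Y lam) (X : NK D S) (c : Cfg X.M (Option κ) lam r) (η : ℝ) : Prop where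
  dom : Dom X.G.F η fun x => ‖(N.dg X.K).gA X.G.F c x‖ ^ 2
  ct : Continuous ((N.dg X.K).gA X.G.F c)
  wk : ∀ a a', Sb X.K.p X.K.q a a' → Integrable (fun x => θc a a' (X.K.τ x) *
    ⟪xA X.G.F c X.K.τ x, (N.dg X.K).gA X.G.F c x⟫_ℝ) X.G.F.μ ∧
    |∫ x, θc a a' (X.K.τ x) * ⟪xA X.G.F c X.K.τ x, (N.dg X.K).gA X.G.F c x⟫_ℝ ∂X.G.F.μ| ≤ η

/-- a connection whose self-dual curvature is `N.pt K q + ρ` on the clopen set `O` -/
structure Hy (N : ND Y lam) (q : YW I3 Y →₀ ℝ) (X : NK D S) (c : Cfg X.M (Option κ) lam r)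
    (O : Set X.M) (ρ : X.M → Fm (Option κ × Option κ) c.m.A) (ε : ℝ) : Prop where
  gd : Gd X.B X.G c
  amb : ∃ ϖ, Amb X.G.F ϖ
  z : ∀ x, c.Φ x = 0
  cl : IsClopen O
  sub : X.K.ψ.target ⊆ O
  eq : ∀ x ∈ O, c.m.p2 X.B x (c.m.Fg X.G.F c.W x) = (N.pt X.K q : Pt _ _ _ r 0).C c x + ρ x
  fb : Fb X.G.F c O ρ ε
  kd : IntegrableOn (c.m.kd X.B X.G.F c.W) O X.G.F.μ

variable (I3 Y κ lam)

/-- **BS**: the base fields are bounded independently of the ambient manifold -/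
def BsStmt : Prop := ∀ D : YD I3 Y κ lam, D.OK → ∀ f f' : Y → ℝ, Cyc79.Sep D.F.toPre f f' →
  ∃ k, ∀ (S : ℝ) (X : NK D S) (ν : Type) [Fintype ν] [DecidableEq ν]
    (A : Option κ → X.M → En ν) (p : X.M → En ν), Cyc79.Pq X.G.F A p → ∀ z,
      ‖Cyc79.bs X.G.F A p (X.K.ext f) (X.K.ext f') z‖ ≤ k ∧
      ‖Cyc79.bs X.G.F A p (X.K.ext f') (X.K.ext f) z‖ ≤ k

/-- **LOC** (from BS): `Mp86.db_dg` and `Dgr80.tr_dg` for `cy` densities, with `k` before `S` -/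
def LocStmt : Prop := ∀ D : YD I3 Y κ lam, D.OK → ∀ d w d' w', (YDen.cy d w d' w').OK D.F →
  ∃ k, ∀ (S : ℝ) (r : ℕ) (X : NK D S), DB (r := r) X.B X.G (X.K.den (.cy d w d' w')) k ∧
    TrX r X (X.K.den (.cy d w d' w')) k

/-- **WK** (from LOC): without spinor the gradient term is small -/
def WkStmt : Prop := ∀ D : YD I3 Y κ lam, D.OK → ∀ η > 0, ∃ R : YDen Y → ℝ, ∀ N : ND Y lam,
  N.OK D → SmJ N R → ∀ ν, |ν| ≤ 1 → ∀ (S : ℝ) (r : ℕ) (X : NK D S)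
    (c : Cfg X.M (Option κ) lam r), Gd X.B X.G c → (∀ x, c.Φ x = 0) → Wk (N.smul ν) X c η

/-- **ET**: the smoothed energy in a window, for bounded energy density -/
def EtStmt : Prop := ∀ (N : ND Y lam) (D : YD I3 Y κ lam), D.OK → N.OK D → ∃ C, 0 ≤ C ∧
  ∀ (S : ℝ) (r : ℕ) (X : NK D S) (c : Cfg X.M (Option κ) lam r) ϖ b a a', c.Adm X.B X.G →
    Amb X.G.F ϖ → (∀ x, en X.G.F c X.K.τ x ≤ b) → Sb X.K.p X.K.q a a' →
    LB X.G.F.μ (fun x => θc a a' (X.K.τ x) * eT N X c (X.K.τ x))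
      (C * (∫ x, θc a a' (X.K.τ x) * en X.G.F c X.K.τ x ∂X.G.F.μ + b))

/-- **SL**: connections with a parallel line have much curvature on long windows -/
def SlStmt : Prop := ∀ (D : YD I3 Y κ lam) (c₀ : ℝ), 0 ≤ c₀ → (∀ β : YC Y κ lam, D.Adm β → D.Ln β →
    c₀ ≤ ∫ y, ‖(cy β).m.Fg D.Z (cy β).W (y, 0)‖ ^ 2 ∂D.F.μ) →
  ∀ (S : ℝ) (X : NK D S) (c : Cfg X.M (Option κ) lam 0) (O : Set X.M) a a', c.Adm X.B X.G →
    IsOpen O → X.K.ψ.target ⊆ O → Lin X.G.F c O → Sb X.K.p X.K.q a a' →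
    c₀ * (a' - a - 8) ≤ ∫ x, θc a a' (X.K.τ x) * ‖c.m.Fg X.G.F c.W x‖ ^ 2 ∂X.G.F.μ

/-- **CORE** (from ET) -/
def CoreStmt : Prop := ∀ D : YD I3 Y κ lam, D.OK → ∀ c₀ > 0, ∃ η > 0, ∀ N : ND Y lam, N.OK D →
  ∀ K₀ : ℝ, ∃ (sz : YW I3 Y → ℝ) (ε L : ℝ), 0 < ε ∧ ∀ ν q (S : ℝ) (r : ℕ) (X : NK D S)
    (c : Cfg X.M (Option κ) lam r) O ρ, Sml sz q → Hy (N.smul ν) q X c O ρ ε →
    Wk (N.smul ν) X c η → -1 / 16 ≤ ∫ x in O, c.m.kd X.B X.G.F c.W x ∂X.G.F.μ ∧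
      ∀ a a', Sb X.K.p X.K.q a a' → L ≤ a' - a → c₀ * (a' - a - 8) ≤
        ∫ x, θc a a' (X.K.τ x) * ‖c.m.Fg X.G.F c.W x‖ ^ 2 ∂X.G.F.μ →
        K₀ ≤ ∫ x in O, c.m.kd X.B X.G.F c.W x ∂X.G.F.μ

end nk

section job
open M
variable {Wi : Type} {X : Mf 4} {A κ lam : Type} [Fintype A] [Fintype κ] [Fintype lam]
  [DecidableEq lam] {M : Mark X A κ} {W : World M} {N : ML M lam}
  {Λ : Lns W N} {A' h : Type} [Fintype A'] [DecidableEq A'] [Fintype h] {r n : ℕ}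
  (J : Job Wi Λ A' h r n)

/-- **FLD**: the field terms of a job on a clopen set without spinor -/
def FldStmt : Prop := J.OK → (∀ w, Wrd81.Bas (J.tw w)) → ∀ ε > 0, An.Sml fun Adm => ∀ q, Adm q →
  ∀ c s, Fin37.Pm J c s → ∀ (x : Cfg (W.Z c).M (Option κ) (lam ⊕ lam) r) (O : Set (W.Z c).M),
    x.Adm (J.B c) (J.G c s) → IsClopen O → (∀ z ∈ O, x.Φ z = 0) →
      Fb (J.G c s).F x O ((Fin37.fld J c q s).C x) ε

end job

end Crest.Agent.X212.Lw78.En
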