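import Crest.Agent.X212.Lw78.EnC
import Crest.Agent.X212.Hp13.Fld
import Crest.Agent.X212.Sw88.Lip
import Crest.Agent.X212.Wrd81.Trf
import Crest.Agent.X212.Nd18.Gj

/-!
# Row 212, EN18 (helper78): from necks to jobs
-/

set_option autoImplicit false
set_option linter.unusedSectionVars false
noncomputable section
open scoped Manifold ContDiff Topology InnerProductSpace
open MeasureTheory Set Function Filter

namespace Crest.Agent.X212.Lw78.En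
open An An.Job M Nd18 Cyf70 Dgr80 Cht98 Eqv71
open Fin37 (Pm fld nk nX L4U)

section nk
variable {E3 : Type} [NormedAddCommGroup E3] [NormedSpace ℝ E3] [FiniteDimensional ℝ E3]
  [MeasurableSpace E3] [BorelSpace E3]
  {H3 : Type} [TopologicalSpace H3] {I3 : ModelWithCorners ℝ E3 H3} [I3.Boundaryless]
  {Y : Type} [TopologicalSpace Y] [ChartedSpace H3 Y] [IsManifold I3 ∞ Y] [T2Space Y]
  [MeasurableSpace Y] [BorelSpace Y] [SecondCountableTopology Y] [CompactSpace Y]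
  {κ : Type} [Fintype κ] {lam : Type} [Fintype lam]

/-- the result on a neck -/
def NkD (D : YD I3 Y κ lam) (N : ND Y lam) (K₀ L : ℝ) : Prop :=
  ∃ (sz : YW I3 Y → ℝ) (ε : ℝ), 0 < ε ∧ ∀ ν q (S : ℝ) (X : Mp86.NK D S)
    (c : Cfg X.M (Option κ) lam 0) O ρ, |ν| ≤ 1 → Sml sz q → Hy (N.smul ν) q X c O ρ ε →
      -1 / 16 ≤ ∫ x in O, c.m.kd X.B X.G.F c.W x ∂X.G.F.μ ∧ (Lin X.G.F c O →
        (∃ a a', Sb X.K.p X.K.q a a' ∧ L ≤ a' - a) → K₀ ≤ ∫ x in O, c.m.kd X.B X.G.F c.W x ∂X.G.F.μ)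

theorem nkD (co : CoreStmt I3 Y κ lam) (wk : WkStmt I3 Y κ lam) (sl : SlStmt I3 Y κ lam)
    {D : YD I3 Y κ lam} (hD : D.OK) {c₀ : ℝ} (c0 : 0 < c₀) (h : ∀ β : YC Y κ lam, D.Adm β → D.Ln β →
      c₀ ≤ ∫ y, ‖(cy β).m.Fg D.Z (cy β).W (y, 0)‖ ^ 2 ∂D.F.μ) :
    ∃ R, ∀ N : ND Y lam, N.OK D → SmJ N R → ∀ K₀, ∃ L, NkD D N K₀ L := by
  obtain ⟨η, η0, co⟩ := co D hD c₀ c0
  obtain ⟨R, wk⟩ := wk D hD η η0
  refine ⟨R, fun N hN hs K₀ => ?_⟩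
  obtain ⟨sz, ε, L, ε0, co⟩ := co N hN K₀
  refine ⟨L, sz, ε, ε0, fun ν q S X c O ρ hν hq H => ?_⟩
  have k := co ν q S 0 X c O ρ hq H (wk N hN hs ν hν S 0 X c H.gd H.z)
  exact ⟨k.1, fun l ⟨a, a', T, e⟩ =>
    k.2 a a' T e (sl D c₀ c0.le h S X c O a a' H.gd.adm H.cl.2 H.sub l T)⟩

end nk

variable {Wi : Type} {X : Mf 4} {A κ lam : Type} [Fintype A] [Fintype κ] [Fintype lam]
  [DecidableEq lam] {M : Mark X A κ} {W : World M} {N : ML M lam}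
  {Λ : Lns W N} {A' h : Type} [Fintype A'] [DecidableEq A'] [Fintype h] {r n : ℕ}
  {J : Job Wi Λ A' h r n} {c : M.Cl} {s : A' → ℝ} {π : Reg A} {z : (W.Z c).M} {a : A}

/-- only one neck with terms is seen -/
theorem tau_one (i : Fin37.Ix J c s) (hn : ∀ j (hj : J.Ac c s j), j ≠ i.1 →
    z ∈ (J.K c j.1 j.2 _ hj).ψ.target → Nl J j.1) (q : Wi →₀ ℝ)
    (x : Cfg (W.Z c).M (Option κ) (lam ⊕ lam) r) :
    (J.τ c q s).C x z = (((J.xs i.1.1).N.smul (J.ν i.1.1 s)).pt (nk J i)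
      (J.ν i.1.1 s • (J.xs i.1.1).q q) : Pt _ _ _ r n).C x z + (fld J c q s).C x z := by
  classical
  have a : (J.τ0 c s).C x z =
      (((J.xs i.1.1).N.smul (J.ν i.1.1 s)).q1 (nk J i) : Pt _ _ _ r n).C x z :=
    (Finset.sum_eq_single i.1 (fun j _ e => dite_eq_right_iff.2 fun hj => by
      by_cases k : z ∈ (J.K c j.1 j.2 _ hj).ψ.target
      · beta_reduce; rw [((hn j hj e k).1.smul _).q1]; rfl
      · exact (van0_q1 _ _).C x z k) (by simp)).trans (dif_pos i.2)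
  have b : ∀ w, (Pt.dsum (J.Ac c s) fun j hj => fsum (fun T => (J.xs j.1).N.q2
      (J.K c j.1 j.2 _ hj) T.1) (J.ν j.1 s • (J.xs j.1).ty w) : Pt _ _ _ r n).C x z =
      (fsum (fun T => (J.xs i.1.1).N.q2 (nk J i) T.1) (J.ν i.1.1 s • (J.xs i.1.1).ty w) :
        Pt _ _ _ r n).C x z := fun w =>
    (Finset.sum_eq_single i.1 (fun j _ e => dite_eq_right_iff.2 fun hj => by
      by_cases k : z ∈ (J.K c j.1 j.2 _ hj).ψ.target
      · beta_reduce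
        rw [(hn j hj e k).2, Pi.zero_apply, smul_zero, Ink3.fsum_zero]; rfl
      · exact (van0_fsum (τ := fun T : YW _ _ => (J.xs j.1).N.q2 (J.K c j.1 j.2 _ hj) T.1)
          (fun _ => van0_q2 _ _ _) _).C x z k) (by simp)).trans (dif_pos i.2)
  have e : ∀ T, (((J.xs i.1.1).N.smul (J.ν i.1.1 s)).q2 (nk J i) T : Pt _ _ _ r n) =
      (J.xs i.1.1).N.q2 (nk J i) T := fun T => by cases T <;> rfl
  simp only [Job.τ, ND.pt, Pt.add, a, e, fld, Xs.q]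
  simp only [fsum] at b ⊢
  simp only [Job.τw, Pt.add, fsum, b, Fin37.fsum_q, smul_add, Finsupp.sum_add]
  rw [add_assoc, add_comm (Finsupp.sum _ _)]

variable (hJ : J.OK) (hπ : M.sys.Piece c.1 π)
include hJ hπ

theorem meet2 {b : Option Bool} {p : Prm A} (ha : Act J.m c a b p)
    (h1 : z ∈ (J.K c a b p ha).ψ.target) (h2 : z ∈ W.pc c π) : π a = b := by
  cases b with
  | none => exact by_contra fun e => ha.2.2.2.2.1.1 (hπ.bd_subset e)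
  | some b =>
    have := M.con
    obtain ⟨π', h3, h4⟩ := (Sys.existsUnique_adj c.2 ha.2.2.2 b).exists
    have h5 := hJ.end_sub ha (P := {π'}) (fun _ e => e ▸ h3) ⟨π', rfl, h4⟩ h1
    rw [un_one] at h5
    exact Cyl58.pc_unique _ h3 hπ h5 h2 ▸ h4

/-- the neck of `a` in the piece -/
theorem act {L : ℝ} (p : Pm J c s) (hp : ¬M.pin a) (hm : a ∈ J.m.1) (h0 : 1 / 2 ≤ (J.Θ s).2 a)
    (hL : (J.Θ s).2 a ≠ 1 → L ≤ nl ((J.Θ s).2 a)) (h : a ∈ M.sys.inn π ∨ π a ≠ none) :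
    ∃ (b : Option Bool) (ha : Act J.m c a b (J.Θ s)), π a = b ∧
      (J.K c a b _ ha).ψ.target ⊆ W.pc c π ∧
      ∃ t t', Sb (J.K c a b _ ha).p (J.K c a b _ ha).q t t' ∧ L ≤ t' - t := by
  obtain ⟨σ, hσ, h1, h2⟩ := p
  have br := hJ.memBr hσ ⟨J.cl_dom h1, h2⟩
  have o := hJ.memO hσ ⟨J.cl_dom h1, h2⟩
  rcases e : π a with _ | b
  · have i := h.resolve_right (not_not.2 e)
    have n : a ∉ c.1 := fun k => hπ.not_inn a k i
    have f : a ∈ M.sys.fr c.1 := ⟨n, fun a' k => br.1.2 (show _ ≠ _ by linarith)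
      (Sys.inf_subset _ (br.2 k)) fun e => n (e ▸ k)⟩
    have ha : Act J.m c a none (J.Θ s) := ⟨hp, br, o, hm, f, h0⟩
    have k := hJ.nk _ _ _ _ ha
    refine ⟨_, ha, rfl, fun z hz => ?_, 0, nl ((J.Θ s).2 a), by simp [Dgr80.Sb, k.lo, k.hi],
      by simpa using hL fun e => n (h2.le e)⟩
    obtain ⟨y, hy, rfl⟩ := (J.K c a none _ ha).ψ.toPartialEquiv.surjOn hz
    exact (congrArg (· ∈ W.pc c π) (isNk_ψ ha k ((J.K c a none _ ha).mem_src.1 hy))).mpr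
      ((Cyl58.φ_mem_pc W.toCaps hπ (Mark.fr_not_mem f ⟨_, rfl⟩)).2 (i.2.1 ⟨_, rfl⟩))
  · have ha : Act J.m c a (some b) (J.Θ s) := ⟨hp, br, o, hπ.bd_subset (Sys.mem_bd_of e)⟩
    have k := hJ.nk _ _ _ _ ha
    refine ⟨_, ha, rfl, (hJ.end_sub ha (P := {π}) (fun _ e => e ▸ hπ) ⟨π, rfl, e⟩).trans
      (un_one _ _ _).le, ?_⟩
    cases b
    · exact ⟨0, L, by simp [Dgr80.Sb, k.lo, k.hi], by simp⟩
    · exact ⟨-L, 0, by simp [Dgr80.Sb, k.lo, k.hi], by simp⟩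

/-- bounded representatives over a piece without spinor -/
theorem lit {σ : Cel A'} (hσ : σ ∈ J.𝒦) {p : Prt A A' h} {q : Wi →₀ ℝ} {y : J.Obc c}
    (S : SolOn p σ q y) (e : p.P = {π}) (h0 : ∀ z, y.x.Φ z = 0) :
    ∃ (x : Cfg (W.Z c).M (Option κ) (lam ⊕ lam) r) (u : (W.Z c).M → CL y.x.m.V x.m.V),
      Gd (J.B c) (J.G c y.s) x ∧ Tmp64.Eq0 (J.G c y.s).F y.x x (W.pc c π) u ∧
        ∀ z, x.Φ z = u z (y.x.Φ z) :=
  have en : ∀ {a b}, π a = some b → p.En a b := fun k => ⟨π, e.ge rfl, k⟩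
  Sw88.Lip.litO (jEnds (θ := fun _ : ℝ => y.s) hJ (hJ.memBr hσ S.ov) (hJ.memO hσ S.ov)
    contDiff_const isClopen_univ isClopen_univ subset_rfl dl0_pos le_rfl)
    (Cyl58.isClopen_pc W.toCaps hπ) S.adm (fun z _ => h0 z)
    (Ac := fun i : cylW c × Bool => π i.1 = some i.2)
    (fun i k => (hJ.end_sub _ (P := {π}) (fun _ e => e ▸ hπ) ⟨π, rfl, k⟩).trans (un_one _ _ _).le)
    (fun _ k _ h1 h2 => k (meet2 hJ hπ _ h1 h2)) (β₀ := fun i : cylW c × Bool => y.β i.1 i.2)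
    (ζ := fun i : cylW c × Bool => y.ζ i.1 i.2) fun i k =>
      ⟨⟨(S.crit _ i.1.2 _ (en k)).sol.toAdm, (S.crit _ i.1.2 _ (en k)).tmp⟩, by
        obtain ⟨a, _ | _⟩ := i
        exacts [S.lim _ false _ (en k), S.lim _ true _ (en k)]⟩

omit hJ hπ in
/-- **from the neck to the job** -/
theorem nk_job {K₀ L : ℝ} (hJ : J.OK) (bs : ∀ w, Wrd81.Bas (J.tw w)) (l4 : L4U J)
    (am : ∀ c s, Pm J c s → ∃ ϖ, Amb (J.G c s).F ϖ) (nil : ∀ x ≠ a, Nl J x) (hp : ¬M.pin a)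
    (hm : a ∈ J.m.1) (hν : ∀ s, |J.ν a s| ≤ 1) (hΘ : ∀ c s, Pm J c s → 1 / 2 ≤ (J.Θ s).2 a ∧
      ((J.Θ s).2 a ≠ 1 → L ≤ nl ((J.Θ s).2 a))) (H : NkD (J.xs a).D (J.xs a).N K₀ L) :
    An.Sml fun Adm => NK J Adm K₀ := by
  obtain ⟨sz, ε, ε0, H⟩ := H
  obtain ⟨S₀, -, l4⟩ := l4
  have hZ := hJ.noz
  refine ((Hp13.Fld.fld J.noz hZ (fun w => bas_noz (bs w)) ε ε0).and
    (Fin37.sml_q sz (J.xs a).ty 1)).mono fun Adm ⟨h1, h2⟩ σ hσ c p π q y hq e e' hπ S ⟨a', k, k'⟩ => ?_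
  obtain rfl : a' = a := by_contra fun e => k' (nil _ e)
  have pm : Pm J.noz c y.s := ⟨σ, hσ, S.cell, S.inf⟩
  have h0 : ∀ z, y.x.Φ z = 0 := fun z => S.off z (by simp [e', Caps.un])
  have hO := Cyl58.isClopen_pc W.toCaps hπ
  have un : W.un c p.P = W.pc c π := e ▸ un_one _ _ _
  obtain ⟨b, ha, eb, sub, win⟩ := act hZ hπ pm hp hm (hΘ c _ pm).1 (hΘ c _ pm).2 k
  obtain ⟨x, u, x1, x2, x3⟩ := lit hZ hπ hσ S e h0
  have x0 : ∀ z, x.Φ z = 0 := fun z => by rw [x3, h0, map_zero]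
  have g := hZ.kt hσ S.ov hO
  have cr : CR0 _ _ _ _ _ (W.pc c π) _ _ _ y.x x u 1 := ⟨ad0 S.adm, ad0 x1.adm, fun z _ => h0 z,
    fun z _ => x0 z, x2.cEq g.hB ((Tmp64.admOn_univ.2 S.adm).mono (subset_univ _))
      ((Tmp64.admOn_univ.2 x1.adm).mono (subset_univ _))⟩
  have l := cr.lm g.toKC
  have ek : ∫ z in W.pc c π, x.m.kd (J.B c) (J.G c y.s).F x.W z ∂(J.G c y.s).F.μ =
      y.kap (W.pc c π) := setIntegral_congr_fun hO.2.measurableSet fun z hz => l.kd hz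
  refine (H _ _ S₀ (nX hZ l4 pm ⟨(a', b), ha⟩) x _ _ (hν y.s) (h2 q hq _ (hν y.s))
    ⟨x1, am c _ pm, x0, hO, sub, fun z hz => ?_, h1 q hq c _ pm x _ x1.adm hO fun z _ => x0 z,
      (un ▸ S.int).congr_fun (fun z hz => (l.kd hz).symm) hO.2.measurableSet⟩).imp
    (·.trans_eq ek) fun key t => t.symm.imp_right fun t =>
      (key (Wrd81.lm_lin l (inv_refl hO.2) t) win).trans_eq ek
  have k := ((hZ.τ_nat hσ S.ov hO q).eC g.toLG cr hz).trans (by rw [S.C z (un.ge hz), map_zero])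
  rw [id, Cfg.eC, tau_one ⟨(a', b), ha⟩ (fun j hj e k => nil _ fun e' => e (by
    obtain ⟨j, b'⟩ := j
    obtain rfl : j = a' := e'
    exact Prod.ext rfl ((meet2 hZ hπ hj k hz).symm.trans eb))), x0, sub_eq_zero] at k
  refine .trans ?_ k
  simp [Md.mu, Md.q, rk1, ← Pi.zero_def]

end Crest.Agent.X212.Lw78.En
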