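import Crest.Agent.X212.Lw78.Gw

/-!
# Row 212, EN-SLF and EN-LW1 (helper78): estimates in Coulomb gauge without time derivatives
-/

set_option autoImplicit false
set_option linter.unusedSectionVars false
noncomputable section
open scoped Manifold ContDiff Topology InnerProductSpace
open MeasureTheory Set Function Filter

namespace Crest.Agent.X212.Lw78
open An An.Pre Sob92 Ell97 Map77 Cyf70 Sw Sw.En3 Sep15.S Dl23
open Win45 (FY FZ)

variable {κ lam ν : Type} [Fintype κ] [Fintype lam] [Fintype ν] [DecidableEq ν] {X : Type} {p j i : ℕ}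

section gen
variable {E : Type} [NormedAddCommGroup E] [NormedSpace ℝ E] [FiniteDimensional ℝ E]
  [MeasurableSpace E] [BorelSpace E]
  {HM : Type} [TopologicalSpace HM] {I : ModelWithCorners ℝ E HM} [I.Boundaryless]
  {M : Type} [TopologicalSpace M] [ChartedSpace HM M] [IsManifold I ∞ M]
  [MeasurableSpace M] [T2Space M] [BorelSpace M] [SecondCountableTopology M]
  {nc : ℕ} {b : Bg I M κ lam ν nc} (hb : b.OK) {w : Wn b.F.toPre X} {c : X → Sw.Cfg M κ ν}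
  (hc : ∀ d, b.Adm (c d)) {s : κ → Option κ}

theorem eD_smul (c : Sw.Cfg M κ ν) {f : M → ℝ} {x : M} (hf : Wz78.SA I f x) (h : Wz78.SA I c.Φ x) :
    b.eD ⟨c.a, fun y => f y • c.Φ y⟩ x = ∑ i, b.F.D i f x • b.m.ρ i x (c.Φ x) + f x • b.eD c x := by
  change ∑ i, b.m.ρ i x (Wz78.nab I b.F.e (b.W c) i (fun y => f y • c.Φ y) x) + b.ms x _ = _
  simp only [Bg.eD, Wz78.dir, Wz78.nab_smul _ hf h, map_add, map_smul, Finset.sum_add_distrib,
    Finset.smul_sum, smul_add, add_assoc, D_def]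

include hb

theorem cb_J (t : Option κ × Option κ) : b.F.Cb fun x => b.m.J * (b.m.ρ t.1 x * b.m.ρ t.2 x) :=
  Cb_clm (ContinuousLinearMap.mul ℝ _ b.m.J) (Cb_bil (.mul ℝ _) (hb.cρ _) (hb.cρ _))

theorem cb_ρ (t : Option κ) : b.F.Cb fun x => b.m.ρ t x * b.jp x :=
  Cb_bil (.mul ℝ _) (hb.cρ t) (cb_jp hb)

theorem cb_l : b.F.Cb fun x => ∑ i, b.m.ρ i x * b.A i x + b.ms x :=
  Cb_add (Cb_sum Finset.univ fun i _ => Cb_bil (.mul ℝ _) (hb.cρ i) (hb.cA i)) hb.cms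

theorem qd0 (h0 : w.Jt 0 1 fun d => (c d).Φ) : w.Jt 0 1 fun d x => b.qd x ((c d).Φ x) ((c d).Φ x) :=
  .pi fun t => (Wn.Jt.cb (Cb_const (1 / 8 : ℝ))).smul
    (.bil (innerSL ℝ) (holL 0) ((Wn.Jt.cb (cb_J hb t)).app h0) h0)

theorem qd1 (h0 : w.Jt 0 1 fun d => (c d).Φ) (h : w.Sj s 2 2 i fun d => (c d).Φ) :
    w.Sj s 2 1 (i + 1) fun d x => b.qd x ((c d).Φ x) ((c d).Φ x) :=
  let ⟨_, hF⟩ := hb.tame
  .pi fun t => (Wn.Sj.cb (Cb_const (1 / 8 : ℝ))).smul (.alg hF (innerSL ℝ)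
    ((Wn.Jt.cb (cb_J hb t)).app h0) h0 ((Wn.Sj.cb (cb_J hb t)).app h) h)

include hc

theorem pa (d : X) (i : Option κ) (x : M) : ∑ k, b.F.P i k x * (c d).a k x = (c d).a i x :=
  ((show b.F.P = b.B.P from hb.G.P) ▸ (hc d).pa) i x

theorem hop (hd : w.On fun d x => dv1 b.F (c d).a x = 0) (k : w.Sj s p j i fun d => b.eC (c d))
    (k' : w.Sj s p j i fun d x => b.qd x ((c d).Φ x) ((c d).Φ x)) :
    w.Sj s p j i fun d => (dOp b.F b.B.o).app b.F (fm (c d).a) := by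
  obtain ⟨_, hF⟩ := hb.tame
  obtain ⟨_, hA⟩ := good_d hF (vol4 hb) hb.co
  have P := Wn.Sj.cb (w := w) (s := s) (p := 0) (j := j) (i := i) (cb_p2 hb)
  refine .congr (.clm (i2 ℝ _) (((k.add (.cb hb.com)).add (P.app ((Wn.Sj.cb (Cb_const b.w)).smul
    k'))).sub (P.app (.cb (cb_fc hb))))) (fun d => sm_op (fun a => (hA.σ a).1) hA.B.1
    (sm_fm (hc d).sa)) fun r hr d x hx => ?_
  beta_reduce
  rw [app_d hF (hc d).sa (pa hb hc d), hd r hr d x hx, map_zero, zero_add, ← p2_eq hb,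
    Bg.eC, fc_da hb (hc d).sa, map_sub (b.p2 x), map_add (b.p2 x)]
  congr 1; abel

theorem sA (ha : w.Jt 2 1 fun d => fm (c d).a)
    (k : w.Sj s 2 1 i fun d => (dOp b.F b.B.o).app b.F (fm (c d).a)) :
    w.Sj s 2 2 i fun d => fm (c d).a :=
  let ⟨_, hF⟩ := hb.tame
  let ⟨_, hA⟩ := good_d hF (vol4 hb) hb.co
  .ell hF hA (cliff_d (vol4 hb)) (fun d x => q1_fm (pa hb hc d · x)) ha k

theorem sT (h1 : ∀ x, b.F.P none none x = 1)
    (k0 : w.Jt 0 1 fun d => (dOp b.F b.B.o).app b.F (fm (c d).a))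
    (k : w.Sj some 2 2 1 fun d => fm (c d).a) : ∃ B : X → M → Fm (Option κ) ℝ, w.Jt 0 1 B ∧
      w.Jt 2 2 fun d x => b.F.D none (fm (c d).a) x - B d x :=
  let ⟨_, hF⟩ := hb.tame
  let ⟨_, hA⟩ := good_d hF (vol4 hb) hb.co
  Wn.Jt.dt hA (cliff_d (vol4 hb)) h1 (fun d x => q1_fm (pa hb hc d · x)) k k0

theorem sS (h0 : w.Jt 0 1 fun d => (c d).Φ) (a0 : w.Jt 0 1 fun d => fm (c d).a)
    (ha : w.Sj s 2 2 i fun d => fm (c d).a) (h : w.Sj s 2 2 i fun d => (c d).Φ)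
    (k : w.Sj s 2 1 (i + 1) fun d => b.eD (c d)) : w.Sj s 2 2 (i + 1) fun d => (c d).Φ :=
  let ⟨_, hF⟩ := hb.tame
  let ⟨_, hA⟩ := good_s hb
  .ell hF hA (cliff_s hb) (fun d x => Win45.p_of hb ((hc d).pΦ x)) h.jt.pred (((k.sub
    ((Wn.Sj.cb (cb_l hb)).app (h.up hF))).sub (.sum fun t => .alg hF (.lsmul ℝ ℝ)
    (a0.clm (Map77.pj ℝ t)) ((Wn.Jt.cb (cb_ρ hb t)).app h0) (ha.clm _)
    ((Wn.Sj.cb (cb_ρ hb t)).app h))).eq fun d x => by
      rw [app_s]; simp [fm]; abel)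

theorem sP (h0 : w.Jt 0 1 fun d => (c d).Φ) (h : w.Jt 2 2 fun d => (c d).Φ)
    (ha : w.Jt 2 2 fun d => fm (c d).a) (a4 : w.Jt 4 2 fun d => fm (c d).a)
    (k : w.On fun d x => b.eD (c d) x = 0) : w.Jt 2 3 fun d => (c d).Φ := by
  obtain ⟨_, hF⟩ := hb.tame
  obtain ⟨_, hA⟩ := good_s hb
  have hm : ∀ {p j}, (∀ i, w.Jt p j fun d => (c d).a i) →
      w.Jt p j fun d x => -∑ i, (c d).a i x • (b.m.ρ i x * b.jp x) := fun h =>
    (Wn.Jt.sum fun i => (h i).smulR (.cb (cb_ρ hb i))).neg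
  refine .ell2 hF hA (cliff_s hb) (fun d x => Win45.p_of hb ((hc d).pΦ x)) h h0.lp
    (hm fun i => ha.clm (Map77.pj ℝ i)) (hm fun i => .one (fun d => (hc d).sa i) ?_).lp
    ((Wn.Jt.cb (cb_l hb)).app h).neg fun r hr d x hx => (app_s _ _).trans (by
      rw [k r hr d x hx, zero_sub])
  have := ((Wn.Jt.bil (.mul ℝ ℝ) hol4 (a4.clm (Map77.pj ℝ i)) (a4.clm (Map77.pj ℝ i))).sob4 hF).lp.2
  exact ⟨fun h => absurd h (by norm_num), by
    simpa [fm, ← sq, ← pow_mul, Even.pow_abs (n := 8) (by decide)] using this⟩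

end gen

variable {e : En3 κ lam ν} (he : e.OK) {c : X → e.ZC} {φ g : X → ℝ → ℝ} {a b : X → ℝ} {l C K L B : ℝ}
  {h : ∀ d, b d - a d ≤ l}

theorem onw {P : X → e.Y.M × ℝ → Prop} (k : ∀ d, ∀ x ∈ univ ×ˢ Ioo (a d) (b d), P d x) :
    (cw (FY e) a b h).On P := fun r hr d x hx =>
  k d x ⟨trivial, by linarith [hx.2.1], by linarith [hx.2.2]⟩

theorem tm1 (hs : ∀ d, ContDiff ℝ ∞ (g d)) (hb : ∀ d, ∀ t ∈ Ioo (a d) (b d), ‖g d t‖ ≤ B) :
    (cw (FY e) a b h).Jt 0 1 fun d x => g d x.2 :=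
  .one (fun d => sm_snd (hs d)) (Wn.lp0 fun r hr => ⟨B, onw (fun d _ hx => hb d _ hx.2) r hr⟩)

theorem tms (hs : ∀ d, ContDiff ℝ ∞ (g d)) (k : (cw (FY e) a b h).Jt p j fun d x => g d x.2) :
    (cw (FY e) a b h).Sj some p j i fun d x => g d x.2 :=
  .tm k fun d k => D_some_snd (FY e) (hs d) k

variable (H : ∀ d, Dc C K L (c d) (φ d) (a d) (b d))
include he H

theorem jp0 : (cw (FY e) a b h).Jt 0 1 fun d => (c d).Φ :=
  .one (fun d => (H d).adm.sΦ) (Wn.lp0 fun r hr => ⟨K, onw (fun d => (H d).bΦ) r hr⟩)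

theorem ja0 : (cw (FY e) a b h).Jt 2 1 fun d => fm (c d).a :=
  l2 (fun d => sm_fm (H d).adm.sa) (fun d => (sm_nsq (sm_fm (H d).adm.sa)).continuous)
    (fun _ _ => le_rfl) fun d => (H d).l2

theorem jD (hi : i ≤ 2) (k : (cw (FY e) a b h).Sj some p 1 i fun d x =>
      e.cyl.qd x ((c d).Φ x) ((c d).Φ x)) : (cw (FY e) a b h).Sj some p 1 i fun d =>
      (dOp e.cyl.F e.cyl.B.o).app e.cyl.F (fm (c d).a) :=
  hop he.cyl (fun d => (H d).adm) (onw fun d => (H d).co) ((((Wn.Sj.of_bd (fun d x =>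
    (sa_eC he.cyl (fun i => (H d).adm.sa i x) ((H d).adm.sΦ x)).add ((sm_snd (H d).sφ x).smul
    (sm_fst he.sζ x))) fun v hv => onw fun d => (H d).τ v (hv.trans hi)).sub ((tms (fun d =>
    (H d).sφ) (tm1 (fun d => (H d).sφ) fun d t _ => (H d).bφ t)).smul (.cb (Cht98.Cb_fst (FY e)
    (Cb_of_compact he.sζ))))).eq fun _ _ => (add_sub_cancel_right _ _).symm).imp fun _ h => h.of0) k

theorem jp1 : (cw (FY e) a b h).Jt 2 2 fun d => (c d).Φ :=
  have k := jp0 he H (h := h)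
  ⟨k.sm, k.of0.lp, fun i => (((l2 (fun d => sm_nb he (H d).adm i) (fun d => ct_eg he (H d).adm)
    (fun d x => le_add_of_nonneg_of_le (sq_nonneg _) (Finset.single_le_sum (f := fun i =>
      ‖Wz78.nab (IC e.Y.I) e.cyl.F.e (e.cyl.W (c d)) i (c d).Φ x‖ ^ 2) (fun _ _ => sq_nonneg _)
      (Finset.mem_univ i))) fun d => (H d).ed).sub ((cbz (he.cyl.cA i)).app k.of0)).sub
    (((ja0 he H).clm (Map77.pj ℝ i)).smulR ((cbz (cb_jp he.cyl)).app k))).eq fun _ _ =>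
      (show ∀ p q r : Eu ν, p = p + (q + r) - q - r from fun _ _ _ => by abel) _ _ _⟩

theorem ja1 : (cw (FY e) a b h).Sj some 2 2 1 fun d => fm (c d).a :=
  sA he.cyl (fun d => (H d).adm) (ja0 he H) (jD he H one_le_two
    (qd1 (i := 0) he.cyl (jp0 he H) (jp1 he H)))

theorem jT : ∃ B : X → e.Y.M × ℝ → Fm (Option κ) ℝ, (cw (FY e) a b h).Jt 0 1 B ∧
    (cw (FY e) a b h).Jt 2 2 fun d x => (FZ e).D none (fm (c d).a) x - B d x :=
  sT he.cyl (fun d => (H d).adm) (fun _ => rfl) (jD (i := 0) he H zero_le_two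
    (qd0 he.cyl (jp0 he H))) (ja1 he H)

/-- the curvature on slices -/
theorem jF {r : ℝ} (hr : 0 < r) {t : X → ℝ} (ht : ∀ d, t d ∈ Icc (a d + r) (b d - r))
    (h : ∀ d, b d - a d ≤ l) : (yw e X).Jt 2 1 fun d y => e.cyl.fc (c d) (y, t d) := by
  obtain ⟨_, hF⟩ := he.cyl.tame
  obtain ⟨B, h1, h2⟩ := jT he H (h := h)
  have h3 := ja1 he H (h := h)
  have T : ∀ i, (yw e X).Jt 2 1 fun d y => (FZ e).D i (fm (c d).a) (y, t d) := fun
    | none => ((yt (i := 0) id hr ht h2).add (yt0 id hr ht h1).of0).eq fun _ _ =>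
      (sub_add_cancel _ _).symm
    | some k => yt (i := 0) id hr ht (h3.2 k)
  refine ((yt0 (h := h) id hr ht (cbz (cb_fc he.cyl))).of0.add (.pi fun s => (((((T s.1).clm
    (Map77.pj ℝ s.2)).sub ((T s.2).clm (Map77.pj ℝ s.1))).sub (.sum fun k => (yt0 (h := h) id hr ht
    (cbz ⟨_, hF.c s.1 s.2 k⟩)).smul ((yt (i := 0) id hr ht h3.1).clm (Map77.pj ℝ k)))).eq
    fun d y => ?_))).eq fun d y => fc_da he.cyl (H d).adm.sa _
  have := fun i j => D_ev (F := e.cyl.F) (x := (y, t d)) (sm_fm (H d).adm.sa) i j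
  exact congrArg₂ (· - ·) (congrArg₂ (· - ·) (this _ _).symm (this _ _).symm) rfl

/-- three derivatives along the slices -/
theorem jp3 (hg : ∀ d, ContDiff ℝ ∞ (g d))
    (hB : ∀ d, ∀ t ∈ Ioo (a d) (b d), ‖g d t‖ ≤ B ∧ ‖deriv (g d) t‖ ≤ B)
    (hD : ∀ d, ∀ x ∈ univ ×ˢ Ioo (a d) (b d),
      e.cyl.eD (c d) x = deriv (g d) x.2 • e.m.ρ none x.1 ((c d).Φ x)) :
    (cw (FY e) a b h).Sj some 2 2 3 fun d => (c d).Φ := by
  obtain ⟨_, hF⟩ := he.cyl.tame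
  obtain ⟨B, h1, h2⟩ := jT he H (h := h)
  have h3 := ja1 he H (h := h)
  have h0 := jp0 he H (h := h)
  have hc := fun d => (H d).adm
  have g1 := fun d => (contDiff_infty_iff_deriv.1 (hg d)).2
  have g2 := tm1 (e := e) (h := h) g1 fun d t ht => (hB d t ht).2
  have g3 : (cw (FY e) a b h).Jt 0 2 fun d x => g d x.2 :=
    ⟨fun d => sm_snd (hg d), (tm1 hg fun d t ht => (hB d t ht).1).lp, fun
      | none => g2.eq fun d => congrFun (D_none_snd (FY e) (hg d))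
      | some k => (cbz (Cb_const 0)).eq fun d => congrFun (D_some_snd (FY e) (hg d) k)⟩
  have g4 := g3.neg.comp Real.contDiff_exp
  have s4 : ∀ d, ContDiff ℝ ∞ fun t => Real.exp (-g d t) := fun d => (hg d).neg.exp
  have p1 := ((tms (i := 1) (fun d => (hg d).exp) (g3.comp Real.contDiff_exp)).smul (.of_jt (sP he.cyl
    (c := fun d => ⟨(c d).a, fun x => Real.exp (-g d x.2) • (c d).Φ x⟩) (fun d => ⟨(hc d).sa,
      (g4.sm d).smul (hc d).sΦ, (hc d).pa, fun x => by simp only [map_smul, (hc d).pΦ]⟩)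
    (g4.pred.smul h0) (g4.smul (jp1 he H)) h3.1 ⟨h3.1.sm, (h3.1.sob4 hF).lp, fun
      | none => ((h2.sob4 hF).add h1.of0).eq fun _ _ => (sub_add_cancel _ _).symm
      | some k => Wn.Jt.sob4 hF (h3.2 k)⟩ (onw fun d x hx => ?_)))).eq (f' := fun d => (c d).Φ)
      fun d x => by simp [smul_smul, ← Real.exp_add]
  · have h4 := sA he.cyl hc (ja0 he H) (jD he H le_rfl (qd1 he.cyl h0 p1))
    have D : ∀ {i}, ((cw (FY e) a b h).Sj some 2 2 i fun d => (c d).Φ) →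
        (cw (FY e) a b h).Sj some 2 1 (i + 1) fun d => e.cyl.eD (c d) := fun k =>
      ((tms g1 g2).smul ((Wn.Sj.of_jt (cbz (he.cyl.cρ none))).app (k.up hF))).congr
        (fun d => Win45.sm_eD he.cyl (hc d)) (onw hD)
    have p2 := sS he.cyl hc h0 (sup_sj h4) h3 p1 (D p1)
    exact sS he.cyl hc h0 (sup_sj h4) h4 p2 (D p2)
  have e1 : e.cyl.F.D none _ x = Real.exp (-g d x.2) * -_ := (congrFun (D_none_snd (FY e) (s4 d))
    x).trans ((hg d).differentiable (by simp) x.2).hasDerivAt.neg.exp.deriv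
  have e2 : ∀ k, e.cyl.F.D (some k) (fun x => Real.exp (-g d x.2)) x = 0 := fun k =>
    congrFun (D_some_snd (FY e) (s4 d) k) x
  rw [eD_smul _ (g4.sm d x) ((hc d).sΦ x), Fintype.sum_option, e1, hD d x hx]
  simp only [e2, zero_smul, Finset.sum_const_zero, add_zero, smul_smul, mul_neg, neg_smul]
  exact neg_add_cancel _

end Crest.Agent.X212.Lw78
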