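import Crest.Agent.X212.Lw78.Sj

/-!
# Row 212, EN-SLF and EN-LW1 (helper78): the gauge on a window from the energy, estimates
-/

set_option autoImplicit false
set_option linter.unusedSectionVars false
noncomputable section
open scoped Manifold ContDiff Topology InnerProductSpace
open MeasureTheory Set Function Filter

namespace Crest.Agent.X212.Lw78
open An An.Pre Sob92 Ell97 Cyf70 Sw Sw.En3 Sep15.S Dl23
open Win45 (FY FZ)
open Pb50 (LA LG)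

variable {κ lam ν : Type} [Fintype κ] [Fintype lam] [Fintype ν] [DecidableEq ν] {e : En3 κ lam ν}
  {X N : Type} [NormedAddCommGroup N] [NormedSpace ℝ N]

/-- the energy density -/
def eg (c : e.ZC) (x : e.Y.M × ℝ) : ℝ :=
  ‖e.cyl.fc c x‖ ^ 2 + ∑ i, ‖Wz78.nab (IC e.Y.I) e.cyl.F.e (e.cyl.W c) i c.Φ x‖ ^ 2

/-- bounds on a window -/
structure Dt (C K : ℝ) (c : e.ZC) (φ : ℝ → ℝ) (a b : ℝ) : Prop where
  adm : e.cyl.Adm c
  sφ : ContDiff ℝ ∞ φ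
  bφ : ∀ t, ‖φ t‖ ≤ C
  bΦ : ∀ x ∈ univ ×ˢ Ioo a b, ‖c.Φ x‖ ≤ K
  τ : ∀ v : List κ, v.length ≤ 2 → ∀ x ∈ univ ×ˢ Ioo a b,
    ‖(FZ e).Dw (v.map some) (fun x => e.cyl.eC c x + φ x.2 • e.ζ x.1) x‖ ≤ C
  ed : ∫ x in univ ×ˢ Icc a b, eg c x ∂(FZ e).μ ≤ C

/-- the same in Coulomb gauge -/
structure Dc (C K L : ℝ) (c : e.ZC) (φ : ℝ → ℝ) (a b : ℝ) : Prop extends Dt C K c φ a b where
  l2 : ∫ x in univ ×ˢ Icc a b, ‖fm c.a x‖ ^ 2 ∂(FZ e).μ ≤ L
  co : ∀ x ∈ univ ×ˢ Ioo a b, dv1 e.cyl.F c.a x = 0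

theorem int_on {g : e.Y.M × ℝ → ℝ} (hg : Continuous g) (a b : ℝ) :
    IntegrableOn g (univ ×ˢ Icc a b) (FZ e).μ :=
  hg.continuousOn.integrableOn_compact (isCompact_univ.prod isCompact_Icc)

theorem int_mono {g : e.Y.M × ℝ → ℝ} (hg : Continuous g) (h0 : ∀ x, 0 ≤ g x) {a b a' b' : ℝ}
    (ha : a ≤ a') (hb : b' ≤ b) :
    ∫ x in univ ×ˢ Icc a' b', g x ∂(FZ e).μ ≤ ∫ x in univ ×ˢ Icc a b, g x ∂(FZ e).μ :=
  setIntegral_mono_set (int_on hg a b) (.of_forall h0)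
    (prod_mono_right (Icc_subset_Icc ha hb)).eventuallyLE

theorem cbz {a b : X → ℝ} {l : ℝ} {h : ∀ d, b d - a d ≤ l} {f : e.Y.M × ℝ → N} {p j : ℕ}
    (k : e.cyl.F.Cb f) : (cw (FY e) a b h).Jt p j fun _ => f := .cb k

theorem l2 {a b : X → ℝ} {l C : ℝ} {h : ∀ d, b d - a d ≤ l} {f : X → e.Y.M × ℝ → N}
    {g : X → e.Y.M × ℝ → ℝ} (hs : ∀ d, Sm (IC e.Y.I) (f d)) (hg : ∀ d, Continuous (g d))
    (h0 : ∀ d x, ‖f d x‖ ^ 2 ≤ g d x) (k : ∀ d, ∫ x in univ ×ˢ Icc (a d) (b d), g d x ∂(FZ e).μ ≤ C) :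
    (cw (FY e) a b h).Jt 2 1 f :=
  .one hs ⟨fun h => absurd h two_ne_zero, Wn.Ib.le (ψ := g) (fun r hr => ⟨C, fun d => (int_mono (hg d)
    (fun x => (sq_nonneg _).trans (h0 d x)) (by linarith) (by linarith)).trans (k d)⟩)
    (fun d => (hs d).continuous.norm.fun_pow 2) hg fun _ _ =>
    ⟨1, zero_le_one, fun d x _ => (h0 d x).trans_eq (one_mul _).symm⟩⟩

theorem sm_nsq0 {V : Type} [NormedAddCommGroup V] [InnerProductSpace ℝ V] {u : e.Y.M → V}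
    (hu : Sm e.Y.I u) : Continuous fun x => ‖u x‖ ^ 2 := hu.continuous.norm.fun_pow 2

theorem eg_fc (c : e.ZC) (x : e.Y.M × ℝ) : ‖e.cyl.fc c x‖ ^ 2 ≤ eg c x :=
  le_add_of_nonneg_right (by positivity)

variable (he : e.OK) {c : e.ZC} {C K L a b : ℝ} {φ : ℝ → ℝ}
include he

theorem sm_fc (hc : e.cyl.Adm c) : Sm (IC e.Y.I) (e.cyl.fc c) := fun x =>
  sa_fc he.cyl fun i => hc.sa i x

theorem sm_nb (hc : e.cyl.Adm c) (i : Option κ) :
    Sm (IC e.Y.I) (Wz78.nab (IC e.Y.I) e.cyl.F.e (e.cyl.W c) i c.Φ) := fun x =>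
  sa_nab he.cyl (fun i => hc.sa i x) (hc.sΦ x) i

theorem ct_eg (hc : e.cyl.Adm c) : Continuous (eg c) := (sm_nsq (sm_fc he hc)).continuous.add
  (continuous_finsetSum _ fun i _ => (sm_nsq (sm_nb he hc i)).continuous)

theorem Dt.act (h : Dt C K c φ a b) {u : e.Y.M × ℝ → ℂ} (hu : Gau (IC e.Y.I) u) {a' b' : ℝ}
    (ha : a ≤ a') (hb : b' ≤ b) : Dt C K (e.cyl.act u c) φ a' b' := by
  have k := LA.of_adm h.adm
  have g := LG.of_gau hu
  have s : univ ×ˢ Ioo a' b' ⊆ (univ : Set e.Y.M) ×ˢ Ioo a b := prod_mono_right (Ioo_subset_Ioo ha hb)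
  refine ⟨Pb50.adm_of fun x => (k x).act he.cyl (hu.1 x), h.sφ, h.bφ, fun x hx =>
    (Pb50.norm_act he.cyl (hu.2 x)).trans_le (h.bΦ x (s hx)), fun v hv x hx => ?_, ?_⟩
  · simpa only [fun x => Pb50.eC_act he.cyl (k x).sa (g x)] using h.τ v hv x (s hx)
  · simp only [eg, fun x => Pb50.fc_act he.cyl (k x).sa (g x), fun x => Pb50.nab_act he.cyl (k x) (g x),
      fun x => Pb50.norm_cs he.cyl.m.Jsq he.cyl.m.Jsk (hu.2 x)]
    exact (int_mono (ct_eg he h.adm) (fun x => (sq_nonneg _).trans (eg_fc c x)) ha hb).trans h.ed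

theorem fc_sl (hc : e.cyl.Adm c) (y : e.Y.M) (t : ℝ) : ‖e.cyl.fc (fz (sl c t)) (y, 0)‖ ^ 2 ≤
    ‖e.cyl.fc c (y, t)‖ ^ 2 + ‖Cyl58.fc0 e y‖ ^ 2 := by
  have v := Pb50.sl_adm (s := t) fun y => LA.of_adm hc _
  have sa := fun i y => hc.sa i (y, t)
  simp only [PiLp.norm_sq_eq_of_L2, ← Finset.sum_add_distrib]
  refine Finset.sum_le_sum fun ⟨i, j⟩ _ => ?_
  obtain _ | i := i <;> obtain _ | j := j
  iterate 3 rw [Cyl58.fc_fz he v]; simp [Cyl58.up2, sq_nonneg]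
  refine le_add_of_le_of_nonneg (le_of_eq ?_) (sq_nonneg _)
  rw [Win45.fc_eq he.cyl fun i => sa i y, Win45.fc_eq he.cyl fun i => v.sa i _, Win45.fc0 (t := t) he,
    Wz78.d1, Wz78.d1, Fintype.sum_option, Fintype.sum_option]
  exact congrArg (fun r => ‖_ + r‖ ^ 2) (congrArg₂ (· - ·) (congrArg₂ (· - ·)
    (Win45.D_fz (sa _) _ _) (Win45.D_fz (sa _) _ _))
    (congrArg (· + _) ((zero_smul _ _).trans (zero_smul _ _).symm)))

/-- a good gauge on a slice -/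
theorem slc' (C : ℝ) : ∃ K, ∀ (c : e.ZC) t, e.cyl.Adm c → ∫ y, ‖e.cyl.fc c (y, t)‖ ^ 2 ∂e.D.F.μ ≤ C →
    ∃ v, Eqv (sl c t) v ∧ ∫ y, ‖fm (fz v).a (y, 0)‖ ^ 2 ∂e.D.F.μ ≤ K := by
  obtain ⟨A, hA⟩ := Cyl58.wlU he
  have i0 := intY (FY e) (sm_nsq0 (Cyl58.sm_fc0 he))
  set B := (|A 0| * (1 + √(C + ∫ y, ‖Cyl58.fc0 e y‖ ^ 2 ∂e.D.F.μ))) ^ 2
  refine ⟨Fintype.card (Option κ) • B, fun c t hc h => ?_⟩
  have v := Pb50.sl_adm (s := t) fun y => LA.of_adm hc _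
  have i1 := intY (FY e) (sm_nsq0 (sm_slice_fst (sm_fc he hc) t))
  refine (hA _ v).imp fun v' k => ⟨k.1, ?_⟩
  have v1 := Pb50.Eqv.adm he v k.1
  simp only [PiLp.norm_sq_eq_of_L2, fm]
  rw [integral_finsetSum _ fun i _ => intY (FY e) (sm_nsq0 (sm_slice_fst (v1.sa i) 0))]
  refine Finset.sum_le_card_nsmul _ _ _ fun i _ => ?_
  obtain _ | i := i
  · simpa [fz, Nd18.ca] using sq_nonneg _
  refine (nrm_sq (F := FY e) 0 (v'.a i)).ge.trans (pow_le_pow_left₀ (nrm_nonneg _ _) (((nrm_mono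
    zero_le_one _).trans (k.2 0 i)).trans (mul_le_mul (le_abs_self _) (add_le_add_right
    ((nrm_eq _ _).trans_le (Real.sqrt_le_sqrt ((integral_mono_of_nonneg (.of_forall fun _ =>
    sq_nonneg _) (i1.add i0) (.of_forall fun y => fc_sl he hc y t)).trans ((integral_add i1 i0).trans_le
    (add_le_add_left h _))))) _) (add_nonneg zero_le_one (nrm_nonneg _ _)) (abs_nonneg _))) 2)

/-- the temporal gauge -/
theorem tg (C l : ℝ) {r : ℝ} (hr : 0 < r) : ∃ K, ∀ (c : e.ZC) a b, a + 3 * r ≤ b → b - a ≤ l →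
    e.cyl.Adm c → ∫ x in univ ×ˢ Icc a b, eg c x ∂(FZ e).μ ≤ C → ∃ u, Gau (IC e.Y.I) u ∧
      ∀ t ∈ Ioo (a + r) (b - r), ∫ y, ‖fm (e.cyl.act u c).a (y, t)‖ ^ 2 ∂e.D.F.μ ≤ K := by
  obtain ⟨K, hK⟩ := slc' he (r⁻¹ * |C|)
  let X := {d : e.ZC × ℝ × ℝ // d.2.2 - d.2.1 ≤ l ∧ e.cyl.Adm d.1 ∧ d.1.a none = 0 ∧
    ∫ x in univ ×ˢ Icc d.2.1 d.2.2, ‖e.cyl.fc d.1 x‖ ^ 2 ∂(FZ e).μ ≤ C}
  have h1 := (l2 (h := fun d : X => d.2.1) (fun d => sm_fc he d.2.2.1) (fun d =>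
    (sm_nsq (sm_fc he d.2.2.1)).continuous) (fun _ _ => le_rfl) fun d => d.2.2.2.2).sub
    (cbz (cb_fc he.cyl))
  have h2 : (cw (FY e) _ _ fun d : X => d.2.1).Jt 2 1 fun d => (FZ e).D none (fm d.1.1.a) :=
    .pi fun i => by
      have k := fun (d : X) x => D_ev (F := e.cyl.F) (x := x) (sm_fm d.2.2.1.sa) none i
      obtain _ | i := i
      · exact (Wn.Jt.cb (Cb_const 0)).eq fun d x => (k d x).trans (by
          simp only [fm, d.2.2.2.1]; exact congrFun (dv_const _) _)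
      refine (h1.clm (Map77.pj ℝ (none, some i))).eq fun d x => (k d x).trans ?_
      rw [map_sub, Map77.pj_apply, Win45.fc_eq he.cyl fun i => d.2.2.1.sa i x, Win45.d1_none,
        d.2.2.2.1, show (FZ e).D (some i) (0 : e.Y.M × ℝ → ℝ) x = 0 from congrFun (dv_const _) _]
      exact ((add_sub_cancel_left _ _).trans (sub_zero _)).symm
  obtain ⟨K₂, h3⟩ := h2.lp.2 r hr
  refine ⟨(√(1 + K) + (l + |K₂|) / 2) ^ 2, fun c a b h4 hl hc hE => ?_⟩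
  have s1 := sm_nsq (sm_fc he hc)
  have h5 := setIntegral_mono (int_on s1.continuous a b) (int_on (ct_eg he hc) a b) (eg_fc c)
  obtain ⟨t₀, ht₀, h0⟩ := good s1 hr (a := a + r) (b := b - r) (by linarith)
    ((int_mono s1.continuous (fun _ => sq_nonneg _) (by linarith) (by linarith)).trans (h5.trans hE))
  obtain ⟨v, ⟨g, hg, hv⟩, h6⟩ := hK c t₀ hc h0
  obtain ⟨u, hu, u1, u2⟩ := tmp c (hc.sa none) t₀ hg
  have hc' : e.cyl.Adm (e.cyl.act u c) := Pb50.adm_of fun x => (LA.of_adm hc x).act he.cyl (hu.1 x)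
  have e0 := Pb50.sl_act c (s := t₀) fun y => hu.1 _
  simp only [u1, ← hv] at e0
  rw [← show e.cyl.fc (e.cyl.act u c) = e.cyl.fc c from
    funext fun x => Pb50.fc_act he.cyl (fun i => hc.sa i x) (LG.of_gau hu x)] at h5
  refine ⟨u, hu, fun t ht => drift (a := a + r) (b := b - r) (sm_fm hc'.sa) (by linarith)
    (h3 ⟨(e.cyl.act u c, a, b), hl, hc', u2, h5.trans hE⟩) ht ht₀ (le_trans (le_of_eq (integral_congr_ae (.of_forall fun y => congrArg (‖·‖ ^ 2)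
      (Map77.fm_ext fun i => ?_)))) h6)⟩
  obtain _ | i := i
  exacts [congrFun u2 _, congrArg (fun c : e.ZC => c.a (some i) (y, 0)) e0]

/-- the Coulomb gauge -/
theorem cg (K l : ℝ) {r : ℝ} (hr : 0 < r) : ∃ L, ∀ (c : e.ZC) a b, b - a ≤ l → e.cyl.Adm c →
    (∀ t ∈ Ioo a b, ∫ y, ‖fm c.a (y, t)‖ ^ 2 ∂e.D.F.μ ≤ K) → ∃ u, Gau (IC e.Y.I) u ∧
      ∫ x in univ ×ˢ Icc (a + 2 * r) (b - 2 * r), ‖fm (e.cyl.act u c).a x‖ ^ 2 ∂(FZ e).μ ≤ L ∧
      ∀ x ∈ univ ×ˢ Ioo (a + 2 * r) (b - 2 * r), dv1 e.cyl.F (e.cyl.act u c).a x = 0 := by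
  obtain ⟨_, hF⟩ := he.cyl.tame
  refine ⟨|K| * |l|, fun c a b hl hc h2 => ?_⟩
  have cs : ∀ {δ a b : ℝ}, 0 < δ → HasCompactSupport fun x : e.Y.M × ℝ => ct δ a b x.2 := fun h =>
    (isCompact_univ.prod isCompact_Icc).of_isClosed_subset (isClosed_tsupport _) (ct_tsupp h)
  have s1 : ContDiff ℝ ∞ fun t => t * ct 1 (a - 1) (b + 1) t := contDiff_id.mul cd_ct
  set α := fun i x => ct r (a + r) (b - r) x.2 * c.a i x
  have s2 : ∀ i, Sm (IC e.Y.I) (α i) := fun i => (sm_snd cd_ct).mul (hc.sa i)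
  obtain ⟨ξ, β, s3, f1, n, h3⟩ := coul (a := α) hF (k := none) (fun _ => rfl) (fun _ => rfl) (sm_snd s1)
    (cs one_pos).mul_left s2 (fun i => (cs hr).mul_right) fun i x => by
      simp only [α, mul_left_comm _ (ct _ _ _ _), ← Finset.mul_sum]
      exact congrArg _ ((show e.cyl.F.P = e.cyl.B.P from he.cyl.G.P) ▸ hc.pa i x)
  obtain ⟨g1, g2⟩ := Cyl58.gau_exp e.cyl.F s3
  have h4 : ∀ x ∈ univ ×ˢ Icc (a + 2 * r) (b - 2 * r), dv1 e.cyl.F (fun i y => β y i) x = 0 ∧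
      fm (e.cyl.act (fun x => Complex.exp (ξ x • Complex.I)) c).a x = β x := fun x hx => by
    have := h3 x ((congrFun (D_none_snd (FY e) s1) x).trans ((EventuallyEq.deriv_eq (f := id) (by
      filter_upwards [Icc_mem_nhds (show a - 1 + 1 < x.2 by linarith [hx.2.1])
        (show x.2 < b + 1 - 1 by linarith [hx.2.2])] with t ht
      rw [ct_one one_pos ht, mul_one, id])).trans (deriv_id _)))
    refine ⟨this.1, Map77.fm_ext fun i => ?_⟩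
    rw [this.2, ← g2]
    simp only [α]
    rw [ct_one hr ⟨by linarith [hx.2.1], by linarith [hx.2.2]⟩, one_mul]
    rfl
  refine ⟨_, g1, ?_, fun x hx => ?_⟩
  · have c1 := (sm_nsq (sm_fm s2)).continuous
    replace n := pow_le_pow_left₀ (nrm_nonneg _ _) n 2
    rw [nrm_sq, nrm_sq] at n
    rw [setIntegral_congr_fun (MeasurableSet.univ.prod measurableSet_Icc) fun x hx => by
      rw [(h4 x hx).2]]
    refine ((setIntegral_le_integral (int_sq (f1.fl 0)) (.of_forall fun _ => sq_nonneg _)).trans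
      n).trans ?_
    have e1 : ∀ x, ‖fm α x‖ ^ 2 = ct r (a + r) (b - r) x.2 ^ 2 * ‖fm c.a x‖ ^ 2 := fun x => by
      rw [show fm α x = ct r (a + r) (b - r) x.2 • fm c.a x from rfl, norm_smul, mul_pow,
        Real.norm_eq_abs, sq_abs]
    rw [N2, n2, ← setIntegral_eq_integral_of_forall_compl_eq_zero (s := univ ×ˢ
      Icc (a + r) (b - r)) fun x hx => by
        rw [e1, image_eq_zero_of_notMem_tsupport (f := fun x : e.Y.M × ℝ => ct _ _ _ x.2)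
          fun k => hx (ct_tsupp hr k), sq, zero_mul, zero_mul]]
    refine (int_S (FY e) c1 _ _).trans_le ((Real.le_norm_self _).trans
      ((norm_setIntegral_le_of_norm_le_const (C := |K|) measure_Icc_lt_top fun t ht => ?_).trans ?_))
    · rw [Real.norm_of_nonneg (integral_nonneg fun _ => sq_nonneg _)]
      simp only [e1, integral_const_mul]
      exact (mul_le_of_le_one_left (integral_nonneg fun _ => sq_nonneg _) ((sq_le_one_iff_abs_le_one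
        _).2 ct_abs)).trans ((h2 t ⟨by linarith [ht.1], by linarith [ht.2]⟩).trans (le_abs_self _))
    · rw [Real.volume_real_Icc]
      exact mul_le_mul_of_nonneg_left (max_le (by linarith [le_abs_self l]) (abs_nonneg _))
        (abs_nonneg _)
  · rw [← (h4 x ⟨trivial, Ioo_subset_Icc_self hx.2⟩).1]
    have : ∀ i, (e.cyl.act (fun x => Complex.exp (ξ x • Complex.I)) c).a i =ᶠ[𝓝 x] fun y => β y i :=
      fun i => mem_of_superset ((isOpen_univ.prod isOpen_Ioo).mem_nhds hx) fun y hy =>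
        congrArg (fun v : Fm (Option κ) ℝ => v i) (h4 y ⟨trivial, Ioo_subset_Icc_self hy.2⟩).2
    simp only [dv1, D_def, fun i => dv_congr (e := e.cyl.F.e i) (this i), fun i => (this i).self_of_nhds]

theorem toDc (C : ℝ) {r : ℝ} (hr : 0 < r) : ∃ L, ∀ K (c : e.ZC) φ t, Dt C K c φ (t - 4 * r) (t + 4 * r) →
    ∃ u, Gau (IC e.Y.I) u ∧ Dc C K L (e.cyl.act u c) φ (t - r) (t + r) := by
  obtain ⟨K, h1⟩ := tg he C (8 * r) hr
  obtain ⟨L, h2⟩ := cg he K (8 * r) hr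
  refine ⟨L, fun K c φ t h => ?_⟩
  obtain ⟨u, hu, h3⟩ := h1 c _ _ (by linarith) (by linarith) h.adm h.ed
  obtain ⟨v, hv, h4, h5⟩ := h2 _ _ _ (by linarith) (h.act he hu le_rfl le_rfl).adm h3
  have g := (Cyl58.gau_mul e.cyl.F hv hu).1
  rw [Pb50.act_act he.cyl hu hv, show t - 4 * r + r + 2 * r = t - r by ring,
    show t + 4 * r - r - 2 * r = t + r by ring] at h4 h5
  exact ⟨_, g, h.act he g (by linarith) (by linarith), h4, h5⟩

end Crest.Agent.X212.Lw78
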