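import Crest.Agent.X212.Ell97.Loc
import Crest.Agent.X212.Cht98.Cov
import Crest.Agent.X212.Sob92.NemF

/-!
# Row 212, SW-LOCW (helper78): families of functions on shrinking windows

`w.Jt p j f` : the derivatives of order `< j` of the family `f` are bounded in `L^p`
(`p = 0` : sup norm) on every smaller window, uniformly in the family.
-/

set_option autoImplicit false
set_option linter.unusedSectionVars false
noncomputable section
open scoped Manifold ContDiff Topology InnerProductSpace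
open MeasureTheory Set Function Filter

namespace Crest.Agent.X212.Lw78
open An An.Pre Sob92 Ell97

variable {E : Type} [NormedAddCommGroup E] [NormedSpace ℝ E] [FiniteDimensional ℝ E]
  [MeasurableSpace E] [BorelSpace E]
  {HM : Type} [TopologicalSpace HM] {I : ModelWithCorners ℝ E HM}
  {M : Type} [TopologicalSpace M] [ChartedSpace HM M] [IsManifold I ∞ M]
  [MeasurableSpace M] [T2Space M] [BorelSpace M] [SecondCountableTopology M]
  {ι : Type} [Fintype ι]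
  {N N' N'' : Type} [NormedAddCommGroup N] [NormedSpace ℝ N] [NormedAddCommGroup N']
  [NormedSpace ℝ N'] [NormedAddCommGroup N''] [NormedSpace ℝ N'']
  {V W : Type} [NormedAddCommGroup V] [InnerProductSpace ℝ V] [FiniteDimensional ℝ V]
  [NormedAddCommGroup W] [InnerProductSpace ℝ W] [FiniteDimensional ℝ W] {X : Type}

theorem int4 (F : Pre I M ι) {u : M → N} (hu : Sm I u) (hc : HasCompactSupport u) :
    Integrable (fun x => ‖u x‖ ^ 4) F.μ :=
  Continuous.integrable_of_hasCompactSupport (hu.continuous.norm.fun_pow 4)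
    (hc.mono fun x hx h => hx (by simp [h]))

theorem l4V {F : Fr I M ι} {C : ℕ → ℝ} (hF : F.Tame C) : ∃ K, ∀ u : M → V, Sm I u →
    HasCompactSupport u → ∫ x, ‖u x‖ ^ 4 ∂F.μ ≤ K * N2 F.toPre 1 u ^ 2 := by
  let b := stdOrthonormalBasis ℝ V
  let n : ℝ := Module.finrank ℝ V
  refine ⟨n * (n * C 0 ^ 2), fun u hu hc => ?_⟩
  have s1 : ∀ i, Sm I fun x => innerSL ℝ (b i) (u x) := fun i => (innerSL ℝ (b i)).contMDiff.comp hu
  have c1 : ∀ i, HasCompactSupport fun x => innerSL ℝ (b i) (u x) := fun i =>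
    hc.comp_left (g := innerSL ℝ (b i)) (map_zero _)
  have i1 : ∀ i, Integrable (fun x => innerSL ℝ (b i) (u x) ^ 4) F.μ := fun i =>
    (int4 F.toPre (s1 i) (c1 i)).congr (.of_forall fun x => Even.pow_abs (by decide) _)
  have h1 : ∀ i, ∫ x, innerSL ℝ (b i) (u x) ^ 4 ∂F.μ ≤ C 0 ^ 2 * N2 F.toPre 1 u ^ 2 := fun i => by
    have k := hF.l4 _ (s1 i) (c1 i)
    have k2 := n2_clm_le (μ := F.μ) F.sm (innerSL ℝ (b i)) 1 hu (FL_of_hcs 1 hu hc)
    rw [innerSL_apply_norm, b.orthonormal.1, one_pow, one_mul] at k2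
    rw [ip_eq] at k
    refine (Real.sqrt_le_left ?_).1 (k.trans (le_abs_self _)) |>.trans ?_
    · exact abs_nonneg _
    · rw [sq_abs, mul_pow]
      exact mul_le_mul_of_nonneg_left (pow_le_pow_left₀ (n2_nonneg _ _) k2 2) (sq_nonneg _)
  calc _ ≤ ∫ x, n * ∑ i, innerSL ℝ (b i) (u x) ^ 4 ∂F.μ := by
        refine integral_mono_of_nonneg (.of_forall fun x => by positivity)
          ((integrable_finsetSum _ fun i _ => i1 i).const_mul _) (.of_forall fun x => ?_)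
        have := sq_sum_le_card_mul_sum_sq (s := Finset.univ) (f := fun i => ⟪b i, u x⟫_ℝ ^ 2)
        rw [b.sum_sq_inner_right] at this
        simpa [← pow_mul, n] using this
    _ ≤ _ := by
        rw [integral_const_mul, integral_finsetSum _ fun i _ => i1 i, mul_assoc, mul_assoc]
        refine mul_le_mul_of_nonneg_left ((Finset.sum_le_card_nsmul _ _ _ fun i _ => h1 i).trans_eq ?_)
          (Nat.cast_nonneg _)
        simp [n]

theorem sup3 {F : Pre I M ι} {S : ℝ} (hS : Cht98.SupOn F univ S) {u : M → N} (hu : Sm I u)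
    (hc : HasCompactSupport u) (x : M) : ‖u x‖ ^ 2 ≤ |S| * N2 F 3 u := by
  obtain ⟨L, hL, hx⟩ := exists_dual_vector'' ℝ (u x)
  have h1 := hS (fun y => L (u y)) (L.contMDiff.comp hu) (hc.comp_left (g := L) (map_zero L))
    (subset_univ _) x
  have h2 := n2_clm_le (μ := F.μ) F.sm L 3 hu (FL_of_hcs 3 hu hc)
  rw [ip_eq, hx] at h1
  refine h1.trans ((mul_le_mul_of_nonneg_right (le_abs_self S) (n2_nonneg _ _)).trans
    (mul_le_mul_of_nonneg_left (h2.trans (mul_le_of_le_one_left (n2_nonneg _ _) ?_)) (abs_nonneg _)))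
  exact pow_le_one₀ (norm_nonneg _) hL

/-- windows -/
structure Wn (F : Pre I M ι) (X : Type) where
  S : X → ℝ → Set M
  cpt : ∀ d r, IsCompact (S d r)
  cut : ∀ r r', r < r' → ∃ C, ∀ d, ∃ χ : M → ℝ, F.CBs χ C ∧ tsupport χ ⊆ S d r ∧
    ∀ x ∈ S d r', χ =ᶠ[𝓝 x] fun _ => 1
  vol : ∀ r > 0, ∃ A, ∀ d, F.μ.real (S d r) ≤ A

/-- exponents of products -/
def Hol (p q s : ℕ) : Prop := (p = 0 ∧ q = s) ∨ (q = 0 ∧ p = s) ∨ (s ≠ 0 ∧ p = 2 * s ∧ q = 2 * s)

theorem holL (s : ℕ) : Hol 0 s s := .inl ⟨rfl, rfl⟩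
theorem holR (s : ℕ) : Hol s 0 s := .inr (.inl ⟨rfl, rfl⟩)
theorem hol4 : Hol 4 4 2 := .inr (.inr ⟨two_ne_zero, rfl, rfl⟩)

namespace Wn
variable {F : Pre I M ι} (w : Wn F X)

/-- bounds of integrals -/
def Ib (φ : X → M → ℝ) : Prop := ∀ r > 0, ∃ K, ∀ d, ∫ x in w.S d r, φ d x ∂F.μ ≤ K

/-- bounds in `L^p` -/
def Lp (p : ℕ) (f : X → M → N) : Prop :=
  (p = 0 → ∀ r > 0, ∃ K ≥ 0, ∀ d, ∀ x ∈ w.S d r, ‖f d x‖ ≤ K) ∧ w.Ib fun d x => ‖f d x‖ ^ p

/-- bounds of the derivatives of order `< j` -/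
def Jt (p : ℕ) : ℕ → (X → M → N) → Prop
  | 0, f => ∀ d, Sm I (f d)
  | j + 1, f => (∀ d, Sm I (f d)) ∧ w.Lp p f ∧ ∀ a, Jt p j fun d => F.D a (f d)

/-- true on all windows -/
def On (P : X → M → Prop) : Prop := ∀ r > 0, ∀ d, ∀ x ∈ w.S d r, P d x

variable {w} {φ ψ : X → M → ℝ} {f f' : X → M → N} {g : X → M → N'} {p q s i j : ℕ} {d : X}
  {r r' : ℝ} {x : M}

theorem ms : MeasurableSet (w.S d r) := (w.cpt d r).isClosed.measurableSet

theorem int {φ : M → ℝ} (h : Continuous φ) : IntegrableOn φ (w.S d r) F.μ :=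
  h.continuousOn.integrableOn_compact (w.cpt d r)

theorem nhd (h : r < r') (hx : x ∈ w.S d r') : w.S d r ∈ 𝓝 x := by
  obtain ⟨C, h⟩ := w.cut r r' h
  obtain ⟨χ, -, h1, h2⟩ := h d
  exact mem_of_superset (h2 x hx) fun y hy => h1 (subset_tsupport _ (by simpa using hy ▸ one_ne_zero))

theorem On.ev {P : X → M → Prop} (h : w.On P) : w.On fun d x => ∀ᶠ y in 𝓝 x, P d y :=
  fun _ hr d _ hx => mem_of_superset (nhd (half_lt_self hr) hx) (h _ (half_pos hr) d)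

theorem Ib.le (h : w.Ib ψ) (c1 : ∀ d, Continuous (φ d)) (c2 : ∀ d, Continuous (ψ d))
    (e : ∀ r > 0, ∃ K ≥ 0, ∀ d, ∀ x ∈ w.S d r, φ d x ≤ K * ψ d x) : w.Ib φ := fun r hr => by
  obtain ⟨K, K0, e⟩ := e r hr
  obtain ⟨A, h⟩ := h r hr
  refine ⟨K * A, fun d => (setIntegral_mono_on (int (c1 d)) (int (continuous_const.fun_mul (c2 d))) ms
    (e d)).trans ?_⟩
  rw [integral_const_mul]
  exact mul_le_mul_of_nonneg_left (h d) K0

theorem Ib.add (h : w.Ib φ) (h' : w.Ib ψ) (c1 : ∀ d, Continuous (φ d))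
    (c2 : ∀ d, Continuous (ψ d)) : w.Ib fun d x => φ d x + ψ d x := fun r hr => by
  obtain ⟨A, h⟩ := h r hr
  obtain ⟨B, h'⟩ := h' r hr
  exact ⟨A + B, fun d => (integral_add (int (c1 d)) (int (c2 d))).trans_le (add_le_add (h d) (h' d))⟩

theorem ib_one : w.Ib fun _ _ => 1 := fun r hr =>
  let ⟨A, h⟩ := w.vol r hr
  ⟨A, fun d => by simpa using h d⟩

theorem lp0 (h : ∀ r > 0, ∃ K, ∀ d, ∀ x ∈ w.S d r, ‖f d x‖ ≤ K) : w.Lp 0 f :=
  ⟨fun _ r hr => let ⟨K, h⟩ := h r hr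
    ⟨|K|, abs_nonneg K, fun d x hx => (h d x hx).trans (le_abs_self K)⟩, by simpa using ib_one⟩

theorem Lp.le (h : w.Lp p f) (c1 : ∀ d, Continuous (f d)) (c2 : ∀ d, Continuous (g d))
    (e : ∀ r > 0, ∃ K ≥ 0, ∀ d, ∀ x ∈ w.S d r, ‖g d x‖ ≤ K * ‖f d x‖) : w.Lp p g := by
  refine ⟨fun hp r hr => ?_, h.2.le (fun d => (c2 d).norm.pow p) (fun d => (c1 d).norm.pow p)
    fun r hr => ?_⟩ <;> obtain ⟨K, K0, e⟩ := e r hr
  · obtain ⟨A, A0, h⟩ := h.1 hp r hr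
    exact ⟨K * A, by positivity, fun d x hx => (e d x hx).trans (mul_le_mul_of_nonneg_left (h d x hx) K0)⟩
  · exact ⟨K ^ p, by positivity, fun d x hx =>
      (pow_le_pow_left₀ (norm_nonneg _) (e d x hx) p).trans_eq (mul_pow _ _ _)⟩

theorem Lp.of0 (h : w.Lp 0 f) (c : ∀ d, Continuous (f d)) : w.Lp p f :=
  ⟨fun _ => h.1 rfl, ib_one.le (fun d => (c d).norm.pow p) (fun _ => continuous_const) fun r hr =>
    let ⟨K, K0, h⟩ := h.1 rfl r hr
    ⟨K ^ p, by positivity, fun d x hx =>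
      (pow_le_pow_left₀ (norm_nonneg _) (h d x hx) p).trans_eq (mul_one _).symm⟩⟩

theorem Lp.add (h : w.Lp p f) (h' : w.Lp p f') (c : ∀ d, Continuous (f d))
    (c' : ∀ d, Continuous (f' d)) : w.Lp p fun d x => f d x + f' d x := by
  refine ⟨fun hp r hr => ?_, (h.2.add h'.2 (fun d => (c d).norm.pow p) fun d => (c' d).norm.pow p).le
    (fun d => ((c d).add (c' d)).norm.pow p) (fun d => ((c d).norm.pow p).add ((c' d).norm.pow p))
    fun r _ => ⟨2 ^ (p - 1), by positivity, fun d x _ => (pow_le_pow_left₀ (norm_nonneg _)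
      (norm_add_le _ _) p).trans (add_pow_le (norm_nonneg _) (norm_nonneg _) p)⟩⟩
  obtain ⟨A, A0, h⟩ := h.1 hp r hr
  obtain ⟨B, B0, h'⟩ := h'.1 hp r hr
  exact ⟨A + B, by positivity, fun d x hx => norm_add_le_of_le (h d x hx) (h' d x hx)⟩

theorem Lp.bil (B : N →L[ℝ] N' →L[ℝ] N'') (H : Hol p q s) (h : w.Lp p f) (h' : w.Lp q g)
    (c : ∀ d, Continuous (f d)) (c' : ∀ d, Continuous (g d)) :
    w.Lp s fun d x => B (f d x) (g d x) := by
  have c2 : ∀ d, Continuous fun x => B (f d x) (g d x) := fun d => by fun_prop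
  rcases H with ⟨rfl, rfl⟩ | ⟨rfl, rfl⟩ | ⟨h0, rfl, rfl⟩
  · refine h'.le c' c2 fun r hr => ?_
    obtain ⟨K, K0, h⟩ := h.1 rfl r hr
    exact ⟨‖B‖ * K, by positivity, fun d x hx => (B.le_opNorm₂ _ _).trans (by gcongr; exact h d x hx)⟩
  · refine h.le c c2 fun r hr => ?_
    obtain ⟨K, K0, h⟩ := h'.1 rfl r hr
    exact ⟨‖B‖ * K, by positivity, fun d x hx => (B.le_opNorm₂ _ _).trans
      ((mul_right_comm _ _ _).trans_le (by gcongr; exact h d x hx))⟩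
  · refine ⟨fun h => absurd h h0, (h.2.add h'.2 (fun d => (c d).norm.pow _)
      fun d => (c' d).norm.pow _).le (fun d => (c2 d).norm.pow _)
      (fun d => ((c d).norm.pow _).add ((c' d).norm.pow _)) fun r _ =>
      ⟨‖B‖ ^ s, by positivity, fun d x _ =>
        (pow_le_pow_left₀ (norm_nonneg _) (B.le_opNorm₂ _ _) s).trans ?_⟩⟩
    rw [mul_assoc, mul_pow, mul_pow, pow_mul', pow_mul']
    gcongr
    nlinarith [sq_nonneg (‖f d x‖ ^ s - ‖g d x‖ ^ s), sq_nonneg (‖f d x‖ ^ s + ‖g d x‖ ^ s)]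

namespace Jt

theorem sm : ∀ {j : ℕ}, w.Jt p j f → ∀ d, Sm I (f d)
  | 0, h => h
  | _ + 1, h => h.1

theorem ct (h : w.Jt p j f) (d : X) : Continuous (f d) := (h.sm d).continuous

theorem md (h : w.Jt p j f) (d : X) (x : M) : MDifferentiableAt I 𝓘(ℝ, N) (f d) x :=
  (h.sm d).mdifferentiableAt (by simp)

theorem D (h : w.Jt p (j + 1) f) (a : ι) : w.Jt p j fun d => F.D a (f d) := h.2.2 a

theorem lp (h : w.Jt p (j + 1) f) : w.Lp p f := h.2.1

theorem one (h : ∀ d, Sm I (f d)) (h' : w.Lp p f) : w.Jt p 1 f := ⟨h, h', fun a d => F.sm_D (h d) a⟩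

theorem pred : ∀ {j : ℕ} {f : X → M → N}, w.Jt p (j + 1) f → w.Jt p j f
  | 0, _, h => h.1
  | _ + 1, _, h => ⟨h.1, h.2.1, fun a => (h.D a).pred⟩

theorem of_le (h : w.Jt p j f) (hi : i ≤ j) : w.Jt p i f := by
  induction hi with
  | refl => exact h
  | step _ ih => exact ih h.pred

theorem of0 : ∀ {j : ℕ} {f : X → M → N}, w.Jt 0 j f → w.Jt p j f
  | 0, _, h => h
  | _ + 1, _, h => ⟨h.1, h.lp.of0 h.ct, fun a => (h.D a).of0⟩

theorem congr : ∀ {j : ℕ} {f f' : X → M → N}, w.Jt p j f → (∀ d, Sm I (f' d)) →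
    w.On (fun d x => f' d x = f d x) → w.Jt p j f'
  | 0, _, _, _, h, _ => h
  | _ + 1, _, _, h, h', e => ⟨h', h.lp.le h.ct (fun d => (h' d).continuous) fun r hr =>
      ⟨1, zero_le_one, fun d x hx => by rw [e r hr d x hx, one_mul]⟩, fun a =>
      (h.D a).congr (fun d => F.sm_D (h' d) a) fun r hr d x hx => dv_congr (e.ev r hr d x hx)⟩

theorem eq (h : w.Jt p j f) (e : ∀ d x, f' d x = f d x) : w.Jt p j f' :=
  (funext fun d => funext (e d) : f' = f) ▸ h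

theorem add : ∀ {j : ℕ} {f f' : X → M → N}, w.Jt p j f → w.Jt p j f' →
    w.Jt p j fun d x => f d x + f' d x
  | 0, _, _, h, h' => fun d => (h d).add (h' d)
  | _ + 1, _, _, h, h' => ⟨fun d => (h.1 d).add (h'.1 d), h.lp.add h'.lp h.ct h'.ct, fun a =>
      ((h.D a).add (h'.D a)).eq fun d x => dv_add (h.md d x) (h'.md d x)⟩

theorem bil (B : N →L[ℝ] N' →L[ℝ] N'') (H : Hol p q s) : ∀ {j : ℕ} {f : X → M → N}
    {g : X → M → N'}, w.Jt p j f → w.Jt q j g → w.Jt s j fun d x => B (f d x) (g d x)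
  | 0, _, _, h, h' => fun d => smooth_bil B (h d) (h' d)
  | _ + 1, _, _, h, h' => ⟨fun d => smooth_bil B (h.1 d) (h'.1 d), h.lp.bil B H h'.lp h.ct h'.ct,
      fun a => ((bil B H (h.D a) h'.pred).add (bil B H h.pred (h'.D a))).eq fun d x =>
        dv_bil B (h.md d x) (h'.md d x)⟩

theorem of_CB {C : ℝ} : ∀ {j : ℕ} {f : X → M → N}, (∀ d, Sm I (f d) ∧ F.CB j (f d) C) →
    w.Jt 0 (j + 1) f
  | 0, _, h => one (fun d => (h d).1) (lp0 fun _ _ => ⟨C, fun d x _ => CB_bound (h d).2 x⟩)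
  | _ + 1, _, h => ⟨fun d => (h d).1, lp0 fun _ _ => ⟨C, fun d x _ => CB_bound (h d).2 x⟩,
      fun a => of_CB fun d => ⟨F.sm_D (h d).1 a, CB_D (h d).2 a⟩⟩

theorem ub {C : ℕ → ℝ} (h : ∀ d, F.CBs (f d) C) : w.Jt p j f :=
  (of_CB fun d => ⟨(h d).1, (h d).2 j⟩).pred.of0

theorem cb {f : M → N} (h : F.Cb f) : w.Jt p j fun _ => f := let ⟨_, h⟩ := h; ub fun _ => h

theorem app {L : X → M → N →L[ℝ] N'} (h : w.Jt 0 j L) (h' : w.Jt p j f) :
    w.Jt p j fun d x => L d x (f d x) := bil (ContinuousLinearMap.id ℝ _) (holL p) h h'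

theorem clm (L : N →L[ℝ] N') (h : w.Jt p j f) : w.Jt p j fun d x => L (f d x) :=
  (cb (Cb_const L)).app h

theorem smul (h : w.Jt 0 j φ) (h' : w.Jt p j f) : w.Jt p j fun d x => φ d x • f d x :=
  bil (ContinuousLinearMap.lsmul ℝ ℝ) (holL p) h h'

theorem smulR (h : w.Jt p j φ) (h' : w.Jt 0 j f) : w.Jt p j fun d x => φ d x • f d x :=
  bil (ContinuousLinearMap.lsmul ℝ ℝ) (holR p) h h'

theorem neg (h : w.Jt p j f) : w.Jt p j fun d x => -f d x := h.clm (-ContinuousLinearMap.id ℝ N)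

theorem sub (h : w.Jt p j f) (h' : w.Jt p j f') : w.Jt p j fun d x => f d x - f' d x :=
  (h.add h'.neg).eq fun _ _ => sub_eq_add_neg _ _

theorem sum {κ : Type} [Fintype κ] {f : κ → X → M → N} (h : ∀ a, w.Jt p j (f a)) :
    w.Jt p j fun d x => ∑ a, f a d x := by
  classical
  suffices ∀ s : Finset κ, w.Jt p j fun d x => ∑ a ∈ s, f a d x from this _
  refine Finset.induction ((cb (Cb_const 0)).eq fun _ _ => rfl) fun a s ha ih => ?_
  exact ((h a).add ih).eq fun _ _ => Finset.sum_insert ha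

theorem mulL (B : N →L[ℝ] N' →L[ℝ] N'') (H : Hol p q 2) (h0 : w.Lp 0 g) (hs : ∀ d, Sm I (g d)) :
    ∀ {j : ℕ} {f : X → M → N}, w.Jt 2 (j + 1) f → w.Jt p j f →
      (∀ a, w.Jt q j fun d => F.D a (g d)) → w.Jt 2 (j + 1) fun d x => B (f d x) (g d x)
  | 0, _, h, _, _ => bil B (holR 2) h (one hs h0)
  | _ + 1, _, h, h1, h2 => ⟨fun d => smooth_bil B (h.1 d) (hs d),
      h.lp.bil B (holR 2) h0 h.ct fun d => (hs d).continuous, fun a =>
      ((mulL B H h0 hs (h.D a) (h1.D a) fun b => (h2 b).pred).add (bil B H h1 (h2 a))).eq fun d x =>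
        dv_bil B (h.md d x) ((hs d).mdifferentiableAt (by simp))⟩

theorem comp : ∀ {j : ℕ} {g : ℝ → ℝ}, ContDiff ℝ ∞ g → w.Jt 0 j φ → w.Jt 0 j fun d x => g (φ d x)
  | 0, _, hg, h => fun d => sm_comp hg (h d)
  | _ + 1, g, hg, h => ⟨fun d => sm_comp hg (h.1 d), lp0 fun r hr => by
      obtain ⟨K, -, h⟩ := h.lp.1 rfl r hr
      obtain ⟨A, hA⟩ := (isCompact_closedBall (0 : ℝ) K).exists_bound_of_continuousOn
        hg.continuous.continuousOn
      exact ⟨A, fun d x hx => hA _ (mem_closedBall_zero_iff.2 (h d x hx))⟩, fun a =>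
      ((comp (contDiff_infty_iff_deriv.1 hg).2 h.pred).smul (h.D a)).eq fun d x => by
        rw [D_comp hg (h.1 d)]; simp [mul_comm]⟩

theorem comp2 {g : ℝ → ℝ} (hg : ContDiff ℝ ∞ g) (h0 : w.Lp 0 fun d x => g (φ d x))
    (h : w.Jt 0 j φ) (h' : w.Jt 2 (j + 1) φ) : w.Jt 2 (j + 1) fun d x => g (φ d x) :=
  ⟨fun d => sm_comp hg (h.sm d), h0.of0 fun d => (sm_comp hg (h.sm d)).continuous, fun a =>
    ((h.comp (contDiff_infty_iff_deriv.1 hg).2).smul (h'.D a)).eq fun d x => by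
      rw [D_comp hg (h.sm d)]; simp [mul_comm]⟩

theorem bd : ∀ {j : ℕ} {f : X → M → N}, w.Jt 0 (j + 1) f → ∀ r > 0, ∃ K, ∀ d, ∀ v : List ι,
    v.length ≤ j → ∀ x ∈ w.S d r, ‖F.Dw v (f d) x‖ ≤ K
  | 0, _, h, r, hr => let ⟨K, _, h⟩ := h.lp.1 rfl r hr
      ⟨K, fun d v hv => by rw [List.length_eq_zero_iff.1 (Nat.le_zero.1 hv)]; exact h d⟩
  | _ + 1, _, h, r, hr => by
      obtain ⟨K, K0, h1⟩ := h.lp.1 rfl r hr
      choose A hA using fun a => bd (h.D a) r hr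
      have := Finset.sum_nonneg fun a (_ : a ∈ Finset.univ) => abs_nonneg (A a)
      refine ⟨K + ∑ a, |A a|, fun d v hv x hx => ?_⟩
      cases v with
      | nil => exact (h1 d x hx).trans (le_add_of_nonneg_right this)
      | cons a v => exact (hA a d v (by simpa using hv) x hx).trans ((le_abs_self _).trans
          ((Finset.single_le_sum (fun b _ => abs_nonneg (A b)) (Finset.mem_univ a)).trans
            (le_add_of_nonneg_left K0)))

theorem ns : ∀ {j : ℕ} {f : X → M → N}, w.Jt 2 (j + 1) f → ∀ r > 0, ∃ K, ∀ d,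
    NS F (w.S d r) j (f d) ≤ K
  | 0, _, h, r, hr => h.lp.2 r hr
  | _ + 1, _, h, r, hr => by
      obtain ⟨K, h1⟩ := h.lp.2 r hr
      choose A hA using fun a => ns (h.D a) r hr
      exact ⟨K + ∑ a, A a, fun d => add_le_add (h1 d) (Finset.sum_le_sum fun a _ => hA a d)⟩

theorem of_ns : ∀ {j : ℕ} {f : X → M → N}, (∀ d, Sm I (f d)) →
    (∀ r > 0, ∃ K, ∀ d, NS F (w.S d r) j (f d) ≤ K) → w.Jt 2 (j + 1) f
  | 0, _, hs, h => one hs ⟨fun h => absurd h two_ne_zero, h⟩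
  | j + 1, _, hs, h => ⟨hs, ⟨fun h => absurd h two_ne_zero, fun r hr => let ⟨K, h⟩ := h r hr
      ⟨K, fun d => (n2_mono (Nat.zero_le (j + 1)) _).trans (h d)⟩⟩, fun a =>
      of_ns (fun d => F.sm_D (hs d) a) fun r hr => let ⟨K, h⟩ := h r hr
        ⟨K, fun d => (n2_dv_le j _ a).trans (h d)⟩⟩

end Jt

/-- cut-off functions -/
theorem cut' (w : Wn F X) (h : r < r') : ∃ (C : ℕ → ℝ) (χ : X → M → ℝ), (∀ d, F.CBs (χ d) C) ∧
    (∀ d, tsupport (χ d) ⊆ w.S d r) ∧ (∀ d, HasCompactSupport (χ d)) ∧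
    ∀ d, ∀ x ∈ w.S d r', χ d =ᶠ[𝓝 x] fun _ => 1 := by
  obtain ⟨C, h⟩ := w.cut r r' h
  choose χ h1 h2 h3 using h
  exact ⟨C, χ, h1, h2, fun d => (w.cpt d r).of_isClosed_subset isClosed_closure (h2 d), h3⟩

theorem Jt.cut (h : w.Jt 2 (j + 1) f) (hr : 0 < r) : ∃ (K : ℝ) (u : X → M → N), ∀ d, Sm I (u d) ∧
    HasCompactSupport (u d) ∧ N2 F j (u d) ≤ K ∧ ∀ x ∈ w.S d r, u d x = f d x := by
  obtain ⟨C, χ, h1, h2, h3, h4⟩ := w.cut' (half_lt_self hr)
  obtain ⟨K, hK⟩ := ((Jt.ub h1).smul h).ns _ (half_pos hr)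
  refine ⟨K, fun d x => χ d x • f d x, fun d => ⟨(h1 d).1.smul (h.sm d), (h3 d).smul_right, ?_,
    fun x hx => by simp only [(h4 d x hx).self_of_nhds, one_smul]⟩⟩
  exact (NS_of_tsupport j ((tsupport_smul_subset_left _ _).trans (h2 d))).ge.trans (hK d)

theorem Jt.sob0 {S : ℝ} (hS : Cht98.SupOn F univ S) : ∀ {j : ℕ} {f : X → M → N},
    w.Jt 2 (j + 3) f → w.Jt 0 j f
  | 0, _, h => h.sm
  | j + 1, _, h => ⟨h.sm, lp0 fun r hr => by
      obtain ⟨K, u, H⟩ := (h.of_le (by omega : 3 + 1 ≤ _)).cut hr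
      refine ⟨√(|S| * K), fun d x hx => ?_⟩
      obtain ⟨h1, h2, h3, h4⟩ := H d
      exact h4 x hx ▸ Real.le_sqrt_of_sq_le ((sup3 hS h1 h2 x).trans (by gcongr)),
    fun a => sob0 hS (h.D a)⟩

variable {F : Fr I M ι} {w : Wn F.toPre X} {C C' : ℕ → ℝ} {u : X → M → V} {v : X → M → W}
  {A : Op M ι V W}

theorem Jt.sob4 (hF : F.Tame C) : ∀ {j : ℕ} {u : X → M → V}, w.Jt 2 (j + 1) u → w.Jt 4 j u
  | 0, _, h => h.sm
  | j + 1, u, h => ⟨h.sm, ⟨fun h => absurd h four_ne_zero, fun r hr => by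
      obtain ⟨K, u', H⟩ := (h.of_le (by omega : 1 + 1 ≤ _)).cut hr
      obtain ⟨L, hL⟩ := l4V (V := V) hF
      refine ⟨|L| * K ^ 2, fun d => ?_⟩
      obtain ⟨h1, h2, h3, h4⟩ := H d
      rw [setIntegral_congr_fun (g := fun x => ‖u' d x‖ ^ 4) ms fun x hx => by simp only [h4 x hx]]
      refine (setIntegral_le_integral (int4 F.toPre h1 h2) (.of_forall fun x => by positivity)).trans
        ((hL _ h1 h2).trans ?_)
      have := n2_nonneg (I := I) (e := F.e) (μ := F.μ) 1 (u' d)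
      gcongr
      exact le_abs_self L⟩,
    fun a => sob4 hF (h.D a)⟩

theorem Jt.alg (hF : F.Tame C) (B : V →L[ℝ] W →L[ℝ] N) (h : w.Jt 2 (j + 1) u) (h0 : w.Lp 0 u)
    (h' : w.Jt 2 (j + 1) v) (h0' : w.Lp 0 v) : w.Jt 2 (j + 1) fun d x => B (u d x) (v d x) := by
  cases j with
  | zero => exact .bil B (holR 2) h (.one h'.sm h0')
  | succ j => exact ⟨fun d => smooth_bil B (h.1 d) (h'.1 d), h.lp.bil B (holR 2) h0' h.ct h'.ct,
      fun a => ((Jt.mulL B hol4 h0' h'.sm (h.D a) ((h.D a).sob4 hF) fun b => (h'.D b).sob4 hF).add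
        (Jt.mulL B.flip hol4 h0 h.sm (h'.D a) ((h'.D a).sob4 hF) fun b => (h.D b).sob4 hF)).eq
        fun d x => dv_bil B (h.md d x) (h'.md d x)⟩

theorem Jt.lp8 (hF : F.Tame C) {φ : X → M → ℝ} (h : w.Jt 2 3 φ) : w.Lp 8 φ := by
  have := ((Jt.bil (ContinuousLinearMap.mul ℝ ℝ) hol4 (h.sob4 hF) (h.sob4 hF)).sob4 hF).lp.2
  refine ⟨fun h => absurd h (by norm_num), ?_⟩
  simpa [← sq, ← pow_mul, Even.pow_abs (n := 8) (by decide)] using this

theorem est (hF : F.Tame C) (hA : A.Good F C') (hc : A.CliffL F) (hr : r < r') (j : ℕ) :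
    ∃ K ≥ 0, ∀ d (u : M → V), Sm I u → (∀ x, A.p x (u x) = u x) → NS F.toPre (w.S d r') (j + 1) u ≤
      K * (NS F.toPre (w.S d r) j (A.app F u) + NS F.toPre (w.S d r) j u) := by
  obtain ⟨D, χ, h1, h2, h3, h4⟩ := w.cut' hr
  obtain ⟨K, K0, hK⟩ := loc_unif (ι := ι) I M V W fun k => max (max (C k) (C' k)) (D k)
  refine ⟨2 * K j ^ 2, by positivity, fun d u hu hp => ?_⟩
  have k1 := (nS_le_cut ms (h1 d).1 (h3 d) (h4 d) hu).trans (hK F A _
    (Tame_mono hF fun _ => (le_max_left _ _).trans (le_max_left _ _))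
    (Good_mono hA fun _ => (le_max_right _ _).trans (le_max_left _ _)) hc
    (CBs_mono (h1 d) fun _ => le_max_right _ _) (h3 d) j u hu fun x _ => hp x)
  have k2 := NS_mono (FS_of_compact (F := F.toPre) (w.cpt d r) j (sm_app hA hu)) (h2 d)
  have k3 := NS_mono (FS_of_compact (F := F.toPre) (w.cpt d r) j hu) (h2 d)
  replace k1 := (Real.sqrt_le_left (mul_nonneg (K0 j) (add_nonneg (nS_nonneg _) (nS_nonneg _)))).1 k1
  refine k1.trans ?_
  rw [mul_pow, mul_comm 2, mul_assoc]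
  refine mul_le_mul_of_nonneg_left ((add_sq_le).trans ?_) (sq_nonneg _)
  rw [nS, nS, Real.sq_sqrt (n2_nonneg _ _), Real.sq_sqrt (n2_nonneg _ _)]
  linarith

/-- the interior estimate -/
theorem Jt.ell (hF : F.Tame C) (hA : A.Good F C') (hc : A.CliffL F)
    (hp : ∀ d x, A.p x (u d x) = u d x) (h : w.Jt 2 (j + 1) u)
    (h' : w.Jt 2 (j + 1) fun d => A.app F (u d)) : w.Jt 2 (j + 2) u := .of_ns h.sm fun r hr => by
  obtain ⟨K, K0, hK⟩ := est (w := w) hF hA hc (half_lt_self hr) j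
  obtain ⟨K1, h1⟩ := h.ns _ (half_pos hr)
  obtain ⟨K2, h2⟩ := h'.ns _ (half_pos hr)
  exact ⟨K * (K2 + K1), fun d => (hK d _ (h.sm d) (hp d)).trans
    (mul_le_mul_of_nonneg_left (add_le_add (h2 d) (h1 d)) K0)⟩

theorem young (x y : ℝ) {n δ : ℝ} (hn : 0 < n) (hδ : 0 < δ) :
    (x * y) ^ 2 ≤ δ * n * x ^ 8 + δ / n * y ^ 4 + δ⁻¹ * y ^ 2 := by
  have h1 : 2 * x ^ 4 * y ^ 2 ≤ n * x ^ 8 + y ^ 4 / n := by
    rw [← sub_nonneg, show n * x ^ 8 + y ^ 4 / n - 2 * x ^ 4 * y ^ 2 = (n * x ^ 4 - y ^ 2) ^ 2 / n by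
      field_simp; ring]
    positivity
  have h2 : x ^ 2 ≤ 2 * δ * x ^ 4 + δ⁻¹ := by
    rw [← sub_nonneg, show 2 * δ * x ^ 4 + δ⁻¹ - x ^ 2 = ((δ * x ^ 2 - 1) ^ 2 + (δ * x ^ 2) ^ 2 +
      δ * x ^ 2) / δ by field_simp; ring]
    positivity
  have h3 := mul_le_mul_of_nonneg_left h1 hδ.le
  have h4 := mul_le_mul_of_nonneg_right h2 (sq_nonneg y)
  rw [mul_pow, div_mul_eq_mul_div, mul_div_assoc]
  linarith

/-- the step from `H¹` to `H²` with a coefficient in `H¹ ∩ L⁸` -/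
theorem Jt.ell2 (hF : F.Tame C) (hA : A.Good F C') (hc : A.CliffL F)
    (hp : ∀ d x, A.p x (u d x) = u d x) (h : w.Jt 2 2 u) (h0 : w.Lp 0 u) {m : X → M → V →L[ℝ] W}
    (hm : w.Jt 2 2 m) (h8 : w.Lp 8 m) (hv : w.Jt 2 2 v)
    (e : w.On fun d x => A.app F (u d) x = m d x (u d x) + v d x) : w.Jt 2 3 u :=
  .of_ns h.sm fun r hr => by
  have r2 := half_pos hr
  have r4 := half_pos r2
  obtain ⟨D, χ, h1, h2, h3, h4⟩ := w.cut' (half_lt_self hr)
  obtain ⟨K, K0, hK⟩ := est (w := w) hF hA hc (half_lt_self r2) 1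
  obtain ⟨L, hL⟩ := l4V (V := V) hF
  set ψ : X → M → V := fun d x => χ d x • u d x with hψ
  have jχ : ∀ j, w.Jt 0 j χ := fun _ => .ub h1
  have jψ : w.Jt 2 2 ψ := (jχ 2).smul h
  have j0 : w.Jt 0 1 ψ := (jχ 1).smul (.one h.sm h0)
  have cψ : ∀ d, HasCompactSupport (ψ d) := fun d => (h3 d).smul_right
  have jG : w.Jt 2 2 fun d x => χ d x • v d x + sy F A (χ d) x (u d x) :=
    ((jχ 2).smul hv).add ((Jt.sum fun a => ((jχ 3).D a).smul (.cb ⟨_, hA.σ a⟩)).app h)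
  obtain ⟨K1, k1⟩ := jψ.ns _ r4
  obtain ⟨K2, k2⟩ := jG.ns _ r4
  obtain ⟨K3, k3⟩ := (Jt.bil (ContinuousLinearMap.id ℝ _) (holR 2) hm.pred j0).lp.2 _ r4
  choose K4 k4 using fun a => (Jt.bil (ContinuousLinearMap.id ℝ _) (holR 2) (hm.D a) j0).lp.2 _ r4
  obtain ⟨K8, k8⟩ := h8.2 _ r4
  set Q : ℝ := 4 * K * Fintype.card ι * (|K8| + |L|) with hQ
  have Q0 : 0 ≤ Q := by positivity
  set δ := (2 * (Q + 1))⁻¹
  have δ0 : 0 < δ := by positivity
  have δ1 : δ * Q ≤ 1 / 2 := by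
    rw [mul_comm, ← div_eq_mul_inv, div_le_iff₀ (by positivity)]; linarith
  refine ⟨2 * (1 + K * (2 * (K3 + ∑ a, 2 * K4 a + 2 * (Fintype.card ι * (δ⁻¹ * K1))) + 2 * K2 + K1)),
    fun d => ?_⟩
  have sψ := jψ.sm d
  have tψ : tsupport (ψ d) ⊆ w.S d (r / 2) := (tsupport_smul_subset_left _ _).trans (h2 d)
  have a1 : NS F.toPre (w.S d r) 2 (u d) ≤ N2 F.toPre 2 (ψ d) :=
    (NS_congr ms 2 fun x hx => (h4 d x hx).mono fun y hy => by simp [hψ, hy]).trans_le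
      (NS_le (FL_of_hcs 2 sψ (cψ d)) _)
  have a2 := hK d _ sψ fun x => by simp only [hψ, map_smul, hp]
  rw [NS_of_tsupport 2 tψ, show A.app F (ψ d) = (fun x => m d x (ψ d x)) +
      fun x => χ d x • v d x + sy F A (χ d) x (u d x) from funext fun x => by
    rw [app_smul (h1 d).1 (h.sm d), Pi.add_apply, ← add_assoc, hψ]
    by_cases hx : x ∈ w.S d (r / 2)
    · simp only [e _ r2 d x hx, smul_add, map_smul]
    · simp [image_eq_zero_of_notMem_tsupport fun k => hx (h2 d k)]] at a2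
  have sm : Sm I fun x => m d x (ψ d x) := (hm.sm d).clm_apply sψ
  have a3 := n2_add_le F.sm 1 sm (jG.sm d) (FS_of_compact (F := F.toPre) (w.cpt d (r / 2 / 2)) 1 sm)
    (FS_of_compact (F := F.toPre) (w.cpt d (r / 2 / 2)) 1 (jG.sm d))
  set n := N2 F.toPre 2 (ψ d) + 1 with hn
  have n0 : 0 < n := add_pos_of_nonneg_of_pos (n2_nonneg _ _) one_pos
  have a4 : ∀ a, NS F.toPre (w.S d (r / 2 / 2)) 0 (F.D a fun x => m d x (ψ d x)) ≤
      2 * K4 a + 2 * (δ * n * (|K8| + |L|) + δ⁻¹ * K1) := fun a => by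
    have sD := F.sm_D sψ a
    have c1 : Continuous fun x => ‖F.D a (m d) x (ψ d x)‖ ^ 2 :=
      ((F.sm_D (hm.sm d) a).clm_apply sψ).continuous.norm.fun_pow 2
    have c2 := continuous_const (y := δ * n).fun_mul ((hm.ct d).norm.fun_pow 8)
    have c3 := continuous_const (y := δ / n).fun_mul (sD.continuous.norm.fun_pow 4)
    have c4 := continuous_const (y := δ⁻¹).fun_mul (sD.continuous.norm.fun_pow 2)
    have c5 := continuous_const (y := (2 : ℝ)).fun_mul c1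
    have c6 := continuous_const (y := (2 : ℝ)).fun_mul ((c2.fun_add c3).fun_add c4)
    have b1 : ∫ x in w.S d (r / 2 / 2), ‖F.D a (ψ d) x‖ ^ 4 ∂F.μ ≤ |L| * n ^ 2 :=
      (setIntegral_le_integral (int4 F.toPre sD (F.hcs_D (cψ d) a)) (.of_forall fun x => by positivity)).trans ((hL _ sD (F.hcs_D (cψ d) a)).trans
        (mul_le_mul (le_abs_self L) (pow_le_pow_left₀ (n2_nonneg _ _)
          ((n2_dv_le 1 _ a).trans (le_add_of_nonneg_right zero_le_one)) 2) (sq_nonneg _) (abs_nonneg _)))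
    have b2 : ∫ x in w.S d (r / 2 / 2), ‖F.D a (ψ d) x‖ ^ 2 ∂F.μ ≤ K1 := (n2_dv_le 0 _ a).trans (k1 d)
    refine (setIntegral_mono_on (int ((F.sm_D sm a).continuous.norm.fun_pow 2))
      (int (c5.fun_add c6)) ms fun x _ => ?_).trans ?_
    · rw [show F.D a (fun x => m d x (ψ d x)) x = _ from dv_app (hm.md d x) (jψ.md d x)]
      refine (pow_le_pow_left₀ (norm_nonneg _) (norm_add_le _ _) 2).trans (add_sq_le.trans ?_)
      have := (pow_le_pow_left₀ (norm_nonneg _) ((m d x).le_opNorm (F.D a (ψ d) x)) 2).trans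
        (young _ _ n0 δ0)
      rw [mul_add]
      exact add_le_add le_rfl (mul_le_mul_of_nonneg_left this zero_le_two)
    · rw [integral_add (int c5) (int c6),
        integral_const_mul, integral_const_mul, integral_add (int (c2.fun_add c3)) (int c4),
        integral_add (int c2) (int c3), integral_const_mul, integral_const_mul, integral_const_mul]
      have b3 := mul_le_mul_of_nonneg_left b1 (div_pos δ0 n0).le
      rw [show δ / n * (|L| * n ^ 2) = δ * n * |L| by field_simp] at b3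
      have b4 := mul_le_mul_of_nonneg_left ((k8 d).trans (le_abs_self _)) (mul_pos δ0 n0).le
      have b5 := mul_le_mul_of_nonneg_left b2 (inv_pos.2 δ0).le
      have b6 : ∫ x in w.S d (r / 2 / 2), ‖F.D a (m d) x (ψ d x)‖ ^ 2 ∂F.μ ≤ K4 a := k4 a d
      linarith
  have a5 : NS F.toPre (w.S d (r / 2 / 2)) 1 (fun x => m d x (ψ d x)) ≤ K3 + ∑ a, _ :=
    add_le_add (k3 d) (Finset.sum_le_sum fun a _ => a4 a)
  rw [Finset.sum_add_distrib, Finset.sum_const, Finset.card_univ, nsmul_eq_mul] at a5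
  have a6 := a2.trans (mul_le_mul_of_nonneg_left (add_le_add (a3.trans (add_le_add
    (mul_le_mul_of_nonneg_left a5 zero_le_two) (mul_le_mul_of_nonneg_left (k2 d) zero_le_two)))
    (k1 d)) K0)
  have a7 := mul_le_mul_of_nonneg_right δ1 n0.le
  rw [hQ] at a7
  nlinarith

end Wn

end Crest.Agent.X212.Lw78
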