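import Crest.Agent.X212.Gla92.Lf2
import Crest.Agent.X212.Dw82.Vol

/-!
# Row 212, GLL-MOV (helper78): quadratic maps, decaying families
-/

set_option autoImplicit false
set_option linter.unusedSectionVars false
set_option maxSynthPendingDepth 3
noncomputable section
open scoped Manifold ContDiff Topology ENNReal NNReal
open MeasureTheory Set Function Filter Real

namespace Crest.Agent.X212.Lw78.Mv
open An Sob92 Prm93 Gl67 Gla92
open Ell97 (UB)
open Wz78 (curv)
open Map77 (ij pj sum_ij fm_ext)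
open Cht98 (Agr)

/-! ### quadratic maps -/

section qd
variable {U V V' : Type} [NormedAddCommGroup U] [NormedSpace ℝ U] [AddCommGroup V] [Module ℝ V]
  [AddCommGroup V'] [Module ℝ V'] {f g : U → V}

/-- quadratic maps that vanish at the origin -/
def Qd (f : U → V) : Prop :=
  ∃ (L : U →ₗ[ℝ] V) (Q : U →ₗ[ℝ] U →ₗ[ℝ] V), ∀ u, f u = L u + Q u u

theorem Qd.congr (h : Qd f) (e : ∀ u, g u = f u) : Qd g := (funext e : g = f) ▸ h

theorem Qd.lin (L : U →ₗ[ℝ] V) : Qd L := ⟨L, 0, fun _ => by simp⟩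

theorem Qd.add (h : Qd f) (h' : Qd g) : Qd fun u => f u + g u :=
  let ⟨L, Q, h⟩ := h; let ⟨L', Q', h'⟩ := h'
  ⟨L + L', Q + Q', fun u => by simp only [h, h', LinearMap.add_apply]; abel⟩

theorem Qd.map (T : V →ₗ[ℝ] V') (h : Qd f) : Qd fun u => T (f u) :=
  let ⟨L, Q, h⟩ := h
  ⟨T ∘ₗ L, Q.compr₂ T, fun u => by simp [h]⟩

theorem Qd.sub (h : Qd f) (h' : Qd g) : Qd fun u => f u - g u :=
  (h.add (h'.map (-LinearMap.id))).congr fun u => by simp [sub_eq_add_neg]

theorem Qd.pi {Y : Type} {f : U → Y → V} (h : ∀ y, Qd fun u => f u y) : Qd f := by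
  choose L Q h using h
  exact ⟨.pi L, .mk₂ ℝ (fun u v y => Q y u v) (fun _ _ _ => funext fun _ => by simp)
    (fun _ _ _ => funext fun _ => by simp) (fun _ _ _ => funext fun _ => by simp)
    fun _ _ _ => funext fun _ => by simp, fun u => funext fun y => h y u⟩

theorem Qd.mul {𝔸 : Type} [Ring 𝔸] [Algebra ℝ 𝔸] (L L' : U →ₗ[ℝ] 𝔸) : Qd fun u => L u * L' u :=
  ⟨0, (LinearMap.mul ℝ 𝔸).compl₁₂ L L', fun _ => by simp⟩

theorem Qd.fin [FiniteDimensional ℝ U] (h : Qd f) (𝒲 : Submodule ℝ V) (hw : ∀ᶠ u in 𝓝 0, f u ∈ 𝒲) :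
    ∃ (n : ℕ) (c : Fin n → U → ℝ) (γ : Fin n → V), (∀ a, ContDiff ℝ ∞ (c a)) ∧ (∀ a, γ a ∈ 𝒲) ∧
      ∀ u, f u = ∑ a, c a u • γ a := by
  obtain ⟨L, Q, h⟩ := h
  have k : ∀ u, L u ∈ 𝒲 ∧ Q u u ∈ 𝒲 := fun u => by
    have t1 : Tendsto (fun t : ℝ => t • u) (𝓝[>] 0) (𝓝 0) :=
      ((show Continuous fun t : ℝ => t • u by fun_prop).tendsto' 0 0 (by simp)).mono_left
        nhdsWithin_le_nhds
    obtain ⟨t, ⟨h1, h2⟩, t0⟩ := (((t1.eventually hw).and
      ((by simpa using t1.neg : Tendsto (fun t : ℝ => -(t • u)) _ (𝓝 0)).eventually hw)).and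
        self_mem_nhdsWithin).exists
    have t0 : t ≠ 0 := ne_of_gt t0
    rw [h] at h1 h2
    constructor
    · convert 𝒲.smul_mem (2 * t)⁻¹ (𝒲.sub_mem h1 h2) using 1
      simp only [map_neg, map_smul, LinearMap.neg_apply, LinearMap.smul_apply]
      match_scalars <;> field_simp <;> ring
    · convert 𝒲.smul_mem (2 * t * t)⁻¹ (𝒲.add_mem h1 h2) using 1
      simp only [map_neg, map_smul, LinearMap.neg_apply, LinearMap.smul_apply]
      match_scalars <;> field_simp <;> ring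
  have k2 : ∀ u v, Q u v + Q v u ∈ 𝒲 := fun u v => by
    convert 𝒲.sub_mem (𝒲.sub_mem (k (u + v)).2 (k u).2) (k v).2 using 1
    simp only [map_add, LinearMap.add_apply]; abel
  let e := Module.finBasis ℝ U
  let m := Module.finrank ℝ U
  have sc : ∀ a, ContDiff ℝ ∞ fun u => e.coord a u := fun a =>
    (LinearMap.toContinuousLinearMap (e.coord a)).contDiff
  let φ := Fintype.equivFin (Fin m ⊕ Fin m × Fin m)
  let c : Fin m ⊕ Fin m × Fin m → U → ℝ :=
    Sum.elim (fun a u => e.coord a u) fun p u => 2⁻¹ * (e.coord p.1 u * e.coord p.2 u)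
  let γ : Fin m ⊕ Fin m × Fin m → V :=
    Sum.elim (fun a => L (e a)) fun p => Q (e p.1) (e p.2) + Q (e p.2) (e p.1)
  refine ⟨_, c ∘ φ.symm, γ ∘ φ.symm, fun a => ?_, fun a => ?_, fun u => ?_⟩
  · rcases hp : φ.symm a with b | p <;> simp only [comp_apply, hp]
    exacts [sc b, contDiff_const.mul ((sc _).mul (sc _))]
  · rcases hp : φ.symm a with b | p <;> simp only [comp_apply, hp]
    exacts [(k _).1, k2 _ _]
  · rw [show ∑ a, (c ∘ φ.symm) a u • (γ ∘ φ.symm) a = ∑ a, c a u • γ a from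
      φ.symm.sum_comp fun a => c a u • γ a, Fintype.sum_sum_type, Fintype.sum_prod_type, h]
    have e1 : Q u u = ∑ a, ∑ b, (e.coord a u * e.coord b u) • Q (e a) (e b) := by
      conv_lhs => rw [← e.sum_repr u]
      simp only [map_sum, map_smul, LinearMap.sum_apply, LinearMap.smul_apply, Finset.smul_sum,
        smul_smul, Module.Basis.coord_apply]
      rw [Finset.sum_comm]
      exact Finset.sum_congr rfl fun _ _ => Finset.sum_congr rfl fun _ _ => by rw [mul_comm]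
    have e2 : Q u u = ∑ a, ∑ b, (e.coord a u * e.coord b u) • Q (e b) (e a) := by
      rw [e1, Finset.sum_comm]
      exact Finset.sum_congr rfl fun _ _ => Finset.sum_congr rfl fun _ _ => by rw [mul_comm]
    congr 1
    · conv_lhs => rw [← e.sum_repr u, map_sum]
      simp only [map_smul]
      rfl
    · simp only [c, γ, Sum.elim_inr, smul_add, Finset.sum_add_distrib, mul_smul (2⁻¹ : ℝ),
        ← Finset.smul_sum]
      rw [← e1, ← e2]
      module

end qd

variable {E : Type} [NormedAddCommGroup E] [NormedSpace ℝ E] [FiniteDimensional ℝ E]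
  [MeasurableSpace E] [BorelSpace E]
  {HM : Type} [TopologicalSpace HM] {I : ModelWithCorners ℝ E HM} [I.Boundaryless]
  {M : Type} [TopologicalSpace M] [ChartedSpace HM M] [IsManifold I ∞ M]
  [MeasurableSpace M] [T2Space M] [BorelSpace M] [SecondCountableTopology M]
  {ι lam : Type} [Fintype ι] [Fintype lam] {J : Type}
  {V V' V'' : Type} [NormedAddCommGroup V] [NormedSpace ℝ V] [NormedAddCommGroup V']
  [NormedSpace ℝ V'] [NormedAddCommGroup V''] [NormedSpace ℝ V'']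

/-! ### decaying families -/

section dk

theorem Dw_add_on {F : Pre I M ι} {O : Set M} (hO : IsOpen O) (w : List ι) : ∀ {u v : M → V},
    SmO I O u → SmO I O v → ∀ x ∈ O, F.Dw w (u + v) x = F.Dw w u x + F.Dw w v x := by
  induction w with
  | nil => exact fun _ _ _ _ => rfl
  | cons a w ih =>
    intro u v hu hv x hx
    exact (Dw_congr w ((hO.eventually_mem hx).mono fun y hy => dv_add
      ((hu y hy).mdifferentiableAt (by simp)) ((hv y hy).mdifferentiableAt (by simp)))).trans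
        (ih (hu.D a) (hv.D a) x hx)

/-- all derivatives are uniformly bounded by `g` on `O` -/
structure Dk (F : J → Pre I M ι) (O : J → Set M) (g : J → M → ℝ) (f : J → M → V) : Prop where
  op : ∀ i, IsOpen (O i)
  g0 : ∀ i x, 0 ≤ g i x
  sm : ∀ i, SmO I (O i) (f i)
  bd : ∀ w : List ι, ∃ C, ∀ i, ∀ x ∈ O i, ‖(F i).Dw w (f i) x‖ ≤ C * g i x

variable {F : J → Pre I M ι} {O : J → Set M} {g : J → M → ℝ} {f f' : J → M → V}

theorem Dk.D (h : Dk F O g f) (a : ι) : Dk F O g fun i => (F i).D a (f i) :=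
  ⟨h.op, h.g0, fun i => (h.sm i).D a, fun w => h.bd (a :: w)⟩

theorem Dk.congr (h : Dk F O g f) (e : ∀ i, ∀ x ∈ O i, f' i x = f i x) : Dk F O g f' :=
  have ev : ∀ i, ∀ x ∈ O i, f' i =ᶠ[𝓝 x] f i := fun i _ hx =>
    ((h.op i).eventually_mem hx).mono (e i)
  ⟨h.op, h.g0, fun i x hx => (h.sm i x hx).congr_of_eventuallyEq (ev i x hx), fun w =>
    (h.bd w).imp fun _ k i x hx => (Dw_congr (F := F i) w (ev i x hx)).symm ▸ k i x hx⟩

theorem Dk.add (h : Dk F O g f) (h' : Dk F O g f') : Dk F O g fun i x => f i x + f' i x :=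
  ⟨h.op, h.g0, fun i x hx => (h.sm i x hx).add (h'.sm i x hx), fun w =>
    let ⟨C, k⟩ := h.bd w; let ⟨C', k'⟩ := h'.bd w
    ⟨C + C', fun i x hx => ((congrArg norm (Dw_add_on (h.op i) w (h.sm i) (h'.sm i) x hx)).trans_le
      ((norm_add_le _ _).trans (add_le_add (k i x hx) (k' i x hx)))).trans_eq (add_mul _ _ _).symm⟩⟩

theorem Dk.bil (B : V' →L[ℝ] V →L[ℝ] V'') {u : J → M → V'} (hu : UB F u) (h : Dk F O g f) :
    Dk F O g fun i x => B (u i x) (f i x) := by
  have s : ∀ {u : J → M → V'} {f : J → M → V}, UB F u → Dk F O g f →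
      ∀ i, SmO I (O i) fun x => B (u i x) (f i x) := fun hu h i x hx =>
    (B.contMDiff.contMDiffAt.comp x (hu.sm i x)).clm_apply (h.sm i x hx)
  refine ⟨h.op, h.g0, s hu h, fun w => ?_⟩
  induction w generalizing u f with
  | nil =>
    obtain ⟨C, k⟩ := h.bd []
    obtain ⟨D, hD⟩ := hu
    exact ⟨‖B‖ * |D 0| * C, fun i x hx => (B.le_opNorm₂ _ _).trans ((mul_le_mul
      (mul_le_mul_of_nonneg_left ((CB_bound ((hD i).2 0) x).trans (le_abs_self _)) (norm_nonneg _))
      (k i x hx) (norm_nonneg _) (by positivity)).trans_eq (by ring))⟩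
  | cons a w ih =>
    obtain ⟨C, k⟩ := ih (hu.D a) h
    obtain ⟨C', k'⟩ := ih hu (h.D a)
    refine ⟨C + C', fun i x hx => ?_⟩
    exact ((congrArg norm ((Dw_congr w (((h.op i).eventually_mem hx).mono fun y hy => dv_bil B
      ((hu.sm i y).mdifferentiableAt (by simp)) ((h.sm i y hy).mdifferentiableAt (by simp)))).trans
      (Dw_add_on (h.op i) w (s (hu.D a) h i) (s hu (h.D a) i) x hx))).trans_le
      ((norm_add_le _ _).trans (add_le_add (k i x hx) (k' i x hx)))).trans_eq (add_mul _ _ _).symm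

theorem Dk.app {u : J → M → V →L[ℝ] V'} (hu : UB F u) (h : Dk F O g f) :
    Dk F O g fun i x => u i x (f i x) := h.bil (.id ℝ _) hu

theorem Dk.clm (L : V →L[ℝ] V') (h : Dk F O g f) : Dk F O g fun i x => L (f i x) :=
  h.app (UB.const L)

theorem Dk.smul {u : J → M → ℝ} (hu : UB F u) (h : Dk F O g f) :
    Dk F O g fun i x => u i x • f i x := h.bil (.lsmul ℝ ℝ) hu

theorem Dk.sub (h : Dk F O g f) (h' : Dk F O g f') : Dk F O g fun i x => f i x - f' i x :=
  (h.add (h'.clm (-.id ℝ V))).congr fun _ _ _ => by simp [sub_eq_add_neg]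

theorem Dk.zero (op : ∀ i, IsOpen (O i)) (g0 : ∀ i x, 0 ≤ g i x) :
    Dk F O g fun _ _ => (0 : V) :=
  ⟨op, g0, fun _ _ _ => contMDiffAt_const, fun w => ⟨0, fun i x _ => by
    simpa using CB_const (F := F i) w.length (0 : V) w le_rfl x⟩⟩

theorem Dk.sum {K : Type} [Fintype K] (op : ∀ i, IsOpen (O i)) (g0 : ∀ i x, 0 ≤ g i x)
    {f : K → J → M → V} (h : ∀ a, Dk F O g (f a)) : Dk F O g fun i x => ∑ a, f a i x := by
  classical
  induction (Finset.univ : Finset K) using Finset.induction_on with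
  | empty => simpa using Dk.zero op g0
  | insert a s ha ih => simpa only [Finset.sum_insert ha] using (h a).add ih

/-- from the ends to the whole manifold -/
theorem Dk.glue (h : Dk F O g f) (hu : UB F f) (e : ∀ i, ∀ x ∉ O i, 1 ≤ g i x) :
    Dk F (fun _ => univ) g f := by
  refine ⟨fun _ => isOpen_univ, h.g0, fun i => smO (hu.sm i), fun w => ?_⟩
  obtain ⟨C, k⟩ := h.bd w
  obtain ⟨D, hD⟩ := hu
  refine ⟨|C| + |D w.length|, fun i x _ => ?_⟩
  have := h.g0 i x
  by_cases hx : x ∈ O i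
  · refine (k i x hx).trans (mul_le_mul_of_nonneg_right ?_ this)
    linarith [le_abs_self C, abs_nonneg (D w.length)]
  · nlinarith [(hD i).2 _ w le_rfl x, e i x hx, le_abs_self (D w.length), abs_nonneg C,
      abs_nonneg (D w.length)]

theorem Dk.ub (h : Dk F (fun _ => univ) g f) (e : ∀ i x, g i x ≤ 1) : UB F f := by
  choose c hc using h.bd
  choose C hC using fun k => ((List.finite_length_le ι k).image fun w => |c w|).bddAbove
  exact ⟨C, fun i => ⟨fun x => h.sm i x trivial, fun k w hw x => (hc w i x trivial).trans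
    ((mul_le_mul (le_abs_self _) (e i x) (h.g0 i x) (abs_nonneg _)).trans
      ((mul_one _).trans_le (hC k ⟨w, hw, rfl⟩)))⟩⟩

theorem Dk.jet (k : ℕ) : ∀ {f : J → M → V}, Dk F O g f →
    ∃ C, 0 ≤ C ∧ ∀ i, ∀ x ∈ O i, Gl67.J (F i) k (f i) x ≤ C * g i x ^ 2 := by
  have h0 : ∀ {f : J → M → V}, Dk F O g f →
      ∃ C, 0 ≤ C ∧ ∀ i, ∀ x ∈ O i, ‖f i x‖ ^ 2 ≤ C * g i x ^ 2 := fun h =>
    let ⟨C, k⟩ := h.bd []
    ⟨C ^ 2, sq_nonneg C, fun i x hx =>
      (pow_le_pow_left₀ (norm_nonneg _) (k i x hx) 2).trans_eq (mul_pow _ _ _)⟩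
  induction k with
  | zero => exact h0
  | succ k ih =>
    intro f h
    obtain ⟨C, C0, hC⟩ := h0 h
    choose D D0 hD using fun a => ih (h.D a)
    refine ⟨C + ∑ a, D a, add_nonneg C0 (Finset.sum_nonneg fun a _ => D0 a), fun i x hx => ?_⟩
    rw [add_mul, Finset.sum_mul]
    exact add_le_add (hC i x hx) (Finset.sum_le_sum fun a _ => hD a i x hx)

/-- the decaying families -/
def dkS (F : J → Pre I M ι) (g : J → M → ℝ) (g0 : ∀ i x, 0 ≤ g i x) (V : Type)
    [NormedAddCommGroup V] [NormedSpace ℝ V] : Submodule ℝ (J → M → V) where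
  carrier := {f | Dk F (fun _ => univ) g f}
  add_mem' := Dk.add
  zero_mem' := Dk.zero (fun _ => isOpen_univ) g0
  smul_mem' c _ h := Dk.smul (UB.const c) h

end dk

variable {T U Up R : Type} [NormedAddCommGroup T] [NormedSpace ℝ T] [NormedAddCommGroup U]
  [NormedSpace ℝ U] [NormedAddCommGroup Up] [NormedSpace ℝ Up] [NormedAddCommGroup R]
  [NormedSpace ℝ R] {N : ℕ} {Jc : En (Fin N)}

theorem wb_of {𝔉 : J → Mod61.Fam I M ι lam T} {s : ∀ i, Sid (𝔉 i) N Jc U Up R} {δ e : ℝ} (k : ℕ)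
    (h0 : ∀ i x, 0 ≤ (s i).ht x) (δ0 : 0 ≤ δ) (e0 : 0 ≤ e) (vol : ∃ K : ℝ≥0, ∀ i,
      ∫⁻ x, ENNReal.ofReal (exp (-(2 * e - 4 * δ) * (s i).ht x)) ∂(𝔉 i).F0.μ ≤ K) {f : J → M → V}
    (h : Dk (P0 𝔉) (fun _ => univ) (fun i x => exp (-e * (s i).ht x)) f) : Wb s δ k f := by
  refine ⟨h.ub fun i x => exp_le_one_iff.2 (by nlinarith [h0 i x]), ?_⟩
  obtain ⟨K, hK⟩ := vol
  obtain ⟨C, C0, hC⟩ := h.jet k
  refine ⟨C.toNNReal * K, fun i => le_trans ?_ (mul_le_mul_right (hK i) (ENNReal.ofReal C))⟩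
  rw [Gl67.N, Measure.restrict_univ, ← lintegral_const_mul' _ _ ENNReal.ofReal_ne_top]
  refine lintegral_mono fun x => (ENNReal.ofReal_le_ofReal ?_).trans_eq (ENNReal.ofReal_mul C0)
  refine (mul_le_mul_of_nonneg_left (hC i x trivial) (exp_pos _).le).trans ?_
  rw [mul_left_comm, sq, ← exp_add, ← exp_add]
  have := Dw82.ka_le ((s i).ht x)
  rw [abs_of_nonneg (h0 i x)] at this
  exact mul_le_mul_of_nonneg_left (exp_le_exp.2 (by
    nlinarith [mul_nonneg δ0 (ka_nonneg (-(s i).ht x))])) C0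

end Crest.Agent.X212.Lw78.Mv
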