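import Crest.Agent.X212.Lw78.MovA

/-!
# Row 212, GLL-MOV (helper78): the moved curvature row
-/

set_option autoImplicit false
set_option linter.unusedSectionVars false
set_option maxSynthPendingDepth 3
noncomputable section
open scoped Manifold ContDiff Topology ENNReal NNReal
open MeasureTheory Set Function Filter Real

namespace Crest.Agent.X212.Lw78.Mv
open An Sob92 Prm93 Gl67 Gla92
open Ell97 (UB)
open Wz78 (curv)
open Map77 (ij pj sum_ij fm_ext)
open Cht98 (Agr)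

variable {E : Type} [NormedAddCommGroup E] [NormedSpace ℝ E] [FiniteDimensional ℝ E]
  [MeasurableSpace E] [BorelSpace E]
  {HM : Type} [TopologicalSpace HM] {I : ModelWithCorners ℝ E HM} [I.Boundaryless]
  {M : Type} [TopologicalSpace M] [ChartedSpace HM M] [IsManifold I ∞ M]
  [MeasurableSpace M] [T2Space M] [BorelSpace M] [SecondCountableTopology M]
  {ι lam : Type} [Fintype ι] [Fintype lam] {J : Type}
  {V V' V'' : Type} [NormedAddCommGroup V] [NormedSpace ℝ V] [NormedAddCommGroup V']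
  [NormedSpace ℝ V'] [NormedAddCommGroup V''] [NormedSpace ℝ V'']

variable {T U Up R : Type} [NormedAddCommGroup T] [NormedSpace ℝ T] [NormedAddCommGroup U]
  [NormedSpace ℝ U] [NormedAddCommGroup Up] [NormedSpace ℝ Up] [NormedAddCommGroup R]
  [NormedSpace ℝ R] {N : ℕ} {Jc : En (Fin N)}

/-! ### the moved curvature row -/

/-- the mixed term of the curvature -/
def lin (A α : ι → V →L[ℝ] V) (p : ι × ι) : V →L[ℝ] V :=
  A p.1 * α p.2 + α p.1 * A p.2 - (A p.2 * α p.1 + α p.2 * A p.1)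

theorem Qd.sum {X K : Type} [AddCommGroup X] [Module ℝ X] [Fintype K] {f : K → U → X}
    (h : ∀ a, Qd (f a)) : Qd fun u => ∑ a, f a u := by
  classical
  induction (Finset.univ : Finset K) using Finset.induction_on with
  | empty => exact (Qd.lin (0 : U →ₗ[ℝ] X)).congr fun _ => rfl
  | insert a s ha ih => simpa only [Finset.sum_insert ha] using (h a).add ih

theorem qd_cv (F : Fr I M ι) {β : ι → M → U →L[ℝ] V →L[ℝ] V} (hβ : ∀ a, Sm I (β a))
    (A : ι → V →L[ℝ] V) (p : ι × ι) (x : M) : Qd fun u =>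
      curv I F.e F.c (fun a y => β a y u) p.1 p.2 x + lin A (fun a => β a x u) p := by
  have d : ∀ a b, Qd fun u => dv I (F.e a) (fun y => β b y u) x := fun a b =>
    (Qd.lin (dv I (F.e a) (β b) x).toLinearMap).congr fun u =>
      dv_clm (ContinuousLinearMap.apply ℝ _ u) ((hβ b x).mdifferentiableAt (by simp))
  have m : ∀ a b, Qd fun u => β a x u * β b x u := fun a b =>
    Qd.mul (β a x).toLinearMap (β b x).toLinearMap
  have l : ∀ a (A : V →L[ℝ] V), Qd fun u => A * β a x u := fun a A =>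
    (Qd.lin (β a x).toLinearMap).map (LinearMap.mulLeft ℝ A)
  have l' : ∀ a (A : V →L[ℝ] V), Qd fun u => β a x u * A := fun a A =>
    (Qd.lin (β a x).toLinearMap).map (LinearMap.mulRight ℝ A)
  exact ((((d p.1 p.2).sub (d p.2 p.1)).add ((m p.1 p.2).sub (m p.2 p.1))).sub
    (Qd.sum fun l => Qd.lin (F.c p.1 p.2 l x • (β l x).toLinearMap))).add
    (((l p.2 _).add (l' p.1 _)).sub ((l p.1 _).add (l' p.2 _)))

theorem ub_mul {F : J → Pre I M ι} {f g : J → M → V →L[ℝ] V} (h : UB F f) (h' : UB F g) :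
    UB F fun i x => f i x * g i x := h.bil (.mul ℝ _) h'

theorem ub_cv {F : J → Pre I M ι} {G : J → Fr I M ι} {S : J → ι → ι → M → ℝ}
    (hm : ∀ i, Mix (F i) (G i).toPre (S i)) (hS : ∀ a b, UB F fun i => S i a b)
    (hc : ∀ a b l, UB F fun i => (G i).c a b l) {A β : ι → J → M → V →L[ℝ] V}
    (hA : ∀ a, UB F (A a)) (hβ : ∀ a, UB F (β a)) (p : ι × ι) : UB F fun i x =>
      curv I (G i).e (G i).c (fun a => β a i) p.1 p.2 x +
        lin (fun a => A a i x) (fun a => β a i x) p :=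
  have D : ∀ a b, UB F fun i => (G i).D a (β b i) := fun a b =>
    ub_congr (UB.sum fun l => (hS a l).smul ((hβ b).D l)) fun i => (hm i).D a _
  ((((D p.1 p.2).sub (D p.2 p.1)).add ((ub_mul (hβ p.1) (hβ p.2)).sub
    (ub_mul (hβ p.2) (hβ p.1)))).sub (UB.sum fun l => (hc p.1 p.2 l).smul (hβ l))).add
    (((ub_mul (hA p.1) (hβ p.2)).add (ub_mul (hβ p.1) (hA p.2))).sub
      ((ub_mul (hA p.2) (hβ p.1)).add (ub_mul (hβ p.2) (hA p.1))))

theorem dk_lin {F : J → Pre I M ι} {O : J → Set M} {g : J → M → ℝ} {A β : ι → J → M → V →L[ℝ] V}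
    (hA : ∀ a, Dk F O g (A a)) (hβ : ∀ a, UB F (β a)) (p : ι × ι) :
    Dk F O g fun i x => lin (fun a => A a i x) (fun a => β a i x) p :=
  have l := fun a b => (hA a).bil (.mul ℝ (V →L[ℝ] V)) (hβ b)
  have r := fun a b => (hA a).bil (ContinuousLinearMap.mul ℝ (V →L[ℝ] V)).flip (hβ b)
  ((r p.1 p.2).add (l p.2 p.1)).sub ((r p.2 p.1).add (l p.1 p.2))

section one
variable {𝔉 : Mod61.Fam I M ι lam T} (s : Sid 𝔉 N Jc U Up R)

/-- the projection of a component -/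
def TT (p : ι × ι) (x : M) : En (Fin N) →L[ℝ] Fm (ι × ι) (HS (Fin N)) :=
  s.md.p2 𝔉.B x ∘L ij _ p ∘L s.md.pg x ∘L hsL

/-- the moving limit in the frame of the parameter `0` -/
def be (a : ι) (x : M) : U →L[ℝ] En (Fin N) :=
  opL ∘L pj _ a ∘L idx (𝔉.S 0 x) (.id ℝ _) ∘L s.b x

/-- the change of the curvature row -/
def pP (u : U) (x : M) : Fm (ι × ι) (HS (Fin N)) := bC s u x - bC s 0 x

/-- the same in the reference frame, for the values `A` of the connection -/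
def Pl (A : ι → En (Fin N)) (u : U) (x : M) : Fm (ι × ι) (HS (Fin N)) :=
  ∑ p, TT s p x (curv I 𝔉.G0.F.e 𝔉.G0.F.c (fun a y => opL (s.b y u a)) p.1 p.2 x +
    lin A (fun a => opL (s.b x u a)) p)

/-- the dependence on `A` -/
def Ln (A : ι → En (Fin N)) (u : U) (x : M) : Fm (ι × ι) (HS (Fin N)) :=
  ∑ p, TT s p x (lin A (fun a => opL (s.b x u a)) p)

theorem Pl_sub (A v : ι → En (Fin N)) (t : ℝ) (u : U) (x : M) :
    Pl s (fun a => A a - t • v a) u x = Pl s A u x - t • Ln s v u x := by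
  simp only [Pl, Ln, Finset.smul_sum, ← Finset.sum_sub_distrib, ← map_smul, ← map_sub]
  refine Finset.sum_congr rfl fun p _ => congrArg _ ?_
  simp only [lin, sub_mul, mul_sub, smul_mul_assoc, mul_smul_comm, smul_add, smul_sub]
  abel

variable {s} (H : s.OK)
include H

theorem sm_be (a : ι) : Sm I (be s a) :=
  Std94.Kl.comp (K := Std94.smAll I) contMDiff_const (Std94.Kl.comp contMDiff_const
    (Std94.Kl.comp (Std94.Kl.idx (fun a b => Cb.sm ((H.fam.sS a b).cb 0 H.q0)) contMDiff_const)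
      (Cb.sm H.cb)))

theorem pP_eq (u : U) (x : M) : pP s u x =
    ∑ p, TT s p x (curv I (𝔉.G 0).F.e (𝔉.G 0).F.c (fun a y => be s a y u) p.1 p.2 x +
      lin (fun a => 𝔉.W0 s.md s.A0 0 a x) (fun a => be s a x u) p) := by
  have sW := (H.fam.conn s.md s.A0 H.ok H.conn 0 H.q0).cc.sm
  have e : ∀ u, bC s u x = ∑ p, TT s p x (curv I (𝔉.G 0).F.e (𝔉.G 0).F.c
      (𝔉.W0 s.md s.A0 0 + fun a y => be s a y u) p.1 p.2 x) := fun u => by
    simp only [TT, ContinuousLinearMap.comp_apply, ← map_sum]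
    exact congrArg _ (fm_ext fun p => (sum_ij _ p).symm)
  have e0 : (𝔉.W0 s.md s.A0 0 + fun a y => be s a y 0) = 𝔉.W0 s.md s.A0 0 := by
    funext a y; simp
  rw [pP, e, e, e0, ← Finset.sum_sub_distrib]
  refine Finset.sum_congr rfl fun p _ => (map_sub _ _ _).symm.trans (congrArg _ ?_)
  rw [Wz78.curv_addA (fun a => sW a x) fun a => (sm_be H a x).clm_apply contMDiffAt_const]
  simp only [curv, Wz78.dA, Wz78.nabE, lin]
  abel

theorem qd_pP : Qd (pP s) := Qd.pi fun x =>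
  (Qd.sum fun p => (qd_cv _ (sm_be H) _ p x).map (TT s p x).toLinearMap).congr fun u => pP_eq H u x

omit H in
variable (𝔉) in
/-- the family is literal on `O` at the parameter `0` -/
structure L0 (O : Set M) : Prop where
  ag : Agr 𝔉.G0 (𝔉.G 0) O
  S : ∀ x ∈ O, ∀ a b, 𝔉.S 0 x a b = 𝔉.B.P a b x
  cf : ∀ x ∈ O, 𝔉.cf 0 x = 0
  la : ∀ x ∈ O, 𝔉.la 0 x = 0

variable {O : Set M} (h : L0 𝔉 O) (u : U)
include h

theorem be_lit (a : ι) : ∀ y ∈ O, be s a y u = opL (s.b y u a) := fun y hy => by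
  have : idx (𝔉.S 0 y) (.id ℝ _) (s.b y u) = s.b y u := by
    rw [← H.pb y u, Md.p1, Map77.idx_idx]
    simp only [h.S y hy, (H.fam.B.pr y).idem, ContinuousLinearMap.id_comp]
  show opL (idx (𝔉.S 0 y) (.id ℝ _) (s.b y u) a) = _
  rw [this]

theorem W0_lit {x : M} (hx : x ∈ O) (a : ι) : 𝔉.W0 s.md s.A0 0 a x = s.A0 a x := by
  simp [Mod61.Fam.W0, h.S x hx, h.cf x hx, h.la x hx, H.conn.cc.proj]

theorem pP_lit {x : M} (hx : x ∈ O) : pP s u x = Pl s (fun a => s.A0 a x) u x := by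
  rw [pP_eq H, Pl]
  exact Finset.sum_congr rfl fun p _ => congrArg (TT s p x) (congrArg₂ (· + ·)
    (h.ag.rel.curv hx (fun a => (h.ag.op.eventually_mem hx).mono (be_lit H h u a)) p.1 p.2)
    (congrArg₂ (lin · · p) (funext (W0_lit H h hx)) (funext fun a => be_lit H h u a x hx)))

omit h in
theorem bC_lit (h : L0 𝔉 univ) (x : M) : bC s u x =
    s.md.p2 𝔉.B x (s.md.Fg (𝔉.G 0).F (fun a y => s.A0 a y + opL (s.b y u a)) x) :=
  congrArg (fun W => s.md.p2 𝔉.B x (s.md.Fg (𝔉.G 0).F W x)) (funext₂ fun a y =>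
    congrArg₂ (· + ·) (W0_lit H h trivial a) (be_lit H h u a y trivial))

end one

theorem l0_fam {B : Base M ι lam} {G0 : Geo I M ι lam} {G : T → Geo I M ι lam} {Q : Set T}
    {O : Set M} (h0 : G0.OK B) (h : Agr G0 (G 0) O) : L0 (Met55.fam B G0.F G0 G Q univ univ) O :=
  ⟨h, fun _ hx a b => (h.S hx a b).1.trans (by rw [h0.P]; rfl), fun _ => h.cf, fun _ => h.la h0⟩

section tr
variable {E' : Type} [NormedAddCommGroup E'] [NormedSpace ℝ E'] [FiniteDimensional ℝ E']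
  [MeasurableSpace E'] [BorelSpace E']
  {HM' : Type} [TopologicalSpace HM'] {I' : ModelWithCorners ℝ E' HM'} [I'.Boundaryless]
  {M' : Type} [TopologicalSpace M'] [ChartedSpace HM' M'] [IsManifold I' ∞ M']
  [MeasurableSpace M'] [T2Space M'] [BorelSpace M'] [SecondCountableTopology M']
  {𝔉' : Mod61.Fam I' M' ι lam T} {𝔉 : Mod61.Fam I M ι lam T}

/-- the module and the moving limit of `s` are literally those of `s'` -/
structure Cg (s' : Sid 𝔉' N Jc U Up R) (s : Sid 𝔉 N Jc U Up R) (ψ : M' → M) (O : Set M') :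
    Prop where
  g : Pj41.GRel 𝔉'.B 𝔉'.G0 𝔉.B 𝔉.G0 ψ O
  p : ∀ w ∈ O, s.p (ψ w) = s'.p w
  ρ : ∀ a, ∀ w ∈ O, s.ρ a (ψ w) = s'.ρ a w
  j : ∀ w ∈ O, s.j (ψ w) = s'.j w
  b : ∀ w ∈ O, s.b (ψ w) = s'.b w

variable {s' : Sid 𝔉' N Jc U Up R} {s : Sid 𝔉 N Jc U Up R} {ψ : M' → M} {O : Set M'}
  (h : Cg s' s ψ O) {w : M'} (hw : w ∈ O)
include h hw

theorem Cg.TT (p : ι × ι) : TT s p (ψ w) = TT s' p w := by
  have e : s.md.pg (ψ w) = s'.md.pg w :=
    Cay24.pg_congr (h.p w hw) (fun a => h.ρ a w hw) (h.j w hw)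
  have e' : 𝔉.B.sd (ψ w) = 𝔉'.B.sd w := by
    funext a b; simp only [Base.sd, Base.a2, Base.st, h.g.P _ _ w hw, h.g.o _ _ _ _ w hw]
  simp only [Mv.TT, Md.p2, e, e']

theorem Cg.Ln (A : ι → En (Fin N)) (u : U) : Ln s A u (ψ w) = Ln s' A u w := by
  simp only [Mv.Ln, h.TT hw, h.b w hw]

theorem Cg.Pl (A : ι → En (Fin N)) (u : U) : Pl s A u (ψ w) = Pl s' A u w := by
  simp only [Mv.Pl, h.TT hw, h.b w hw]
  exact Finset.sum_congr rfl fun p _ => congrArg (fun v => Mv.TT s' p w (v + _))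
    (h.g.fr.curv hw (fun a => (h.g.fr.op.eventually_mem hw).mono fun y hy => by rw [h.b y hy])
      p.1 p.2).symm

end tr

/-! ### uniform bounds -/

section ub
variable {𝔉 : J → Mod61.Fam I M ι lam T} (s : ∀ i, Sid (𝔉 i) N Jc U Up R)

/-- uniform bounds of the data -/
structure Hy : Prop where
  ok : ∀ i, (s i).OK
  fu : ∃ r ≥ 0, ∃ C, ∀ i, Gj67.FU (𝔉 i) r C
  p : UB (P0 𝔉) fun i => (s i).p
  ρ : ∀ a, UB (P0 𝔉) fun i => (s i).ρ a
  j : UB (P0 𝔉) fun i => (s i).j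
  A0 : ∀ a, UB (P0 𝔉) fun i => (s i).A0 a
  b : UB (P0 𝔉) fun i => (s i).b

variable {s} (H : Hy s)
include H

theorem Hy.at0 {f : J → T → M → V} (h1 : ∀ i, SB (P0 𝔉 i) (𝔉 i).Q (f i))
    (h2 : ∀ i r C, Gj67.FU (𝔉 i) r C → Gj67.UBn (P0 𝔉 i) r C (f i)) : UB (P0 𝔉) fun i => f i 0 := by
  obtain ⟨r, r0, C, k⟩ := H.fu
  refine ⟨C, fun i => ⟨Cb.sm ((h1 i).cb 0 (H.ok i).q0), fun n => ?_⟩⟩
  have := h2 i r C (k i) n 0 0 (Metric.mem_closedBall_self r0)
  rw [norm_iteratedFDeriv_zero] at this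
  have e := B.CB (toB (P0 𝔉 i) n (f i 0))
  rw [fn_toB ((h1 i).cb 0 (H.ok i).q0)] at e
  exact CB_mono e this

theorem Hy.TT (p : ι × ι) : UB (P0 𝔉) fun i => TT (s i) p := by
  obtain ⟨r, -, C, k⟩ := H.fu
  have P : ∀ a b, UB (P0 𝔉) fun i => (𝔉 i).B.P a b := fun a b => ⟨C, fun i => by
    beta_reduce; rw [← (H.ok i).fam.P0]; exact (k i).t0.P a b⟩
  have o : ∀ a b c d, UB (P0 𝔉) fun i => (𝔉 i).B.o a b c d := fun a b c d =>
    ⟨C, fun i => (k i).o a b c d⟩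
  have pg : UB (N := CL (HS (Fin N)) (HS (Fin N))) (P0 𝔉) fun i => (s i).md.pg :=
    have := fk (Std94.Kl.pgF ((ubK (P0 𝔉)).const Jc) (fun a => tk (H.ρ a)) (tk H.j))
    ub_congr this fun i => funext fun x => Std94.pg_eq (H.ok i).fam.B (Std94.pmx (H.ok i).ok x)
  have sd : ∀ a b : ι × ι, UB (P0 𝔉) fun i x => (𝔉 i).B.sd x a b := fun a b =>
    ub_congr ((UB.const (1 / 2 : ℝ)).smul (((UB.const (1 / 2 : ℝ)).smul (((P a.1 b.1).smul
      (P a.2 b.2)).sub ((P a.1 b.2).smul (P a.2 b.1)))).add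
      ((UB.const (1 / 2 : ℝ)).smul (o a.1 a.2 b.1 b.2)))) fun i => funext fun x => by
        simp only [Base.sd, Base.a2, Base.st, smul_eq_mul]; ring
  have p2 := fk (Std94.Kl.idx (fun a b => tk (sd a b)) (tk pg))
  have := p2.comp ((UB.const (ij (HS (Fin N)) p)).comp (pg.comp (UB.const (hsL (κ := Fin N)))))
  exact ub_congr this fun _ => rfl

theorem Hy.bu (u : U) (a : ι) : UB (P0 𝔉) fun i x => opL ((s i).b x u a) :=
  have := H.b.clm (opL ∘L pj (HS (Fin N)) a ∘L ContinuousLinearMap.apply ℝ _ u)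
  this

theorem Hy.pP (u : U) : UB (P0 𝔉) fun i => pP (s i) u := by
  have S := fun a b => H.at0 (fun i => (H.ok i).fam.sS a b) fun _ _ _ k => k.S a b
  have cf := fun a b l => H.at0 (fun i => (H.ok i).fam.scf a b l) fun _ _ _ k => k.cf a b l
  have la := fun a => H.at0 (fun i => (H.ok i).fam.sla a) fun _ _ _ k => k.la a
  have c := fun a b l => H.at0 (fun i => (H.ok i).fam.sc a b l) fun _ _ _ k => k.c a b l
  have W : ∀ a, UB (N := En (Fin N)) (P0 𝔉) fun i => (𝔉 i).W0 (s i).md (s i).A0 0 a := fun a =>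
    have := ((UB.sum fun b => (S a b).smul (H.A0 b)).add (UB.sum fun b => UB.sum fun l =>
      (cf a b l).smul (ub_mul (H.ρ b) (H.ρ l)))).add ((la a).smul (ub_mul (UB.const Jc) H.p))
    this
  have β : ∀ a, UB (P0 𝔉) fun i x => be (s i) a x u := fun a =>
    have := ((fk (Std94.Kl.idx (fun a b => tk (S a b))
      ((ubK _).const (.id ℝ (HS (Fin N)))))).comp H.b).clm
        (opL ∘L pj (HS (Fin N)) a ∘L ContinuousLinearMap.apply ℝ _ u)
    this
  have := UB.sum fun p : ι × ι => (H.TT p).bil (.id ℝ _)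
    (ub_cv (fun i => (H.ok i).fam.mix 0 (H.ok i).q0) S c W β p)
  exact ub_congr this fun i => funext fun x => pP_eq (H.ok i) u x

theorem Hy.Ln {O : J → Set M} {g : J → M → ℝ} {v : ι → J → M → En (Fin N)}
    (op : ∀ i, IsOpen (O i)) (g0 : ∀ i x, 0 ≤ g i x) (h : ∀ a, Dk (P0 𝔉) O g (v a)) (u : U) :
    Dk (P0 𝔉) O g fun i x => Ln (s i) (fun a => v a i x) u x :=
  have := Dk.sum op g0 fun p => (dk_lin h (H.bu u) p).app (H.TT p)
  this

end ub

/-- **moving limits** from the decay of the row for small `u` -/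
theorem mo_C [FiniteDimensional ℝ U] {𝔉 : J → Mod61.Fam I M ι lam T}
    {s : ∀ i, Sid (𝔉 i) N Jc U Up R} {δ : ℝ} {k : ℕ} (ok : ∀ i, (s i).OK)
    (𝒲 : Submodule ℝ (J → M → Fm (ι × ι) (HS (Fin N)))) (h1 : ∀ f ∈ 𝒲, Wb s δ k f)
    (h2 : ∀ᶠ u in 𝓝 0, (fun i => pP (s i) u) ∈ 𝒲) :
    ∃ (n : ℕ) (c : Fin n → U → ℝ) (γ : Fin n → J → M → Fm (ι × ι) (HS (Fin N))),
      (∀ a, ContDiff ℝ ∞ (c a)) ∧ (∀ a, Wb s δ k (γ a)) ∧
      ∀ i u x, bC (s i) u x = bC (s i) 0 x + ∑ a, c a u • γ a i x :=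
  let ⟨n, c, γ, k1, k2, k3⟩ := (Qd.pi fun i => qd_pP (ok i)).fin 𝒲 h2
  ⟨n, c, γ, k1, fun a => h1 _ (k2 a), fun i u x => by
    have := congrFun (congrFun (k3 u) i) x
    simp only [Finset.sum_apply, Pi.smul_apply] at this
    rw [← this, pP, add_sub_cancel]⟩

end Crest.Agent.X212.Lw78.Mv
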