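import Crest.Agent.X212.Lw78.Hi

/-!
# Row 212, EN-SLF and EN-LW1 (helper78): derivatives along some of the directions, traces

`w.Sj s p j i f` : the words of length `≤ i` in the directions `s k`, applied to `f`, are in `Jt p j`.
-/

set_option autoImplicit false
set_option linter.unusedSectionVars false
noncomputable section
open scoped Manifold ContDiff Topology InnerProductSpace
open MeasureTheory Set Function Filter

namespace Crest.Agent.X212.Lw78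
open An An.Pre Sob92 Ell97 Cyf70 Sw Dl23
open Win45 (FY FZ)

section gen
variable {E : Type} [NormedAddCommGroup E] [NormedSpace ℝ E] [FiniteDimensional ℝ E]
  [MeasurableSpace E] [BorelSpace E]
  {HM : Type} [TopologicalSpace HM] {I : ModelWithCorners ℝ E HM} [I.Boundaryless]
  {M : Type} [TopologicalSpace M] [ChartedSpace HM M] [IsManifold I ∞ M]
  [MeasurableSpace M] [T2Space M] [BorelSpace M] [SecondCountableTopology M]
  {ι κ : Type} [Fintype ι] [Fintype κ]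
  {N N' N'' : Type} [NormedAddCommGroup N] [NormedSpace ℝ N] [NormedAddCommGroup N']
  [NormedSpace ℝ N'] [NormedAddCommGroup N''] [NormedSpace ℝ N'']
  {V W : Type} [NormedAddCommGroup V] [InnerProductSpace ℝ V] [FiniteDimensional ℝ V]
  [NormedAddCommGroup W] [InnerProductSpace ℝ W] [FiniteDimensional ℝ W] {X : Type}

namespace Wn

/-- jets along the directions `s` -/
def Sj {F : Pre I M ι} (w : Wn F X) (s : κ → ι) (p j : ℕ) : ℕ → (X → M → N) → Prop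
  | 0, f => w.Jt p j f
  | i + 1, f => w.Jt p j f ∧ ∀ k, Sj w s p j i fun d => F.D (s k) (f d)

namespace Sj
section pre
variable {F : Pre I M ι} {w : Wn F X} {s : κ → ι} {p q r p' j j' i : ℕ} {f f' : X → M → N}
  {g : X → M → N'} {φ : X → M → ℝ}

theorem jt : ∀ {i}, w.Sj s p j i f → w.Jt p j f
  | 0, h => h
  | _ + 1, h => h.1

theorem md (h : w.Sj s p j i f) (d : X) (x : M) : MDifferentiableAt I 𝓘(ℝ, N) (f d) x := h.jt.md d x

theorem pred : ∀ {i} {f : X → M → N}, w.Sj s p j (i + 1) f → w.Sj s p j i f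
  | 0, _, h => h.1
  | _ + 1, _, h => ⟨h.1, fun k => (h.2 k).pred⟩

theorem imp (H : ∀ f : X → M → N, w.Jt p j f → w.Jt p' j' f) :
    ∀ {i} {f : X → M → N}, w.Sj s p j i f → w.Sj s p' j' i f
  | 0, _, h => H _ h
  | _ + 1, _, h => ⟨H _ h.1, fun k => imp H (h.2 k)⟩

theorem of_jt : ∀ {i} {f : X → M → N}, w.Jt p (j + i) f → w.Sj s p j i f
  | 0, _, h => h
  | _ + 1, _, h => ⟨h.of_le (Nat.le_add_right _ _), fun k => of_jt (Jt.D h (s k))⟩

theorem cb {f : M → N} (h : F.Cb f) : w.Sj s p j i fun _ => f := of_jt (.cb h)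

theorem congr : ∀ {i} {f f' : X → M → N}, w.Sj s p j i f → (∀ d, Sm I (f' d)) →
    w.On (fun d x => f' d x = f d x) → w.Sj s p j i f'
  | 0, _, _, h, h', e => Jt.congr h h' e
  | _ + 1, _, _, h, h', e => ⟨h.1.congr h' e, fun k => (h.2 k).congr (fun d => F.sm_D (h' d) _)
      fun r hr d x hx => dv_congr (e.ev r hr d x hx)⟩

theorem eq (h : w.Sj s p j i f) (e : ∀ d x, f' d x = f d x) : w.Sj s p j i f' :=
  (funext fun d => funext (e d) : f' = f) ▸ h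

theorem add : ∀ {i} {f f' : X → M → N}, w.Sj s p j i f → w.Sj s p j i f' →
    w.Sj s p j i fun d x => f d x + f' d x
  | 0, _, _, h, h' => Jt.add h h'
  | _ + 1, _, _, h, h' => ⟨h.1.add h'.1, fun k => ((h.2 k).add (h'.2 k)).eq fun d x =>
      dv_add (h.md d x) (h'.md d x)⟩

theorem bil (B : N →L[ℝ] N' →L[ℝ] N'') (H : Hol p q r) : ∀ {i} {f : X → M → N} {g : X → M → N'},
    w.Sj s p j i f → w.Sj s q j i g → w.Sj s r j i fun d x => B (f d x) (g d x)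
  | 0, _, _, h, h' => Jt.bil B H h h'
  | _ + 1, _, _, h, h' => ⟨h.1.bil B H h'.1, fun k => ((bil B H (h.2 k) h'.pred).add
      (bil B H h.pred (h'.2 k))).eq fun d x => dv_bil B (h.md d x) (h'.md d x)⟩

theorem app {L : X → M → N →L[ℝ] N'} (h : w.Sj s 0 j i L) (h' : w.Sj s p j i f) :
    w.Sj s p j i fun d x => L d x (f d x) := bil (.id ℝ _) (holL p) h h'

theorem clm (L : N →L[ℝ] N') (h : w.Sj s p j i f) : w.Sj s p j i fun d x => L (f d x) :=
  (cb (Cb_const L)).app h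

theorem smul (h : w.Sj s 0 j i φ) (h' : w.Sj s p j i f) : w.Sj s p j i fun d x => φ d x • f d x :=
  bil (.lsmul ℝ ℝ) (holL p) h h'

theorem sub (h : w.Sj s p j i f) (h' : w.Sj s p j i f') : w.Sj s p j i fun d x => f d x - f' d x :=
  (h.add (h'.clm (-.id ℝ N))).eq fun _ _ => sub_eq_add_neg _ _

theorem sum {α : Type} [Fintype α] {f : α → X → M → N} (h : ∀ a, w.Sj s p j i (f a)) :
    w.Sj s p j i fun d x => ∑ a, f a d x := by
  classical
  suffices ∀ t : Finset α, w.Sj s p j i fun d x => ∑ a ∈ t, f a d x from this _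
  refine Finset.induction ((cb (Cb_const 0)).eq fun _ _ => rfl) fun a t ha ih => ?_
  exact ((h a).add ih).eq fun _ _ => Finset.sum_insert ha

theorem pi {α : Type} [Fintype α] {f : X → M → Fm α V} (h : ∀ a, w.Sj s p j i fun d x => f d x a) :
    w.Sj s p j i f := (sum fun a => (h a).clm (Map77.ij V a)).eq fun _ _ => fm_sum _

theorem tm (h : w.Jt p j f) (e : ∀ d k, F.D (s k) (f d) = 0) : ∀ {i}, w.Sj s p j i f
  | 0 => h
  | _ + 1 => ⟨h, fun k => (cb (Cb_const 0)).eq fun d => congrFun (e d k)⟩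

theorem of_bd {C : ℝ} : ∀ {i} {f : X → M → N}, (∀ d, Sm I (f d)) →
    (∀ v : List κ, v.length ≤ i → w.On fun d x => ‖F.Dw (v.map s) (f d) x‖ ≤ C) → w.Sj s 0 1 i f
  | 0, _, hs, h => .one hs (lp0 fun r hr => ⟨C, h [] le_rfl r hr⟩)
  | _ + 1, _, hs, h => ⟨.one hs (lp0 fun r hr => ⟨C, h [] (Nat.zero_le _) r hr⟩), fun k =>
      of_bd (fun d => F.sm_D (hs d) _) fun v hv => h (k :: v) (Nat.succ_le_succ hv)⟩

theorem mulL (B : N →L[ℝ] N' →L[ℝ] N'') (h0 : w.Jt 0 1 g) : ∀ {i} {f : X → M → N},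
    w.Sj s 2 1 (i + 1) f → w.Sj s 4 1 i f → w.Sj s 4 1 (i + 1) g →
      w.Sj s 2 1 (i + 1) fun d x => B (f d x) (g d x)
  | 0, _, h, h1, h2 => ⟨h.1.bil B (holR 2) h0, fun k => ((Jt.bil B (holR 2) (h.2 k) h0).add
      (Jt.bil B hol4 h1 (h2.2 k))).eq fun d x => dv_bil B (h.md d x) (h0.md d x)⟩
  | _ + 1, _, h, h1, h2 => ⟨h.1.bil B (holR 2) h0, fun k => ((mulL B h0 (h.2 k) (h1.2 k) h2.pred).add
      (bil B hol4 h1 (h2.2 k))).eq fun d x => dv_bil B (h.md d x) (h0.md d x)⟩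

end pre

variable {F : Fr I M ι} {w : Wn F.toPre X} {s : κ → ι} {C C' : ℕ → ℝ} (hF : F.Tame C) {p j i : ℕ}
  {A : Op M ι V W} {u : X → M → V} {v : X → M → W}
include hF

theorem D : ∀ {i} {f : X → M → N}, w.Sj s p (j + 1) i f → ∀ a, w.Sj s p j i fun d => F.D a (f d)
  | 0, _, h, a => Jt.D h a
  | _ + 1, _, h, a => ⟨h.1.D a, fun k => ((D (h.2 k) a).add (sum fun l =>
      (cb ⟨_, hF.c (s k) a l⟩).smul (D h.pred l))).eq fun d x =>
        eq_add_of_sub_eq' (D_br F _ _ (h.1.sm d) x)⟩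

theorem up {f : X → M → N} (h : w.Sj s p (j + 1) i f) : w.Sj s p j (i + 1) f :=
  ⟨h.jt.pred, fun _ => h.D hF _⟩

theorem l4 (h : w.Sj s 2 (j + 1) i u) : w.Sj s 4 j i u := h.imp fun _ h => h.sob4 hF

theorem alg (B : V →L[ℝ] W →L[ℝ] N) (h0 : w.Jt 0 1 u) (h0' : w.Jt 0 1 v) : ∀ {i},
    w.Sj s 2 2 i u → w.Sj s 2 2 i v → w.Sj s 2 1 (i + 1) fun d x => B (u d x) (v d x)
  | 0, h, h' => ⟨h.jt.pred.bil B (holR 2) h0', fun _ => ((Jt.bil B (holR 2) (Jt.D h _) h0').add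
      (Jt.bil B (holL 2) h0 (Jt.D h' _))).eq fun d x => dv_bil B (h.md d x) (h'.md d x)⟩
  | _ + 1, h, h' => ⟨h.1.pred.bil B (holR 2) h0', fun k => ((mulL B h0' ((h.2 k).up hF)
      ((h.2 k).l4 hF) (h'.l4 hF)).add (mulL B.flip h0 ((h'.2 k).up hF) ((h'.2 k).l4 hF)
      (h.l4 hF))).eq fun d x => dv_bil B (h.md d x) (h'.md d x)⟩

variable (hA : A.Good F C')
include hA

theorem op (h : w.Sj s p (j + 1) i u) : w.Sj s p j i fun d => A.app F (u d) :=
  (sum fun a => (cb ⟨_, hA.σ a⟩).app (h.D hF a)).add ((cb ⟨_, hA.B⟩).app (h.imp fun _ h => h.pred))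

omit hF in
theorem _root_.Crest.Agent.X212.Lw78.D_p {u : M → V} (hu : Sm I u) (hp : ∀ x, A.p x (u x) = u x)
    (a : ι) (x : M) : F.D a u x = F.D a A.p x (u x) + A.p x (F.D a u x) := by
  rw [← D_app _ a hA.p.cb.1 hu, funext hp]

/-- the interior estimate along the directions -/
theorem ell (hc : A.CliffL F) : ∀ {i} {u : X → M → V}, (∀ d x, A.p x (u d x) = u d x) →
    w.Jt 2 (j + 1) u → (w.Sj s 2 (j + 1) i fun d => A.app F (u d)) → w.Sj s 2 (j + 2) i u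
  | 0, _, hp, h, k => h.ell hF hA hc hp k
  | i + 1, u, hp, h, k => by
    have h1 := ell hc hp h k.pred
    have P : F.Cb A.p := ⟨_, hA.p.cb⟩
    refine ⟨h1.jt, fun a => ?_⟩
    have h2 := (cb (Cb_D P (s a))).app h1
    have h3 := (Jt.cb P).app (h1.jt.D (s a))
    refine (h2.add (ell hc (fun d x => hA.p.idem x _) h3 ((((((k.2 a).sub (sum fun b =>
      (cb (Cb_D ⟨_, hA.σ b⟩ (s a))).app (h1.D hF b))).sub ((cb (Cb_D ⟨_, hA.B⟩ (s a))).app
      (h1.imp fun _ h => h.pred))).add (sum fun b => (cb ⟨_, hA.σ b⟩).app (sum fun l =>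
      (cb ⟨_, hF.c b (s a) l⟩).smul (h1.D hF l)))).sub (h2.op hF hA)).eq fun d x => ?_))).eq
      fun d => D_p hA (h.sm d) (hp d) _
    have s1 := h.sm d
    have s2 := fun b => (hA.σ b).1.clm_apply (F.sm_D s1 b)
    refine eq_sub_of_add_eq' ((app_add (h2.jt.sm d) (h3.sm d) x).symm.trans ?_)
    rw [show _ + _ = F.D (s a) (u d) from (funext (D_p hA s1 (hp d) _)).symm]
    have e : F.D (s a) (A.app F (u d)) x = ∑ b, F.D (s a) (fun y => A.σ b y (F.D b (u d) y)) x +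
        F.D (s a) (fun y => A.B y (u d y)) x :=
      (Wz78.dv_add' (Wz78.SA.sum _ fun b _ => s2 b x) (hA.B.1.clm_apply s1 x)).trans
        (congrArg (· + _) (Wz78.dv_sum' _ fun b => s2 b x))
    rw [e]
    simp only [D_app _ _ (hA.σ _).1 (F.sm_D s1 _), D_app _ _ hA.B.1 s1, ← D_br F _ _ s1, map_sub,
      Finset.sum_add_distrib, Finset.sum_sub_distrib, Op.app, Pre.op]
    abel

end Sj

/-- the time derivative from the equation -/
theorem Jt.dt {F : Fr I M (Option κ)} {w : Wn F.toPre X} {C' : ℕ → ℝ} {p j : ℕ}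
    {A : Op M (Option κ) V W} {u : X → M → V} (hA : A.Good F C') (hc : A.CliffL F)
    (h1 : ∀ x, F.P none none x = 1) (hp : ∀ d x, A.p x (u d x) = u d x) (h : w.Sj some p j 1 u)
    (h0 : w.Jt 0 1 fun d => A.app F (u d)) :
    ∃ B : X → M → V, w.Jt 0 1 B ∧ w.Jt p j fun d x => F.D none (u d) x - B d x := by
  have T := fun j => Jt.cb (w := w) (p := 0) (j := j) (Cb_clm (trL V W) ⟨_, hA.σ none⟩)
  refine ⟨_, (T 1).app h0, (((Jt.cb (Cb_D ⟨_, hA.p.cb⟩ none)).app h.1).sub ((T j).app ((Jt.sum fun k =>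
    (Jt.cb ⟨_, hA.σ (some k)⟩).app (h.2 k)).add ((Jt.cb ⟨_, hA.B⟩).app h.1)))).eq fun d x => ?_⟩
  have e : ∀ z, trL V W (A.σ none x) (A.σ none x z) = A.p x z := fun z => ext_inner_left ℝ fun y => by
    have := hc none none x y z
    rw [h1, hA.p.symm] at this
    rw [trL_apply, inner_tr]
    linarith
  conv_lhs => rw [D_p hA (h.1.sm d) (hp d), Op.app, Pre.op, Fintype.sum_option, add_assoc, map_add, e]
  abel

end Wn
end gen

variable {κ lam ν : Type} [Fintype κ] [Fintype lam] [Fintype ν] [DecidableEq ν] {e : En3 κ lam ν}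
  {X X' V : Type} [NormedAddCommGroup V] [InnerProductSpace ℝ V] [FiniteDimensional ℝ V]

theorem sm_nsq {u : e.Y.M × ℝ → V} (hu : Sm (IC e.Y.I) u) : Sm (IC e.Y.I) fun x => ‖u x‖ ^ 2 :=
  (contDiff_norm_sq ℝ).contMDiff.comp hu

theorem good {g : e.Y.M × ℝ → ℝ} (hg : Sm (IC e.Y.I) g) {a b r K : ℝ} (hr : 0 < r) (h : a + r ≤ b)
    (hK : ∫ x in univ ×ˢ Icc a b, g x ∂(FZ e).μ ≤ K) :
    ∃ t ∈ Ioo a b, ∫ y, g (y, t) ∂e.D.F.μ ≤ r⁻¹ * |K| := by
  obtain ⟨t, ht, k⟩ := exists_le_setAverage (μ := volume) (s := Ioo a b) (by simp; linarith) (by simp)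
    (((contDiff_int (FY e) hg).continuous.integrableOn_Icc).mono_set Ioo_subset_Icc_self)
  rw [setAverage_eq, ← integral_Icc_eq_integral_Ioo, ← int_S (FY e) hg.continuous,
    Real.volume_real_Ioo_of_le (by linarith)] at k
  exact ⟨t, ht, k.trans ((mul_le_mul_of_nonneg_left (hK.trans (le_abs_self K))
    (inv_nonneg.2 (by linarith))).trans (mul_le_mul_of_nonneg_right (inv_anti₀ hr (by linarith))
    (abs_nonneg K)))⟩

theorem drift {u : e.Y.M × ℝ → V} (hu : Sm (IC e.Y.I) u) {a b l K L s t : ℝ} (hl : b - a ≤ l)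
    (hK : ∫ x in univ ×ˢ Icc a b, ‖(FZ e).D none u x‖ ^ 2 ∂(FZ e).μ ≤ K) (hs : s ∈ Ioo a b)
    (ht : t ∈ Ioo a b) (hL : ∫ y, ‖u (y, t)‖ ^ 2 ∂e.D.F.μ ≤ L) :
    ∫ y, ‖u (y, s)‖ ^ 2 ∂e.D.F.μ ≤ (√(1 + L) + (l + |K|) / 2) ^ 2 := by
  set h := fun t => ∫ y, ‖u (y, t)‖ ^ 2 ∂e.D.F.μ
  have p : ∀ t, 0 < 1 + h t := fun t => add_pos_of_pos_of_nonneg one_pos
    (integral_nonneg fun _ => sq_nonneg _)
  have sD := sm_nsq ((FZ e).sm_D hu none)
  have G0 : ∀ t, 0 ≤ ∫ y, ‖(FZ e).D none u (y, t)‖ ^ 2 ∂e.D.F.μ := fun t =>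
    integral_nonneg fun _ => sq_nonneg _
  rw [int_S (FY e) sD.continuous] at hK
  have := osc (h := fun t => √(1 + h t)) one_half_pos.le one_half_pos.le (abs_nonneg K) G0
    (fun t _ => ⟨((hasDerivAt_int' (FY e) (sm_nsq hu) fun y =>
      (hasDerivAt_slice (FY e) hu y t).norm_sq).const_add 1).sqrt (p t).ne', ?_⟩)
    ((lintegral_mono_set Ioo_subset_Icc_self).trans ((ofReal_integral_eq_lintegral_ofReal
      (contDiff_int (FY e) sD).continuous.integrableOn_Icc (.of_forall G0)).ge.trans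
      (ENNReal.ofReal_le_ofReal (hK.trans (le_abs_self K))))) hs ht
  · refine (le_add_of_nonneg_left zero_le_one).trans ((Real.sqrt_le_iff.1 ?_).2)
    linarith [(abs_le.1 this).2, Real.sqrt_le_sqrt (add_le_add_right hL 1)]
  have r1 := Real.sqrt_pos.2 (p t)
  have r2 := Real.sq_sqrt (p t).le
  generalize √(1 + h t) = r at *
  have i1 := intY (FY e) (sm_slice_fst (sm_nsq hu) t).continuous
  have i2 := intY (FY e) (sm_slice_fst sD t).continuous
  have := norm_integral_le_of_norm_le ((i1.const_mul r⁻¹).add (i2.const_mul r)) (.of_forall fun y =>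
    show ‖2 * ⟪u (y, t), (FZ e).D none u (y, t)⟫_ℝ‖ ≤ _ from ((norm_mul _ _).trans_le
      (mul_le_mul Real.norm_two.le (norm_inner_le_norm _ _) (norm_nonneg _) zero_le_two)).trans
      (((mul_assoc _ _ _).ge.trans (le_abs_self _)).trans (yg r1 _ _)))
  rw [integral_add' (i1.const_mul _) (i2.const_mul _), integral_const_mul r,
    integral_const_mul r⁻¹] at this
  rw [abs_div, abs_of_pos (mul_pos two_pos r1), div_le_iff₀ (mul_pos two_pos r1)]
  have f9 : r⁻¹ * h t ≤ r := (inv_mul_le_iff₀ r1).2 (by linarith)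
  exact this.trans (by linarith)

variable {a b : X → ℝ} {l r : ℝ} {h : ∀ d, b d - a d ≤ l} (π : X' → X) {t : X' → ℝ} (hr : 0 < r)
  (ht : ∀ d, t d ∈ Icc (a (π d) + r) (b (π d) - r))
include hr ht

theorem yt0 {N : Type} [NormedAddCommGroup N] [NormedSpace ℝ N] {f : X → e.Y.M × ℝ → N}
    (k : (cw (FY e) a b h).Jt 0 1 f) : (yw e X').Jt 0 1 fun d y => f (π d) (y, t d) :=
  let ⟨K, _, H⟩ := k.lp.1 rfl r hr
  .one (fun _ => sm_slice_fst (k.sm _) _) (Wn.lp0 fun _ _ => ⟨K, fun d _ _ => H _ _ ⟨trivial, ht d⟩⟩)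

/-- traces -/
theorem yt : ∀ {i} {f : X → e.Y.M × ℝ → V}, (cw (FY e) a b h).Sj some 2 2 i f →
    (yw e X').Jt 2 (i + 1) fun d y => f (π d) (y, t d)
  | 0, f, k => by
    obtain ⟨K1, h1⟩ := k.jt.lp.2 _ (half_pos hr)
    obtain ⟨K2, h2⟩ := (k.jt.D none).lp.2 _ (half_pos hr)
    refine .one (fun _ => sm_slice_fst (k.jt.sm _) _) ⟨fun h => absurd h two_ne_zero, fun _ _ =>
      ⟨(√(1 + r⁻¹ * |K1|) + (l + |K2|) / 2) ^ 2, fun d => ?_⟩⟩
    obtain ⟨h3, h4⟩ := ht d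
    obtain ⟨s, hs, h5⟩ := good (sm_nsq (k.jt.sm _)) hr (by linarith) (h1 (π d))
    simp only [yw, Measure.restrict_univ]
    exact drift (k.jt.sm _) (by linarith [h (π d)]) (h2 (π d)) ⟨by linarith, by linarith⟩ hs h5
  | _ + 1, _, k => ⟨fun _ => sm_slice_fst (k.1.sm _) _, (yt (i := 0) k.1).lp, fun i =>
      (yt (k.2 i)).eq fun _ _ => (D_some (FY e) (k.1.sm _) i (_, _)).symm⟩

omit hr ht in
theorem yw_nrm {i : ℕ} {f : X → e.Y.M → V} (k : (yw e X).Jt 2 (i + 1) f) :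
    ∃ K, ∀ d, e.D.F.nrm i (f d) ≤ K :=
  let ⟨K, H⟩ := k.ns 1 one_pos
  ⟨√K, fun d => (nrm_eq _ _).trans_le (Real.sqrt_le_sqrt ((NS_univ _).ge.trans (H d)))⟩

omit hr ht in
theorem sup_sj {f : X → e.Y.M × ℝ → V} (k : (cw (FY e) a b h).Sj some 2 2 2 f) :
    (cw (FY e) a b h).Jt 0 1 f := .one k.1.sm (Wn.lp0 fun r hr => by
  obtain ⟨S, S0, hS⟩ := Cyl58.sup2 (V := V) (FY e) e.Y.dim.le
  obtain ⟨K, H⟩ := yw_nrm (yt (X' := {d : X × ℝ // d.2 ∈ Icc (a d.1 + r) (b d.1 - r)}) (·.1.1) hr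
    (·.2) k)
  exact ⟨S * K, fun d x hx => (hS _ (sm_slice_fst (k.1.sm d) x.2) x.1).trans
    (mul_le_mul_of_nonneg_left (H ⟨(d, x.2), hx.2⟩) S0)⟩)

end Crest.Agent.X212.Lw78
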