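import Crest.Agent.X212.Lw78.Es
import Crest.Agent.X212.End23.Nek
import Crest.Agent.X212.Mon62.Res

/-!
# Row 212, EN-SLF, EN-LW1 and EN-C0U (helper78)
-/

set_option autoImplicit false
set_option linter.unusedSectionVars false
noncomputable section
open scoped Manifold ContDiff Topology InnerProductSpace
open MeasureTheory Set Function Filter

namespace Crest.Agent.X212.Lw78
open An An.Pre Sob92 Cyf70 Sw Sw.En3 Sep15.S Dl23
open Win45 (FY FZ)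
open End23 (lf lv dl Sb Jd rm SlfStmt Lw1Stmt C0uStmt prf)
open Nd18 (Jv)

variable {κ lam ν : Type} [Fintype κ] [Fintype lam] [Fintype ν] [DecidableEq ν] {e : En3 κ lam ν}

theorem lf_ok (he : e.OK) : (lf e).OK :=
  { he with
    cyl := { he.cyl with w := zero_le_two, ct := fun j => j.elim0 }
    per := fun v v' h => he.per ⟨v.a, v.Φ⟩ ⟨v'.a, v'.Φ⟩ { h with }
    sp := let ⟨n, u, h1, h2⟩ := he.sp; ⟨n, u, h1, fun a h => h2 a { h with }⟩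
    sb := contDiff_const
    b0 := fun _ => le_rfl
    b1 := fun _ _ => rfl
    S := isCompact_empty
    sψ := contDiff_const
    mψ := monotone_const }

theorem mem_Jd {p q : Option ℝ} {d t : ℝ} :
    t ∈ Jd p q d ↔ (∀ a ∈ p, a + d < t) ∧ ∀ b ∈ q, t < b - d := by
  cases p <;> cases q <;> simp [Jv]

/-- a solution on a neck in true variables -/
theorem toDt (he : e.OK) (C : ℝ) : ∃ C', ∀ K w b S ψ, (e.re w b S ψ).OK →
    ∀ p q (A : (e.re w b S ψ).ZC) t s, End23.NS p q C 1 A → Ioo (s - 1 / 8) (s + 1 / 8) ⊆ Jv p q →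
    |s - t| ≤ 1 / 16 → Sb A (Ioo (t - 1 / 16) (t + 1 / 16)) K → ∃ (c : (lf e).ZC) (φ n : ℝ → ℝ),
      Dt C' K c φ (t - 4 * (1 / 128)) (t + 4 * (1 / 128)) ∧ ContDiff ℝ ∞ n ∧ (∀ r, 0 ≤ n r) ∧
      ∀ x ∈ univ ×ˢ Ioo (t - 3 / 64) (t + 3 / 64), c.Φ x = √(w / 2) • A.Φ x ∧
        (lf e).cyl.fc c x = e.cyl.fc A x ∧ n x.2 = nm (sl A x.2) ∧
        (lf e).cyl.eD c x = (Nd18.ct p q 1 x.2 * b (n x.2)) • e.m.ρ none x.1 (c.Φ x) := by
  obtain ⟨B, hB⟩ := he.bf 1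
  rw [iteratedDeriv_one] at hB
  refine ⟨|B| + |C| + 1, fun K w b S ψ h' p q A t s hN hs ht hK => ?_⟩
  have q4 : (0 : ℝ) < 1 / 128 := by norm_num
  have J : Ioo (t - 1 / 16) (t + 1 / 16) ⊆ Ioo (s - 1 / 8) (s + 1 / 8) :=
    Ioo_subset_Ioo (by linarith [(abs_le.1 ht).2]) (by linarith [(abs_le.1 ht).1])
  have hO : tsupport (fun x : e.Y.M × ℝ => ct (1 / 128) (t - 7 / 128) (t + 7 / 128) x.2) ⊆
      univ ×ˢ Jv p q := (ct_tsupp q4).trans (prod_mono_right ((Icc_subset_Ioo (by linarith)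
      (by linarith)).trans (J.trans hs)))
  have o1 : ∀ r ∈ Ioo (t - 3 / 64) (t + 3 / 64), ct (1 / 128) (t - 7 / 128) (t + 7 / 128) r = 1 :=
    fun r hr => ct_one q4 ⟨by linarith [hr.1], by linarith [hr.2]⟩
  generalize hφ : ct (1 / 128) (t - 7 / 128) (t + 7 / 128) = φ at hO o1
  have s0 : ContDiff ℝ ∞ φ := hφ ▸ cd_ct
  have sm : ∀ {N : Type} [NormedAddCommGroup N] [NormedSpace ℝ N] {f : e.Y.M × ℝ → N},
      ContMDiffOn (IC e.Y.I) 𝓘(ℝ, N) ∞ f (univ ×ˢ Jv p q) →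
      Sm (IC e.Y.I) fun x => φ x.2 • f x := fun h => contMDiff_of_tsupport fun x hx =>
    (sm_snd s0 x).smul (h.contMDiffAt ((isOpen_univ.prod Nd18.isOpen_Jv).mem_nhds
      (hO (tsupport_smul_subset_left _ _ hx))))
  set c₁ : (e.re w b S ψ).ZC := ⟨fun i x => φ x.2 • A.a i x, fun x => φ x.2 • A.Φ x⟩ with hc₁
  have o2 : ∀ x : e.Y.M × ℝ, φ x.2 = 0 ∨ x ∈ univ ×ˢ Jv p q := fun x =>
    (em _).imp_right fun h => hO (subset_tsupport _ h)
  have hc : (e.re w b S ψ).cyl.Adm c₁ := ⟨fun i => sm (hN.adm.sa i), sm hN.adm.sΦ, fun i x => (o2 x).elim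
    (fun h => by simp [hc₁, h]) fun h => by
      simp only [hc₁, smul_eq_mul, mul_left_comm _ (φ _), ← Finset.mul_sum, hN.adm.pa i x h],
    fun x => (o2 x).elim (fun h => by simp [hc₁, h]) fun h => by
      simp only [hc₁, map_smul, hN.adm.pΦ x h]⟩
  have o3 : ∀ r ∈ Ioo (t - 3 / 64) (t + 3 / 64), sl c₁ r = sl A r := fun r hr => by
    simp only [sl, hc₁, o1 r hr, one_smul]
  have o4 := (isOpen_univ (X := e.Y.M)).prod (isOpen_Ioo (a := t - 3 / 64) (b := t + 3 / 64))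
  have o5 : ∀ x ∈ univ ×ˢ Ioo (t - 3 / 64) (t + 3 / 64), (∀ i, c₁.a i =ᶠ[𝓝 x] A.a i) ∧
      c₁.Φ =ᶠ[𝓝 x] A.Φ := fun x hx =>
    have := o4.eventually_mem hx
    ⟨fun i => this.mono fun y hy => by simp [hc₁, o1 _ hy.2], this.mono fun y hy => by
      simp [hc₁, o1 _ hy.2]⟩
  have o6 : ∀ x ∈ univ ×ˢ Icc (t - 4 * (1 / 128)) (t + 4 * (1 / 128)),
      x ∈ (univ : Set e.Y.M) ×ˢ Ioo (t - 3 / 64) (t + 3 / 64) := fun x hx =>
    ⟨trivial, by linarith [hx.2.1], by linarith [hx.2.2]⟩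
  have o7 : ∀ x ∈ univ ×ˢ Ioo (t - 3 / 64) (t + 3 / 64), x ∈ (univ : Set e.Y.M) ×ˢ
      Ioo (t - 1 / 16) (t + 1 / 16) := fun x hx => ⟨trivial, by linarith [hx.2.1], by linarith [hx.2.2]⟩
  have w0 : 0 ≤ w := h'.cyl.w
  have w2 : √(w / 2) * √(w / 2) = w / 2 := Real.mul_self_sqrt (by linarith)
  have hc2 : (lf e).cyl.Adm ⟨c₁.a, fun x => √(w / 2) • c₁.Φ x⟩ :=
    ⟨hc.sa, sm_cs _ hc.sΦ, hc.pa, fun x => (map_smul _ _ _).trans (congrArg _ (hc.pΦ x))⟩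
  have sζ : ∀ i, Sm (IC e.Y.I) fun x : e.Y.M × ℝ => e.ζ x.1 (none, some i) := fun i =>
    sm_fst ((Map77.pj ℝ (none, some i)).contMDiff.comp he.sζ)
  refine ⟨⟨c₁.a, fun x => √(w / 2) • c₁.Φ x⟩, fun r => Nd18.ct p q 1 r * deriv e.f (hol (sl c₁ r)),
    fun r => nm (sl c₁ r), ⟨hc2, Nd18.contDiff_ct.mul ((contDiff_infty_iff_deriv.1 he.sf).2.comp
      (contDiff_int (FY e) (sm_cs 4 (contMDiff_finsetSum (t := Finset.univ) fun i _ =>
      (sζ i).mul (hc.sa (some i)))))), fun r => ?_, fun x hx => ?_, fun v hv x hx => ?_, ?_⟩,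
    contDiff_int (FY e) (sm_nsq hc.sΦ), fun _ => integral_nonneg fun _ => sq_nonneg _, fun x hx =>
      ⟨congrArg (√(w / 2) • ·) (o5 x hx).2.self_of_nhds,
      Sw88.fc_congr (b := e.cyl) (o5 x hx).1, congrArg nm (o3 _ hx.2), ?_⟩⟩
  · rw [norm_mul, Real.norm_of_nonneg Nd18.ct_mem.1]
    linarith [mul_le_of_le_one_left (norm_nonneg (deriv e.f (hol (sl c₁ r)))) (Nd18.ct_mem (p := p)
      (q := q) (d := 1) (s := r)).2, hB (hol (sl c₁ r)), le_abs_self B, abs_nonneg C,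
      Real.norm_eq_abs (deriv e.f (hol (sl c₁ r)))]
  · have k := o6 x ⟨trivial, Ioo_subset_Icc_self hx.2⟩
    refine ((norm_smul _ _).trans ?_).trans_le (hK x (o7 x k))
    rw [(o5 x k).2.self_of_nhds, Real.norm_of_nonneg (Real.sqrt_nonneg _)]; rfl
  · have k := o6 x ⟨trivial, Ioo_subset_Icc_self hx.2⟩
    refine (congrArg norm (Dw_ev (g := rm p q A) _ ((o4.eventually_mem k).mono fun y hy =>
      ?_))).trans_le ((hN.τ v hv x ⟨trivial, hs (J (o7 x k).2)⟩).trans (by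
        linarith [abs_nonneg B, abs_nonneg C]))
    beta_reduce
    rw [rm, ← Sw88.eC_congr (o5 y hy).1 (o5 y hy).2, ← o3 _ hy.2]
    refine congrArg (fun z => e.cyl.p2 y (e.cyl.fc c₁ y - z) - _ + _) ?_
    exact (congrArg ((2 : ℝ) • ·) (Sw88.qd_smul (b := e.cyl) _ _ _ _)).trans (by
      rw [smul_smul, w2, mul_div_cancel₀ _ two_ne_zero]; rfl)
  · have c1 := ct_eg (lf_ok he) hc2
    refine le_trans ?_ (show |C| ≤ _ by linarith [abs_nonneg B])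
    refine (ENNReal.ofReal_le_ofReal_iff (abs_nonneg C)).1 ((ofReal_integral_eq_lintegral_ofReal
      (int_on c1 _ _) (.of_forall fun x => (sq_nonneg _).trans (eg_fc _ x))).trans_le
      (((setLIntegral_mono' (MeasurableSet.univ.prod measurableSet_Icc) fun x hx =>
      ENNReal.ofReal_le_ofReal ?_).trans (lintegral_mono_set fun x hx =>
      mk_mem_prod (mem_univ _) (J (o7 x (o6 x hx)).2))).trans ((hN.ed s hs).trans
      (ENNReal.ofReal_le_ofReal (le_abs_self C)))))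
    obtain ⟨k1, k2⟩ := o5 x (o6 x hx)
    have k3 : ∀ i, ‖Wz78.nab (IC e.Y.I) e.cyl.F.e (e.cyl.W c₁) i (fun x => √(w / 2) • c₁.Φ x) x‖ ^ 2 ≤
        w * ‖Wz78.nab (IC e.Y.I) e.cyl.F.e (e.cyl.W A) i A.Φ x‖ ^ 2 := fun i => by
      rw [Wz78.nab_smul _ contMDiffAt_const (hc.sΦ x), dv_const, Pi.zero_apply, zero_smul, zero_add,
        Sw88.nab_congr' k1 k2, norm_smul, mul_pow, Real.norm_eq_abs, sq_abs, sq √_, w2]
      exact mul_le_mul_of_nonneg_right (by linarith) (sq_nonneg _)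
    exact le_add_of_le_of_nonneg (add_le_add (congrArg (‖·‖ ^ 2) (Sw88.fc_congr (b := e.cyl) k1)).le
      ((Finset.sum_le_sum fun i _ => k3 i).trans_eq (Finset.mul_sum ..).symm)) (by positivity)
  · refine (eD_smul (b := e.cyl) c₁ contMDiffAt_const (hc.sΦ x)).trans ?_
    dsimp only
    rw [o3 _ hx.2, Sw88.eD_congr (o5 x hx).1 (o5 x hx).2, (o5 x hx).2.self_of_nhds, map_smul,
      smul_comm _ √_, show e.cyl.eD A x = _ from hN.eD x ⟨trivial, hs (J (o7 x hx).2)⟩]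
    simp [D_def, dv_const]

/-- EN-SLF -/
theorem slf : SlfStmt κ lam ν := fun e he _ C => by
  obtain ⟨C', h1⟩ := toDt he C
  have r0 : (0 : ℝ) < 1 / 128 := by norm_num
  have hl := lf_ok he
  obtain ⟨L, h2⟩ := toDc hl C' r0
  let X := {d : (lf e).ZC × (ℝ → ℝ) × ℝ // Dc C' C L d.1 d.2.1 (d.2.2 - 1 / 128) (d.2.2 + 1 / 128)}
  obtain ⟨K, h3⟩ := (jF hl (fun d : X => d.2) r0 (t := fun d => d.1.2.2) (fun d =>
    ⟨by linarith, by linarith⟩) (l := 1) fun d => by linarith).lp.2 1 one_pos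
  refine ⟨K, fun w b S ψ h' p q A hN hS t ht => ?_⟩
  rw [mem_Jd] at ht
  obtain ⟨c, φ, n, k1, -, -, k2⟩ := h1 C w b S ψ h' p q A t t hN (fun r hr => ⟨fun a ha => by
    linarith [ht.1 a ha, hr.1], fun b hb => by linarith [ht.2 b hb, hr.2]⟩) (by simp) fun x hx =>
    hS x ⟨trivial, mem_Jd.2 ⟨fun a ha => by linarith [ht.1 a ha, hx.2.1], fun b hb => by
      linarith [ht.2 b hb, hx.2.2]⟩⟩
  obtain ⟨u, hu, k3⟩ := h2 _ _ _ _ k1
  simpa only [yw, Measure.restrict_univ, fun x => Pb50.fc_act hl.cyl (fun i => k1.adm.sa i x)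
    (Pb50.LG.of_gau hu x), fun y => (k2 (y, t) ⟨trivial, by linarith, by linarith⟩).2.1] using
    h3 ⟨((lf e).cyl.act u c, φ, t), k3⟩

theorem small (e : En3 κ lam ν) (K : ℝ) {ε : ℝ} (hε : 0 < ε) : ∃ η > 0, ∀ u : e.Y.M → Eu ν,
    Sm e.Y.I u → e.D.F.nrm 3 u ≤ K → e.D.F.nrm 0 u ≤ η → ∀ y, ‖u y‖ ≤ ε := by
  obtain ⟨_, hF⟩ := Cyl58.tame3 e
  obtain ⟨S, S0, hS⟩ := Cyl58.sup2 (V := Eu ν) (FY e) e.Y.dim.le
  have p : ∀ r : ℝ, 0 < ε / (2 * (S * |r| + 1)) ∧ S * (ε / (2 * (S * |r| + 1)) * |r|) ≤ ε / 2 :=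
    fun r => ⟨by positivity, by
      rw [mul_left_comm, div_mul_eq_mul_div, div_le_div_iff₀ (by positivity) two_pos]; nlinarith⟩
  have k := Mon62.interp (A := Ell97.scl (Eu ν) (FY e)) (Mon62.sum_D_sq_le hF) (p K).1 2
  generalize Mon62.KJ _ _ _ = J at k
  refine ⟨_, (p J).1, fun u hu h3 h0 y => ?_⟩
  have := k (Ell97.tst u hu (.of_compactSpace _))
  simp only [Ell97.scl_N] at this
  have := (hS u hu y).trans (mul_le_mul_of_nonneg_left (this.trans (add_le_add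
    (mul_le_mul_of_nonneg_left (h3.trans (le_abs_self K)) (p K).1.le) ((mul_le_mul (le_abs_self J) h0
    (nrm_nonneg _ _) (abs_nonneg J)).trans_eq (mul_comm _ _)))) S0)
  linarith [(p K).2, (p J).2]

theorem prf_le {r : ℝ} (hr : 0 ≤ r) : ‖prf r‖ ≤ 1 :=
  have h := expNegInvGlue.pos_of_pos one_pos
  (Real.norm_of_nonneg (div_nonneg (expNegInvGlue.nonneg _) h.le)).trans_le
    ((div_le_one h).2 (expNegInvGlue.monotone (by linarith)))

/-- EN-LW1 -/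
theorem lw1 : Lw1Stmt κ lam ν := fun e he _ C K ε hε c hc => by
  obtain ⟨C', h1⟩ := toDt he C
  have r0 : (0 : ℝ) < 1 / 128 := by norm_num
  have hl := lf_ok he
  obtain ⟨L, h2⟩ := toDc hl C' r0
  let X := {d : (lf e).ZC × (ℝ → ℝ) × (ℝ → ℝ) × ℝ // Dc C' K L d.1 d.2.1 (d.2.2.2 - 1 / 128)
    (d.2.2.2 + 1 / 128) ∧ ContDiff ℝ ∞ d.2.2.1 ∧ (∀ s ∈ Ioo (d.2.2.2 - 1 / 128) (d.2.2.2 + 1 / 128),
    ‖d.2.2.1 s‖ ≤ c ∧ ‖deriv d.2.2.1 s‖ ≤ c) ∧ ∀ x ∈ univ ×ˢ Ioo (d.2.2.2 - 1 / 128) (d.2.2.2 + 1 / 128),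
    (lf e).cyl.eD d.1 x = deriv d.2.2.1 x.2 • e.m.ρ none x.1 (d.1.Φ x)}
  obtain ⟨K', h3⟩ := yw_nrm (yt (·) r0 (t := fun d => d.1.2.2.2) (fun d => ⟨by linarith, by linarith⟩)
    (jp3 hl (l := 1) (h := fun d => by linarith) (fun d : X => d.2.1) (fun d => d.2.2.1)
    (fun d => d.2.2.2.1) fun d => d.2.2.2.2))
  obtain ⟨η, η0, h4⟩ := small e K' hε
  refine ⟨η ^ 2, by positivity, fun w hw S ψ h' p q A hN hS t ht hn => ?_⟩
  rw [mem_Jd] at ht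
  obtain ⟨s, s1, s2⟩ : ∃ s, Ioo (s - 1 / 8) (s + 1 / 8) ⊆ Jv p q ∧ |s - t| ≤ 1 / 16 := by
    by_cases k : ∀ b ∈ q, t + 3 / 16 ≤ b
    · exact ⟨t + 1 / 16, fun r hr => ⟨fun a ha => by linarith [ht.1 a ha, hr.1], fun b hb => by
        linarith [k b hb, hr.2]⟩, by simp⟩
    push Not at k
    obtain ⟨b, hb, k⟩ := k
    exact ⟨t - 1 / 16, fun r hr => ⟨fun a ha => by linarith [hN.len a ha b hb, hr.1], fun b hb => by
      linarith [ht.2 b hb, hr.2]⟩, by simp⟩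
  obtain ⟨c', φ, n, k1, n1, n0, k2⟩ := h1 K w _ S ψ h' p q A t s hN s1 s2 fun x hx => hS x ⟨trivial,
    fun a ha => by linarith [ht.1 a ha, hx.2.1], fun b hb => by linarith [ht.2 b hb, hx.2.2]⟩
  obtain ⟨u, hu, k3⟩ := h2 _ _ _ _ k1
  have b1 : ContDiff ℝ ∞ fun r => Nd18.ct p q 1 r * (c * prf (n r)) :=
    Nd18.contDiff_ct.mul (h'.sb.comp n1)
  have b2 : ∀ r, ‖Nd18.ct p q 1 r * (c * prf (n r))‖ ≤ c := fun r => by
    rw [norm_mul, norm_mul, Real.norm_of_nonneg Nd18.ct_mem.1, Real.norm_of_nonneg hc]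
    exact (mul_le_of_le_one_left (by positivity) Nd18.ct_mem.2).trans
      (mul_le_of_le_one_right hc (prf_le (n0 r)))
  have b3 := funext (b1.continuous.deriv_integral _ t)
  have k4 : ∀ y, ‖((lf e).cyl.act u c').Φ (y, t)‖ = √(w / 2) * ‖A.Φ (y, t)‖ := fun y => by
    rw [Pb50.norm_act hl.cyl (hu.2 _), (k2 (y, t) ⟨trivial, by linarith, by linarith⟩).1, norm_smul,
      Real.norm_of_nonneg (Real.sqrt_nonneg _)]
  intro ⟨y, s⟩ ⟨_, hs⟩
  obtain rfl : t = s := hs.symm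
  refine (k4 y).ge.trans (h4 _ (sm_slice_fst k3.adm.sΦ _) (h3 ⟨((lf e).cyl.act u c', φ,
    fun s => ∫ r in t..s, Nd18.ct p q 1 r * (c * prf (n r)), t), k3, contDiff_infty_iff_deriv.2
    ⟨intervalIntegral.differentiable_integral_of_continuous b1.continuous, b3.symm ▸ b1⟩, fun s hs =>
    ⟨(intervalIntegral.norm_integral_le_of_norm_le_const fun r _ => b2 r).trans
      (mul_le_of_le_one_right hc (abs_le.2 ⟨by linarith [hs.1], by linarith [hs.2]⟩)),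
      (congrArg (‖· s‖) b3).trans_le (b2 s)⟩, fun x hx => ?_⟩) (nrm_le_of_sq η0.le ?_) y)
  · rw [b3, Pb50.eD_act hl.cyl (.of_adm k1.adm x) (.of_gau hu x), (k2 x ⟨trivial, by linarith [hx.2.1],
      by linarith [hx.2.2]⟩).2.2.2, ← Pb50.cB_apply, map_smul]
    exact congrArg (_ • ·) (Pb50.cs_comm (Pb50.Jρ hl.cyl none x) _ _).symm
  · simp only [N2, n2, k4, mul_pow, integral_const_mul, Real.sq_sqrt (half_pos hw.1).le]
    exact (mul_le_of_le_one_right (half_pos hw.1).le hn).trans (by linarith [hw.1, hw.2])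

theorem Lop_cb {F : Fr (IC e.Y.I) (e.Y.M × ℝ) (Option κ)} {C : ℕ → ℝ} (h : F.Tame C)
    {χ : e.Y.M × ℝ → ℝ} {A : ℝ} (hχ : F.CB 2 χ A) (y : e.Y.M × ℝ) :
    6 * ∑ a, dv _ (F.e a) χ y ^ 2 + 2 * |Mp86.Lop _ F.e F.dv χ y| ≤
      Fintype.card (Option κ) * (6 * A ^ 2 + 2 * (A + |C 0| * A)) := by
  have h2 : ∀ a, |dv _ (F.e a) χ y| ≤ A := fun a => hχ [a] one_le_two y
  have h4 : |Mp86.Lop _ F.e F.dv χ y| ≤ _ * (A + |C 0| * A) := Sw88.sum_abs_le fun a =>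
    (abs_add_le _ _).trans (add_le_add (hχ [a, a] le_rfl y) ((abs_mul _ _).trans_le (mul_le_mul
      (((h.dv a).2 0 [] le_rfl y).trans (le_abs_self _)) (h2 a) (abs_nonneg _) (abs_nonneg _))))
  have h5 := Sw88.sum_abs_le fun a => (abs_pow _ _).trans_le (pow_le_pow_left₀ (abs_nonneg _) (h2 a) 2)
  linarith [le_abs_self (∑ a, dv _ (F.e a) χ y ^ 2)]

/-- EN-C0U -/
theorem c0u : C0uStmt κ lam ν := fun e he h0 C => by
  obtain ⟨C', h1⟩ := toDt he C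
  have hl := lf_ok he
  obtain ⟨T, hF⟩ := hl.cyl.tame
  have r0 : (0 : ℝ) < 1 / 128 := by norm_num
  obtain ⟨A, hA⟩ := CBs_ct (FY e) r0
  have bd : ∀ {N : Type} [NormedAddCommGroup N] [NormedSpace ℝ N] {f : e.Y.M × ℝ → N},
    (lf e).cyl.F.Cb f → ∃ B, ∀ x, ‖f x‖ ≤ B := fun ⟨_, h⟩ => ⟨_, CB_bound (h.2 0)⟩
  have m := fun {f g} => Cb_bil (F := (lf e).cyl.F.toPre) (f := f) (g := g) (.mul ℝ (En ν))
  obtain ⟨B0, b0⟩ := bd hl.cyl.cms
  choose B1 b1 using fun i => bd (Cb_add (Cb_D hl.cyl.cms i) (Cb_sub (m (hl.cyl.cA i) hl.cyl.cms)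
    (m hl.cyl.cms (hl.cyl.cA i))))
  obtain ⟨B2, b2⟩ := bd (Cht98.Cb_fst (FY e) (Cb_of_compact he.sζ))
  set B := |B0| + ∑ i, |B1 i|
  set n := (Fintype.card (Option κ) : ℝ)
  set R := 2 * (C' + C' * B2) + (Sw88.kS n (T 2) / 2 + n * (2 * B + B ^ 2 / 2))
  set D := n * (6 * A 2 ^ 2 + 2 * (A 2 + |T 0| * A 2))
  refine ⟨√(|D| / (1 / 2) + √(R ^ 2 / 2 / (1 / 2)) + 1), fun K c hc => ?_⟩
  obtain ⟨w₀, w0, h2⟩ := lw1 e he h0 C K (1 / 2) one_half_pos c hc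
  refine ⟨w₀, w0, fun w hw S ψ h' p q A' hN hS ⟨y, t⟩ ⟨_, ht⟩ => ?_⟩
  rw [mem_Jd] at ht
  obtain ⟨c', φ, m, k1, n1, -, k2⟩ := h1 K w _ S ψ h' p q A' t t hN (fun r hr => ⟨fun a ha => by
    linarith [ht.1 a ha, hr.1], fun b hb => by linarith [ht.2 b hb, hr.2]⟩) (by simp) fun x hx =>
    hS x ⟨trivial, fun a ha => by linarith [ht.1 a ha, hx.2.1], fun b hb => by
      linarith [ht.2 b hb, hx.2.2]⟩
  have k3 : ∀ x ∈ univ ×ˢ Ioo (t - 3 / 64) (t + 3 / 64), ‖c'.Φ x‖ = √(w / 2) * ‖A'.Φ x‖ := fun x hx => by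
    rw [(k2 x hx).1, norm_smul, Real.norm_of_nonneg (Real.sqrt_nonneg _)]
  have hχ := hA (t - 1 / 64) (t + 1 / 64)
  have s1 := sm_nsq k1.adm.sΦ
  have k := Mp86.ko (I := IC e.Y.I) (e := (lf e).cyl.F.e) (b := (lf e).cyl.F.dv)
    (f := fun x => ‖c'.Φ x‖ ^ 2 - 1) (R := R ^ 2 / 2) one_half_pos (by positivity) (abs_nonneg D)
    ((isCompact_univ.prod isCompact_Icc).of_isClosed_subset (isClosed_tsupport _) (ct_tsupp r0))
    (fun x => ⟨mul_nonneg (Real.smoothTransition.nonneg _) (Real.smoothTransition.nonneg _),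
      (le_abs_self _).trans ct_abs⟩) (fun x _ => Mp86.vf _ x) (Mp86.cm2 hχ.1)
    (fun x => (Lop_cb hF (hχ.2 2) x).trans (le_abs_self _))
    (fun x _ => Mp86.cm2 (s1.sub contMDiff_const) x) (fun x hx hf => ?_) (y, t)
  · rw [ct_one r0 ⟨by linarith, by linarith⟩] at k
    exact (k3 _ ⟨trivial, by linarith, by linarith⟩).ge.trans (Real.le_sqrt_of_sq_le (by linarith))
  have hx := (ct_tsupp r0 hx).2
  have x1 : x ∈ univ ×ˢ Ioo (t - 3 / 64) (t + 3 / 64) := ⟨trivial, by linarith [hx.1], by linarith [hx.2]⟩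
  have x2 : 1 < m x.2 := (k2 x x1).2.2.1 ▸ lt_of_not_ge fun h => by
    have := h2 w hw S ψ h' p q A' hN hS x.2 (mem_Jd.2 ⟨fun a ha => by linarith [ht.1 a ha, hx.1],
      fun b hb => by linarith [ht.2 b hb, hx.2]⟩) h x ⟨trivial, rfl⟩
    have := (k3 x x1).trans_le this
    nlinarith [norm_nonneg (c'.Φ x)]
  have B0' : 0 ≤ ∑ i, |B1 i| := by positivity
  rw [Mp86.Lop_sub (Mp86.vf _ x) (Mp86.cm2 s1 x) contMDiffAt_const, Mp86.Lop_const, sub_zero]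
  refine le_trans ?_ (Sw88.boch hl.cyl k1.adm (K := B) (k1.adm.sΦ x) (.of_forall fun y =>
    Sw88.p_of hl.cyl (k1.adm.pΦ y)) (by
      filter_upwards [(isOpen_univ.prod isOpen_Ioo).mem_nhds x1, (n1.continuous.comp
        continuous_snd).continuousAt.eventually_const_lt x2] with z z1 z2
      exact (k2 z z1).2.2.2.trans (by rw [show c * prf (m z.2) = 0 from h'.b1 _ z2.le]; simp))
    ((b0 x).trans (by linarith [le_abs_self B0])) fun i => (b1 i x).trans (by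
      linarith [le_abs_self (B1 i), abs_nonneg B0, Finset.single_le_sum (f := fun i => |B1 i|)
        (fun _ _ => abs_nonneg _) (Finset.mem_univ i)]))
  have a1 := Sw88.inner_fc_qd_ge hl.cyl (k1.adm.pΦ x)
  have a2 : ‖(lf e).cyl.eC c' x + (lf e).cyl.om x‖ ≤ C' + C' * B2 := by
    have := k1.τ [] zero_le_two x ⟨trivial, by linarith [hx.1], by linarith [hx.2]⟩
    rw [show (lf e).cyl.om x = 0 from congrFun h0 _, add_zero, ← add_sub_cancel_right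
      ((lf e).cyl.eC c' x) (φ x.2 • e.ζ x.1)]
    exact (norm_sub_le _ _).trans (add_le_add this ((norm_smul_le _ _).trans (mul_le_mul (k1.bφ _)
      (b2 x) (norm_nonneg _) ((norm_nonneg _).trans this))))
  have a3 : |Sw88.sc (lf e).cyl x| ≤ Sw88.kS n (T 2) := Sw88.scal_le hF x
  rw [show (lf e).cyl.w = 2 from rfl, show ‖c'.Φ x‖ ^ 4 = (‖c'.Φ x‖ ^ 2) ^ 2 by ring] at a1
  generalize ‖c'.Φ x‖ ^ 2 = s at *
  have s0 : 0 ≤ s := by linarith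
  change _ ≤ _ - (_ + n * _) * s
  linarith [mul_le_mul_of_nonneg_right a2 s0, mul_le_mul_of_nonneg_right a3 s0, sq_nonneg (s - R),
    show R * s = (2 * (C' + C' * B2) + (Sw88.kS n (T 2) / 2 + n * (2 * B + B ^ 2 / 2))) * s from rfl]

end Crest.Agent.X212.Lw78
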